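import Vale.Agent.P284.H174.AlbS
import Vale.Agent.P284.H731.S2b
import Vale.Agent.P284.H5.V16
import Mathlib.Analysis.Complex.Harmonic.Liouville

/-!
# P284 (helper174): bounded pluriharmonic functions on a covering of a dominated manifold are constant
-/

open scoped Manifold ContDiff Topology ComplexOrder
open Filter Set Metric

noncomputable section

namespace Vale.Agent.P284.H174

open Vale.Agent.P272.K Vale.Agent.P284.H894 Vale.Agent.P284.H894.G Vale.Agent.P284.H894.V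
  Vale.Agent.P284.H221 Vale.Agent.P284.H465.V17 Vale.Agent.P284.H5.V

section
variable {n N : ℕ} {X : Type} [TopologicalSpace X] [ChartedSpace (Cm n) X]
  {E : Type} [TopologicalSpace E] {p : E → X} {w : Chart n X → Cm n → Matrix (Fin n) (Fin n) ℂ}
  {u : E → ℝ} {B : ℝ}

/-- a pluriharmonic function is locally a real part -/
theorem phb_re (hp : IsCoveringMap p) (hu : IsPHB p w u B) {y : E} {e : Chart n X}
    (he : At e (p y)) : ∃ f : Cm n → ℂ, AnalyticAt ℂ f (e (p y)) ∧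
      ∀ᶠ y' in 𝓝 y, u y' = (f (e (p y'))).re := by
  obtain ⟨g, hg1, hg2, -⟩ := hu y e he
  obtain ⟨r, hr, hball⟩ := Metric.eventually_nhds_iff_ball.1 hg2
  obtain ⟨F, hF, hFr⟩ := Vale.Agent.P301.H949.exists_re (U := ball (e (p y)) r) isOpen_ball
    (convex_ball _ _) (fun z hz => (hball z hz).1.of_le two_le)
    (fun z hz => (hball z hz).2)
  refine ⟨F, (Vale.Agent.P299.H720.contDiffAt_of_diffOn isOpen_ball hF
    (mem_ball_self hr)).analyticAt, ?_⟩
  have hq : Tendsto (fun y' => e (p y')) (𝓝 y) (𝓝 (e (p y))) := (map_chart hp he).le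
  filter_upwards [hg1, hq.eventually (ball_mem_nhds _ hr)] with y' h1 h2
  rw [h1, hFr _ h2]

variable [IsManifold 𝓘(ℂ, Cm n) ω X]

/-- along a complex line of a lift, a pluriharmonic function is harmonic -/
theorem harm_line (hp : IsCoveringMap p) (hu : IsPHB p w u B) {Φ : Cm N → X}
    (hΦ : ContMDiff 𝓘(ℂ, Cm N) 𝓘(ℂ, Cm n) ω Φ) {F : Cm N → E} (hF : Continuous F)
    (hpF : ∀ ζ, p (F ζ) = Φ ζ) (a b : Cm N) (t : ℂ) :
    InnerProductSpace.HarmonicAt (fun s : ℂ => u (F (a + s • b))) t := by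
  set e := chartAt (Cm n) (Φ (a + t • b)) with he
  have hAt : At e (Φ (a + t • b)) := at_chart _
  have hAt' : At e (p (F (a + t • b))) := by rw [hpF]; exact hAt
  obtain ⟨f, hf, hfu⟩ := phb_re hp hu hAt'
  have hl : Continuous fun s : ℂ => a + s • b := by fun_prop
  have h1 : (fun s : ℂ => u (F (a + s • b))) =ᶠ[𝓝 t]
      fun s => (f (e (Φ (a + s • b)))).re := by
    have h2 : Tendsto (fun s : ℂ => F (a + s • b)) (𝓝 t) (𝓝 (F (a + t • b))) :=
      ((hF.comp hl).tendsto t)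
    filter_upwards [h2.eventually hfu] with s hs
    rw [hs, hpF]
  rw [InnerProductSpace.harmonicAt_congr_nhds h1]
  have h3 : AnalyticAt ℂ (fun s : ℂ => f (e (Φ (a + s • b)))) t := by
    have h4 : AnalyticAt ℂ (fun s : ℂ => a + s • b) t := by fun_prop
    have h5 : AnalyticAt ℂ (fun ξ => e (Φ ξ)) (a + t • b) := chart_comp_analytic hΦ hAt
    have h6 : AnalyticAt ℂ f (e (Φ (a + t • b))) := by rw [← hpF]; exact hf
    have h7 : AnalyticAt ℂ (fun s : ℂ => e (Φ (a + s • b))) t :=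
      AnalyticAt.comp' (g := fun ξ => e (Φ ξ)) (f := fun s : ℂ => a + s • b) h5 h4
    exact AnalyticAt.comp' (f := fun s : ℂ => e (Φ (a + s • b))) h6 h7
  exact h3.harmonicAt_re

/-- a holomorphic map of rank `n` at `ζ` is open at `ζ` -/
theorem map_nhds_of_rk {Φ : Cm N → X} (hΦ : ContMDiff 𝓘(ℂ, Cm N) 𝓘(ℂ, Cm n) ω Φ) {ζ : Cm N}
    (h : RkAt n Φ ζ) {e : Chart n X} (he : At e (Φ ζ)) :
    map (fun ξ => e (Φ ξ)) (𝓝 ζ) = 𝓝 (e (Φ ζ)) := by
  have h1 := (chart_comp_analytic hΦ he).hasStrictFDerivAt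
  exact h1.map_nhds_eq_of_surj (LinearMap.range_eq_top.2 (h.surjective hΦ he))

end

/-- **Liouville** -/
theorem liouStmt : LiouStmt := by
  intro n N X _ _ _ _ _ _ hD w E _ _ p hp hsurj u B M hu hM
  obtain ⟨Φ, hΦ, ζ₀, -, hrk⟩ := hD univ isOpen_univ univ_nonempty
  obtain ⟨y₀, hy₀⟩ := hsurj (Φ ζ₀)
  obtain ⟨F, ⟨hF0, hpF'⟩, -⟩ :=
    hp.existsUnique_continuousMap_lifts ⟨Φ, hΦ.continuous⟩ ζ₀ y₀ hy₀
  have hpF : ∀ ζ, p (F ζ) = Φ ζ := fun ζ => congrFun hpF' ζ
  have hconst : ∀ ζ, u (F ζ) = u (F ζ₀) := by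
    intro ζ
    have h1 := InnerProductSpace.bounded_harmonic_on_complex_plane_is_constant
      (fun s : ℂ => u (F (ζ₀ + s • (ζ - ζ₀))))
      (fun t _ => harm_line hp hu hΦ F.continuous hpF _ _ t)
      (isBounded_iff_forall_norm_le.2 ⟨M, by rintro _ ⟨s, rfl⟩; exact hM _⟩) 1 0
    simpa using h1
  set e := chartAt (Cm n) (Φ ζ₀) with he
  have hAt : At e (Φ ζ₀) := at_chart _
  have hAt' : At e (p (F ζ₀)) := by rw [hpF]; exact hAt
  obtain ⟨g, hug, -, -⟩ := hu (F ζ₀) e hAt'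
  have hg : ∀ᶠ z in 𝓝 (e (Φ ζ₀)), g z = u (F ζ₀) := by
    rw [← map_nhds_of_rk hΦ hrk hAt, eventually_map]
    filter_upwards [F.continuous.continuousAt.eventually hug] with ξ hξ
    rw [← hconst ξ, hξ, hpF]
  have hall : ∀ y, u y = u (F ζ₀) := by
    intro y
    refine eq_const_of_eventually hp hu (y₀ := F ζ₀) ?_ y
    have hq : Tendsto (fun y' => e (p y')) (𝓝 (F ζ₀)) (𝓝 (e (Φ ζ₀))) := by
      rw [← hpF]
      exact (map_chart hp hAt').le
    filter_upwards [hug, hq.eventually hg] with y' h1 h2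
    rw [h1, h2]
  intro y y'
  rw [hall y, hall y']

end Vale.Agent.P284.H174
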