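import Vale.Agent.P284.H619.NS0S
import Vale.Agent.P284.H221.SigS
import Vale.Agent.P284.H894.W.Spec

/-!
# P284 (helper174), module ALB+U: statements

The Albanese map of a covering of a projective manifold dominated by `ℂᴺ` (no growth condition): it is
of full rank, and there is a subgroup of finite index with maximal first Betti number.
-/

open scoped Manifold ContDiff Topology ComplexOrder
open Filter

noncomputable section

namespace Vale.Agent.P284.H174

open Vale.Agent.P272.K Vale.Agent.P284.H894 Vale.Agent.P284.H894.G Vale.Agent.P284.H894.V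
  Vale.Agent.P284.H894.W Vale.Agent.P284.H221 Vale.Agent.P284.H998 Vale.Agent.P284.H619

/-- **U**: a holomorphic map `F : E → ℂ^q` which is additive along a subgroup `G` of finite index, with
periods spanning `ℂ^q` over `ℝ`, is a submersion somewhere (so `q ≤ n`). -/
def RegStmt : Prop :=
  ∀ (n N : ℕ) (X : Type) [TopologicalSpace X] [T2Space X] [CompactSpace X]
    [ChartedSpace (Cm n) X] [IsManifold 𝓘(ℂ, Cm n) ω X]
    (ι : Type) [Fintype ι] (_ : PJ n X ι) (_ : Dom N n X)
    (E Γ : Type) [TopologicalSpace E] [ConnectedSpace E] [Group Γ] [MulAction Γ E]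
    (p : E → X), IsGalois Γ p → ∀ (G : Subgroup Γ), G.FiniteIndex →
    ∀ (q : ℕ) (F : E → Cm q) (c : Γ → Cm q),
    (∀ (y : E) (e : Chart n X), At e (p y) → ∃ f : Cm n → Cm q,
      (∀ᶠ y' in 𝓝 y, F y' = f (e (p y'))) ∧ AnalyticAt ℂ f (e (p y))) →
    (∀ g ∈ G, ∀ y, F (g • y) = F y + c g) → Submodule.span ℝ (c '' (G : Set Γ)) = ⊤ →
    ∃ y, Reg (n := n) p F y

/-- Bounded pluriharmonic functions (with bounded gradient) on coverings are constant. -/
def LiouStmt : Prop :=
  ∀ (n N : ℕ) (X : Type) [TopologicalSpace X] [T2Space X] [CompactSpace X] [Nonempty X]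
    [ChartedSpace (Cm n) X] [IsManifold 𝓘(ℂ, Cm n) ω X] (_ : Dom N n X)
    (w : Chart n X → Cm n → Matrix (Fin n) (Fin n) ℂ)
    (E : Type) [TopologicalSpace E] [ConnectedSpace E] (p : E → X), IsCoveringMap p →
    Function.Surjective p → ∀ (u : E → ℝ) (B M : ℝ), IsPHB p w u B → (∀ y, |u y| ≤ M) →
    ∀ y y', u y = u y'

/-- **S1** (Hodge), from the Liouville property -/
def S1LStmt : Prop :=
  ∀ (n : ℕ) (X : Type) [TopologicalSpace X] [T2Space X] [CompactSpace X] [ConnectedSpace X]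
    [ChartedSpace (Cm n) X] [IsManifold 𝓘(ℂ, Cm n) ω X]
    (w : Chart n X → Cm n → Matrix (Fin n) (Fin n) ℂ), IsKahler w →
    ∀ (E Γ : Type) [TopologicalSpace E] [ConnectedSpace E] [Group Γ] [MulAction Γ E] (p : E → X),
    IsGalois Γ p →
    (∀ (u : E → ℝ) (B M : ℝ), IsPHB p w u B → (∀ y, |u y| ≤ M) → ∀ y y', u y = u y') →
    ∀ (H : Subgroup Γ), H.FiniteIndex → ∀ φ : H →* Multiplicative ℤ,
    ∃ (u : E → ℝ) (B : ℝ), IsPHB p w u B ∧
      ∀ (h : H) (y : E), u ((h : Γ) • y) = u y + (Multiplicative.toAdd (φ h) : ℤ)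

/-- **ALB** for projective manifolds dominated by `ℂᴺ`. -/
def AlbStmt3 : Prop :=
  ∀ (n N : ℕ) (X : Type) [TopologicalSpace X] [T2Space X] [CompactSpace X] [ConnectedSpace X]
    [ChartedSpace (Cm n) X] [IsManifold 𝓘(ℂ, Cm n) ω X]
    (w : Chart n X → Cm n → Matrix (Fin n) (Fin n) ℂ), IsKahler w →
    ∀ (ι : Type) [Fintype ι] (_ : PJ n X ι) (_ : Dom N n X)
    (E Γ : Type) [TopologicalSpace E] [SimplyConnectedSpace E] [Group Γ] [MulAction Γ E]
      (p : E → X), IsGalois Γ p →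
    ∃ (G K : Subgroup Γ) (q : ℕ) (F : E → Cm q) (c : Γ → Cm q), Alb p w G K F c ∧
      ∃ y, Reg (n := n) p F y

end Vale.Agent.P284.H174
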