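import Vale.Agent.P284.H174.DD
import Vale.Agent.P284.H174.AlbS

/-!
# P284 (helper174), module U: regular points, from NS0 and SIG
-/

open scoped Manifold ContDiff Topology InnerProductSpace
open Filter Set Metric

noncomputable section

namespace Vale.Agent.P284.H174

open Vale.Agent.P272.K Vale.Agent.P284.H573 Vale.Agent.P284.H894.G Vale.Agent.P284.H619
  Vale.Agent.P284.H221 Vale.Agent.P284.H998 Vale.Agent.P284.H894.W

section
variable {n q : ℕ} {X : Type} [TopologicalSpace X] [ChartedSpace (Cm n) X]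
  {E : Type} [TopologicalSpace E] {p : E → X} {Γ : Type} [Group Γ] [MulAction Γ E]
  {G : Subgroup Γ} [Fintype (Γ ⧸ G)] {F : E → Cm q} {c : Γ → Cm q}

/-- the space of the induced representation -/
abbrev IndV (G : Subgroup Γ) [Fintype (Γ ⧸ G)] (q : ℕ) : Type :=
  EuclideanSpace ℂ ((Γ ⧸ G) × Fin q)

/-- the induced map -/
def indF (G : Subgroup Γ) [Fintype (Γ ⧸ G)] (F : E → Cm q) (y : E) : IndV G q :=
  WithLp.toLp 2 fun aj => F (aj.1.out⁻¹ • y) aj.2

/-- the induced representation -/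
def indπ (G : Subgroup Γ) [Fintype (Γ ⧸ G)] (q : ℕ) : Γ →* (IndV G q ≃ₗᵢ[ℂ] IndV G q) where
  toFun g := LinearIsometryEquiv.piLpCongrLeft 2 ℂ ℂ
    ((MulAction.toPerm (α := Γ) (β := Γ ⧸ G) g).prodCongr (Equiv.refl (Fin q)))
  map_one' := by
    ext v ⟨a, j⟩
    show v ((1 : Γ)⁻¹ • a, j) = v (a, j)
    rw [inv_one, one_smul]
  map_mul' g h := by
    ext v ⟨a, j⟩
    show v ((g * h)⁻¹ • a, j) = v (h⁻¹ • g⁻¹ • a, j)
    rw [mul_inv_rev, mul_smul]

lemma indπ_apply (g : Γ) (v : IndV G q) (a : Γ ⧸ G) (j : Fin q) :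
    indπ G q g v (a, j) = v (g⁻¹ • a, j) := rfl

lemma indF_apply (y : E) (a : Γ ⧸ G) (j : Fin q) : indF G F y (a, j) = F (a.out⁻¹ • y) j := rfl

/-- equivariance -/
lemma indF_smul (hF : ∀ g ∈ G, ∀ y, F (g • y) = F y + c g) (g : Γ) :
    ∃ c' : IndV G q, ∀ y, indF G F (g • y) = indπ G q g (indF G F y) + c' := by
  have hU : ∀ γ : Γ, ∃ d : Cm q, ∀ y, F ((γ : Γ ⧸ G).out⁻¹ • y) = F (γ⁻¹ • y) + d := by
    intro γ
    obtain ⟨g, hg⟩ := QuotientGroup.mk_out_eq_mul G γ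
    refine ⟨c (g : Γ)⁻¹, fun y => ?_⟩
    rw [hg, mul_inv_rev, mul_smul]
    exact hF _ (G.inv_mem g.2) _
  choose d hd using hU
  refine ⟨WithLp.toLp 2 fun aj => - d (g⁻¹ * aj.1.out) aj.2, fun y => ?_⟩
  ext ⟨a, j⟩
  have h1 : g⁻¹ • a = ((g⁻¹ * a.out : Γ) : Γ ⧸ G) := by
    conv_lhs => rw [← QuotientGroup.out_eq' a]
    rfl
  have h2 := congrFun (hd (g⁻¹ * a.out) y) j
  rw [PiLp.add_apply, indπ_apply, indF_apply, indF_apply, h1, h2]
  rw [Pi.add_apply, mul_inv_rev, inv_inv, mul_smul]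
  simp

lemma indF_locAn (hG : IsGalois Γ p)
    (hF : ∀ (y : E) (e : Chart n X), At e (p y) → ∃ f : Cm n → Cm q,
      (∀ᶠ y' in 𝓝 y, F y' = f (e (p y'))) ∧ AnalyticAt ℂ f (e (p y))) :
    LocAn n p (indF G F) := by
  intro y e he
  have hpy : ∀ (g : Γ) y, p (g • y) = p y := fun g y => ((hG.orb y (g • y)).2 ⟨g, rfl⟩).symm
  have h1 : ∀ a : Γ ⧸ G, ∃ f : Cm n → Cm q, (∀ᶠ y' in 𝓝 y, F (a.out⁻¹ • y') = f (e (p y'))) ∧
      AnalyticAt ℂ f (e (p y)) := by
    intro a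
    obtain ⟨f, hf, ha⟩ := hF (a.out⁻¹ • y) e (by rw [hpy]; exact he)
    rw [hpy] at ha
    refine ⟨f, ?_, ha⟩
    filter_upwards [((hG.cont a.out⁻¹).tendsto y).eventually hf] with y' h
    rw [h, hpy]
  choose f hf ha using h1
  refine ⟨fun z => WithLp.toLp 2 fun aj => f aj.1 z aj.2, ?_, ?_⟩
  · filter_upwards [eventually_all.2 hf] with y' h
    ext ⟨a, j⟩
    rw [indF_apply, h a]
  · have h2 : AnalyticAt ℂ (fun z => fun aj : (Γ ⧸ G) × Fin q => f aj.1 z aj.2) (e (p y)) := by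
      rw [analyticAt_pi_iff]
      intro aj
      exact ((ContinuousLinearMap.proj (R := ℂ) (φ := fun _ : Fin q => ℂ) aj.2).analyticAt _).comp
        (ha aj.1)
    exact (((PiLp.continuousLinearEquiv 2 ℂ (fun _ : (Γ ⧸ G) × Fin q => ℂ)).symm :
      ((Γ ⧸ G) × Fin q → ℂ) →L[ℂ] IndV G q).analyticAt _).comp h2

/-- the projection to a factor -/
def indP (G : Subgroup Γ) [Fintype (Γ ⧸ G)] (q : ℕ) (a : Γ ⧸ G) : IndV G q →L[ℂ] Cm q :=
  ContinuousLinearMap.pi fun j => (EuclideanSpace.proj (a, j) : IndV G q →L[ℂ] ℂ)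

lemma indP_apply (a : Γ ⧸ G) (y : E) : indP G q a (indF G F y) = F (a.out⁻¹ • y) := by
  funext j
  rfl

end

/-- a function on a connected covering with zero derivative is constant -/
theorem const_of_dd {n : ℕ} {X : Type} [TopologicalSpace X] [ChartedSpace (Cm n) X]
    {E : Type} [TopologicalSpace E] [PreconnectedSpace E] {p : E → X} (hp : IsCoveringMap p)
    {W : Type} [NormedAddCommGroup W] [NormedSpace ℂ W] [CompleteSpace W] {F : E → W}
    (hF : LocAn n p F) (h0 : ∀ (y : E) (e : Chart n X), At e (p y) → dd p F y e = 0) (y y' : E) :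
    F y = F y' := by
  have hloc : IsLocallyConstant F := by
    rw [IsLocallyConstant.iff_eventually_eq]
    intro y
    set e := chartAt (Cm n) (p y) with he_def
    have he : At e (p y) := ⟨chart_mem_atlas _ _, mem_chart_source _ _⟩
    obtain ⟨f, hf, ha⟩ := hF y e he
    have h1 : ∀ᶠ z in 𝓝 (e (p y)), fderiv ℂ f z = 0 := by
      rw [← ev_iff hp he]
      filter_upwards [dd_ev hp he hf ha, at_ev hp he] with y' h1 h2
      rw [← h1, h0 y' e h2]
    obtain ⟨ε, hε, hball⟩ := Metric.eventually_nhds_iff_ball.1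
      (h1.and ha.eventually_analyticAt)
    have h2 : ∀ z ∈ ball (e (p y)) ε, f z = f (e (p y)) := by
      intro z hz
      refine isOpen_ball.is_const_of_fderiv_eq_zero (𝕜 := ℂ) (convex_ball _ _).isPreconnected
        (fun z hz => (hball z hz).2.differentiableAt.differentiableWithinAt)
        (fun z hz => (hball z hz).1) hz (mem_ball_self hε)
    filter_upwards [hf, (tendsto_ep hp he).eventually (ball_mem_nhds _ hε)] with y' h3 h4
    rw [h3, hf.self_of_nhds, h2 _ h4]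
  exact hloc.apply_eq_of_preconnectedSpace y y'

/-- **U** for one map, from `u_core` for the induced form -/
theorem reg_core {n : ℕ} {X : Type} [TopologicalSpace X] [ChartedSpace (Cm n) X]
    [IsManifold 𝓘(ℂ, Cm n) ω X]
    {E Γ : Type} [TopologicalSpace E] [ConnectedSpace E] [Group Γ] [MulAction Γ E]
    {p : E → X} (hG : IsGalois Γ p) (G : Subgroup Γ) [Fintype (Γ ⧸ G)]
    (q : ℕ) (F : E → Cm q) (c : Γ → Cm q)
    (hF : ∀ (y : E) (e : Chart n X), At e (p y) → ∃ f : Cm n → Cm q,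
      (∀ᶠ y' in 𝓝 y, F y' = f (e (p y'))) ∧ AnalyticAt ℂ f (e (p y)))
    (hequiv : ∀ g ∈ G, ∀ y, F (g • y) = F y + c g)
    (hspan : Submodule.span ℝ (c '' (G : Set Γ)) = ⊤)
    (hu : ∀ Θ : E → Chart n X → (Cm n →L[ℂ] IndV G q), CForm n p (IndV G q) Θ →
      Equi p (indπ G q) Θ →
      ∃ M : Submodule ℂ (IndV G q), (∀ y e, At e (p y) → ∀ ξ, Θ y e ξ ∈ M) ∧
        ∃ y e, At e (p y) ∧ LinearMap.range (Θ y e : Cm n →ₗ[ℂ] IndV G q) = M) :
    ∃ y, Reg (n := n) p F y := by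
  have hp := hG.cov
  have hpy : ∀ (g : Γ) y, p (g • y) = p y := fun g y => ((hG.orb y (g • y)).2 ⟨g, rfl⟩).symm
  have hla : LocAn n p (indF G F) := indF_locAn hG hF
  obtain ⟨M, hM1, y₁, e₁, he₁, hM2⟩ := hu (dd p (indF G F)) (dd_cform hp hla)
    (dd_equi hG (indπ G q) hla fun g => indF_smul hequiv g)
  set a₀ : Γ ⧸ G := ((1 : Γ) : Γ ⧸ G) with ha₀
  set P := indP G q a₀ with hP
  have htop : M.map (P : IndV G q →ₗ[ℂ] Cm q) = ⊤ := by
    by_contra hne
    obtain ⟨l, hl0, hl⟩ := Submodule.exists_le_ker_of_lt_top _ (lt_top_iff_ne_top.2 hne)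
    apply hl0
    set L : IndV G q →L[ℂ] ℂ := (LinearMap.toContinuousLinearMap l).comp P with hL
    have hLM : ∀ x ∈ M, L x = 0 := fun x hx => hl ⟨x, hx, rfl⟩
    have hLan : LocAn n p fun y => L (indF G F y) := by
      intro y e he
      obtain ⟨f, hf, ha⟩ := hla y e he
      refine ⟨fun z => L (f z), ?_, (L.analyticAt _).comp ha⟩
      filter_upwards [hf] with y' h
      rw [h]
    have hconst := const_of_dd hp hLan (fun y e he => by
      obtain ⟨f, hf, ha⟩ := hla y e he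
      have h1 : ∀ᶠ y' in 𝓝 y, L (indF G F y') = (fun z => L (f z)) (e (p y')) := by
        filter_upwards [hf] with y' h
        rw [h]
      rw [dd_eq (f := fun z => L (f z)) hp he h1 ((L.analyticAt _).comp ha)]
      have h2 : fderiv ℂ (fun z => L (f z)) (e (p y)) = L.comp (fderiv ℂ f (e (p y))) :=
        (L.hasFDerivAt.comp (e (p y)) ha.differentiableAt.hasFDerivAt).fderiv
      rw [h2, ← dd_eq hp he hf ha]
      ext ξ
      exact hLM _ (hM1 y e he _))
    have hlF : ∀ y y', l (F y) = l (F y') := by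
      intro y y'
      have h1 := hconst (a₀.out • y) (a₀.out • y')
      have h2 : ∀ y, L (indF G F (a₀.out • y)) = l (F y) := by
        intro y
        show l (P (indF G F (a₀.out • y))) = l (F y)
        rw [hP, indP_apply, inv_smul_smul]
      rwa [h2, h2] at h1
    have hlc : ∀ g ∈ G, l (c g) = 0 := by
      intro g hg
      have h1 := hlF (g • y₁) y₁
      rw [hequiv g hg, map_add] at h1
      simpa using h1
    have h1 : Submodule.span ℝ (c '' (G : Set Γ)) ≤ LinearMap.ker (l.restrictScalars ℝ) := by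
      rw [Submodule.span_le]
      rintro _ ⟨g, hg, rfl⟩
      exact hlc g hg
    rw [hspan] at h1
    ext x
    have h2 : l (Pi.single x 1) = 0 := h1 (Submodule.mem_top (x := (Pi.single x 1 : Cm q)))
    simpa using h2
  refine ⟨a₀.out⁻¹ • y₁, fun e f he hf => ?_⟩
  rw [hpy] at he
  obtain ⟨f', hf', ha'⟩ := hla y₁ e he
  have h1 : ∀ᶠ y' in 𝓝 y₁, F (a₀.out⁻¹ • y') = f (e (p y')) := by
    filter_upwards [((hG.cont a₀.out⁻¹).tendsto y₁).eventually hf] with y' h
    rw [h, hpy]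
  have h2 : ∀ᶠ y' in 𝓝 y₁, F (a₀.out⁻¹ • y') = (fun z => P (f' z)) (e (p y')) := by
    filter_upwards [hf'] with y' h
    show _ = P (f' (e (p y')))
    rw [← h, hP, indP_apply]
  have h3 := rep_unique (F := fun y => F (a₀.out⁻¹ • y)) (f' := fun z => P (f' z)) hp he h1 h2
  rw [hpy, h3.fderiv_eq]
  have h4 : fderiv ℂ (fun z => P (f' z)) (e (p y₁)) = P.comp (dd p (indF G F) y₁ e) := by
    rw [dd_eq hp he hf' ha']
    exact (P.hasFDerivAt.comp (e (p y₁)) ha'.differentiableAt.hasFDerivAt).fderiv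
  rw [h4]
  intro t
  obtain ⟨x, hx, hxt⟩ : t ∈ M.map (P : IndV G q →ₗ[ℂ] Cm q) := by
    rw [htop]; exact Submodule.mem_top
  rw [← hM2] at hx
  obtain ⟨ξ, hξ⟩ := hx
  -- from the chart `e₁` to `e`
  obtain ⟨η, hη⟩ : ∃ η, dd p (indF G F) y₁ e η = dd p (indF G F) y₁ e₁ ξ := by
    have h5 := (dd_cform hp hla).change y₁ e e₁ he he₁
    obtain ⟨η, hη⟩ := transition_surjective he he₁ ξ
    refine ⟨η, ?_⟩
    rw [h5, ContinuousLinearMap.comp_apply, hη]
  refine ⟨η, ?_⟩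
  show P (dd p (indF G F) y₁ e η) = t
  rw [hη, show dd p (indF G F) y₁ e₁ ξ = x from hξ]
  exact hxt

/-- **U** -/
theorem regStmt_of (h0 : NS0Stmt) (hs : SigStmt) : RegStmt := by
  intro n N X _ _ _ _ _ ι _ D hD E Γ _ _ _ _ p hG G hGfi q F c hF hequiv hspan
  have : Finite (Γ ⧸ G) := G.finite_quotient_of_finiteIndex
  have : Fintype (Γ ⧸ G) := Fintype.ofFinite _
  exact reg_core hG G q F c hF hequiv hspan fun Θ hΘ hπ =>
    u_main h0 hs n N X ι D hD E Γ p hG (IndV G q) (indπ G q) Θ hΘ hπ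

end Vale.Agent.P284.H174
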