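import Vale.Agent.P284.H174.S1L
import Vale.Agent.P284.H174.Liou
import Vale.Agent.P284.H174.Reg
import Vale.Agent.P284.H730.AlbFD

/-!
# P284 (helper174): the Albanese map of a dominated projective manifold
-/

open scoped Manifold ContDiff Topology Pointwise ComplexConjugate ComplexOrder
open Filter Set Metric

noncomputable section

namespace Vale.Agent.P284.H174

open Vale.Agent.P272.K Vale.Agent.P284.H894.V Vale.Agent.P284.H465.V17 Vale.Agent.P284.H894.G
  Vale.Agent.P284.H731.S2 Vale.Agent.P284.H5.V Vale.Agent.P284.H894.W Vale.Agent.P284.H731.Alb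
  Vale.Agent.P284.H894 Vale.Agent.P284.H619 Vale.Agent.P284.H221 Vale.Agent.P284.H998

section
variable {n : ℕ} {X : Type} [TopologicalSpace X] [ChartedSpace (Cm n) X]
  {E : Type} [TopologicalSpace E] {p : E → X} {w : Chart n X → Cm n → Matrix (Fin n) (Fin n) ℂ}
  {Γ : Type} [Group Γ] [MulAction Γ E]

/-- a function with holomorphic components is locally analytic -/
theorem conj_locAn {k : ℕ} (F : E → Cm k)
    (hF : ∀ j, Conj n p (fun y => (F y j).re) (fun y => (F y j).im)) : LocAn n p F := by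
  intro y e he
  choose f hf hc using fun j => hF j y e he
  refine ⟨fun z j => f j z, ?_, ?_⟩
  · filter_upwards [eventually_all.2 hc] with y' h
    funext j
    rw [← h j, Complex.re_add_im]
  · rw [analyticAt_pi_iff]
    intro j
    exact (Vale.Agent.P299.H720.contDiffAt_of_eventually (hf j)).analyticAt

/-- the periods of linearly independent functions span -/
theorem span_of_indep [CompactSpace X] [Nonempty X] [ConnectedSpace E] (hG : IsGalois Γ p)
    {y₀ : E} {k : ℕ} {b : Fin k → H0 p w Γ y₀} (hb : LinearIndependent ℂ b) (G : Subgroup Γ)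
    (hGfi : G.FiniteIndex) (c : Γ → Cm k)
    (hequiv : ∀ g ∈ G, ∀ y, (fun j => (b j : E → ℂ) (g • y)) = (fun j => (b j : E → ℂ) y) + c g) :
    Submodule.span ℝ (c '' (G : Set Γ)) = ⊤ := by
  by_contra hne
  obtain ⟨l, hl0, hl⟩ := Submodule.exists_le_ker_of_lt_top _ (lt_top_iff_ne_top.2 hne)
  apply hl0
  obtain ⟨a, ha⟩ := functional_eq l
  let F : E → Cm k := fun y j => (b j : E → ℂ) y
  have hfun : (fun y => ∑ j, a j * F y j) ∈ H0 p w Γ y₀ := by
    have h1 := (∑ j, a j • b j : H0 p w Γ y₀).2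
    convert h1 using 1
    funext y
    push_cast
    rw [Finset.sum_apply]
    rfl
  have hf := mem_H0.1 hfun
  obtain ⟨B, hB⟩ := (mem_V0.1 hf.1).1
  have h1 : ∀ g ∈ G, ∀ y, (∑ j, a j * F (g • y) j).re = (∑ j, a j * F y j).re := by
    intro g hg y
    rw [← ha, ← ha, show F (g • y) = F y + c g from hequiv g hg y, map_add]
    have h2 : l (c g) = 0 := hl (Submodule.subset_span ⟨g, hg, rfl⟩)
    rw [h2, add_zero]
  have h2 := const_of_fi hG hB G hGfi h1
  have h3 : ∀ y y', (∑ j, a j * F y j).im = (∑ j, a j * F y' j).im := by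
    intro y y'
    have := const_of_conj hG.cov hf.2.2.1.mul_I h2 y y'
    linarith
  have h4 : ∀ y, ∑ j, a j * F y j = 0 := by
    intro y
    rw [← hf.2.2.2]
    exact Complex.ext (h2 y y₀) (h3 y y₀)
  have h5 : ∑ j, a j • b j = 0 := by
    apply Subtype.ext
    funext y
    rw [← show _ = ((0 : H0 p w Γ y₀) : E → ℂ) y from h4 y]
    push_cast
    rw [Finset.sum_apply]
    rfl
  have h6 : ∀ j, a j = 0 := Fintype.linearIndependent_iff.1 hb a h5
  refine LinearMap.ext fun z => ?_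
  rw [ha]
  simp [h6]

/-- the period of a function in `H0` -/
theorem exists_periods [ConnectedSpace E] {y₀ : E} {k : ℕ} (b : Fin k → H0 p w Γ y₀) :
    ∃ (G : Subgroup Γ) (c : Γ → Cm k), G.FiniteIndex ∧ ∀ g ∈ G, ∀ y,
      (fun j => (b j : E → ℂ) (g • y)) = (fun j => (b j : E → ℂ) y) + c g := by
  have hb := fun j => mem_H0.1 (b j).2
  choose G₁ hG₁ hc₁ using fun j => (mem_V0.1 (hb j).1).2
  choose G₂ hG₂ hc₂ using fun j => (mem_V0.1 (hb j).2.1).2
  refine ⟨(⨅ j, G₁ j) ⊓ (⨅ j, G₂ j), fun g j => (b j : E → ℂ) (g • y₀), ?_, ?_⟩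
  · have h1 : (⨅ j, G₁ j).FiniteIndex := Subgroup.finiteIndex_iInf hG₁
    have h2 : (⨅ j, G₂ j).FiniteIndex := Subgroup.finiteIndex_iInf hG₂
    infer_instance
  · rintro g ⟨hg1, hg2⟩ y
    funext j
    obtain ⟨r, hr⟩ := hc₁ j g (Subgroup.mem_iInf.1 hg1 j)
    obtain ⟨s, hs⟩ := hc₂ j g (Subgroup.mem_iInf.1 hg2 j)
    have h0 : (b j : E → ℂ) y₀ = 0 := (hb j).2.2.2
    have h1 : ((b j : E → ℂ) (g • y₀)).re = r := by
      have := hr y₀
      simp only [h0, Complex.zero_re, zero_add] at this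
      exact this
    have h2 : ((b j : E → ℂ) (g • y₀)).im = s := by
      have := hs y₀
      simp only [h0, Complex.zero_im, zero_add] at this
      exact this
    show (b j : E → ℂ) (g • y) = (b j : E → ℂ) y + (b j : E → ℂ) (g • y₀)
    apply Complex.ext
    · rw [Complex.add_re, h1]
      exact hr y
    · rw [Complex.add_im, h2]
      exact hs y

end

/-- **U** for the covering `p` -/
def RegOn {n : ℕ} {X : Type} [TopologicalSpace X] [ChartedSpace (Cm n) X]
    {E : Type} (Γ : Type) [TopologicalSpace E] [Group Γ] [MulAction Γ E] (p : E → X) : Prop :=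
  ∀ (G : Subgroup Γ), G.FiniteIndex → ∀ (q : ℕ) (F : E → Cm q) (c : Γ → Cm q),
    (∀ (y : E) (e : Chart n X), At e (p y) → ∃ f : Cm n → Cm q,
      (∀ᶠ y' in 𝓝 y, F y' = f (e (p y'))) ∧ AnalyticAt ℂ f (e (p y))) →
    (∀ g ∈ G, ∀ y, F (g • y) = F y + c g) → Submodule.span ℝ (c '' (G : Set Γ)) = ⊤ →
    ∃ y, Reg (n := n) p F y

/-- the rank bound -/
theorem card_le (n : ℕ) (X : Type) [TopologicalSpace X]
    [T2Space X] [CompactSpace X] [Nonempty X]
    [ChartedSpace (Cm n) X] [IsManifold 𝓘(ℂ, Cm n) ω X]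
    (w : Chart n X → Cm n → Matrix (Fin n) (Fin n) ℂ)
    (E Γ : Type) [TopologicalSpace E] [ConnectedSpace E] [Group Γ] [MulAction Γ E]
    (p : E → X) (hG : IsGalois Γ p) (hU : RegOn (n := n) Γ p) {y₀ : E} {k : ℕ}
    {b : Fin k → H0 p w Γ y₀} (hb : LinearIndependent ℂ b) : k ≤ n := by
  obtain ⟨G, c, hGfi, hequiv⟩ := exists_periods b
  have hspan := span_of_indep hG hb G hGfi c hequiv
  set F : E → Cm k := fun y j => (b j : E → ℂ) y with hF
  have hla : LocAn n p F := conj_locAn F fun j => (mem_H0.1 (b j).2).2.2.1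
  obtain ⟨y, hy⟩ := hU G hGfi k F c hla hequiv hspan
  have he : At (chartAt (Cm n) (p y)) (p y) := at_chart _
  obtain ⟨f, hf, ha⟩ := hla y _ he
  have h1 := hy _ f he hf
  have h2 := LinearMap.finrank_le_finrank_of_surjective
    (f := (fderiv ℂ f (chartAt (Cm n) (p y) (p y)) : Cm n →ₗ[ℂ] Cm k)) h1
  simpa using h2

/-- `H0` is finite-dimensional -/
theorem fd_H0 (n : ℕ) (X : Type) [TopologicalSpace X]
    [T2Space X] [CompactSpace X] [Nonempty X]
    [ChartedSpace (Cm n) X] [IsManifold 𝓘(ℂ, Cm n) ω X]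
    (w : Chart n X → Cm n → Matrix (Fin n) (Fin n) ℂ)
    (E Γ : Type) [TopologicalSpace E] [ConnectedSpace E] [Group Γ] [MulAction Γ E]
    (p : E → X) (hG : IsGalois Γ p) (hU : RegOn (n := n) Γ p) (y₀ : E) :
    Module.Finite ℂ (H0 p w Γ y₀) := by
  rw [← Module.rank_lt_aleph0_iff]
  refine lt_of_le_of_lt (rank_le (n := n) fun s hs => ?_) (Cardinal.natCast_lt_aleph0 (n := n))
  have h1 : LinearIndependent ℂ fun i : Fin s.card => ((s.equivFin.symm i : s) : H0 p w Γ y₀) :=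
    hs.comp _ s.equivFin.symm.injective
  exact card_le n X w E Γ p hG hU h1

/-- `V0` is finite-dimensional -/
theorem fd_V0 {n : ℕ} {X : Type} [TopologicalSpace X] [ConnectedSpace X]
    [ChartedSpace (Cm n) X] [IsManifold 𝓘(ℂ, Cm n) ω X]
    {w : Chart n X → Cm n → Matrix (Fin n) (Fin n) ℂ}
    {E Γ : Type} [TopologicalSpace E] [SimplyConnectedSpace E] [Group Γ] [MulAction Γ E]
    {p : E → X} (hG : IsGalois Γ p) (y₀ : E) [Module.Finite ℂ (H0 p w Γ y₀)] :
    FiniteDimensional ℝ (V0 p w Γ) := by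
  have : Module.Finite ℝ (H0 p w Γ y₀) := Module.Finite.trans ℂ _
  have hone : (fun _ : E => (1 : ℝ)) ∈ V0 p w Γ := by
    refine mem_V0.2 ⟨⟨0, fun y e he => ⟨fun _ => 1, Eventually.of_forall fun _ => rfl,
      Eventually.of_forall fun z => ⟨contDiffAt_const, ?_⟩, fun x => ?_⟩⟩, ⊤, inferInstance,
      fun g _ => ⟨0, fun y => (add_zero _).symm⟩⟩
    · ext j k
      rw [cHess_apply]
      have : dzb k (fun _ : Cm n => ((1 : ℝ) : ℂ)) = fun _ => 0 := funext fun y => dzb_const _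
      rw [this, dz_const]
      rfl
    · have h : fderiv ℝ (fun _ : Cm n => (1 : ℝ)) (e (p y)) = 0 := fderiv_const_apply _
      rw [h]
      simp
  let L : H0 p w Γ y₀ × ℝ →ₗ[ℝ] V0 p w Γ :=
    { toFun := fun x => ⟨fun y => ((x.1 : E → ℂ) y).re + x.2, by
        have h1 := (V0 p w Γ).add_mem (mem_H0.1 x.1.2).1 ((V0 p w Γ).smul_mem x.2 hone)
        convert h1 using 1
        funext y
        simp⟩
      map_add' := fun x x' => by
        apply Subtype.ext
        funext y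
        show ((x.1 : E → ℂ) y + (x'.1 : E → ℂ) y).re + (x.2 + x'.2) =
          (((x.1 : E → ℂ) y).re + x.2) + (((x'.1 : E → ℂ) y).re + x'.2)
        rw [Complex.add_re]
        ring
      map_smul' := fun r x => by
        apply Subtype.ext
        funext y
        show (r • (x.1 : E → ℂ) y).re + r * x.2 = r * (((x.1 : E → ℂ) y).re + x.2)
        rw [Complex.smul_re, smul_eq_mul]
        ring }
  refine Module.Finite.of_surjective L fun u => ?_
  obtain ⟨u, hu⟩ := u
  obtain ⟨⟨B, hB⟩, G', hG', hc⟩ := mem_V0.1 hu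
  obtain ⟨v, hv1, hv2⟩ := s2 hG.cov hB
  have hv : v ∈ V0 p w Γ := mem_V0.2 ⟨⟨B, hv1⟩, G', hG', fun g hg => by
    obtain ⟨r, hr⟩ := hc g hg
    exact conj_periods hG hv2 g hr⟩
  let f : E → ℂ := fun y => ((u y + (-u y₀) * 1 : ℝ) : ℂ) + ((v y + (-v y₀) * 1 : ℝ) : ℂ) * Complex.I
  have hre : (fun y => (f y).re) = fun y => u y + (-u y₀) * 1 := by
    funext y
    simp only [f, Complex.add_re, Complex.ofReal_re, Complex.mul_re, Complex.I_re, mul_zero,
      Complex.ofReal_im, Complex.I_im, mul_one, sub_self, add_zero]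
  have him : (fun y => (f y).im) = fun y => v y + (-v y₀) * 1 := by
    funext y
    simp only [f, Complex.add_im, Complex.ofReal_re, Complex.mul_im, Complex.I_re, mul_zero,
      Complex.ofReal_im, Complex.I_im, mul_one, add_zero, zero_add]
  have hf : f ∈ H0 p w Γ y₀ := by
    refine mem_H0.2 ⟨?_, ?_, ?_, ?_⟩
    · rw [hre]
      exact (V0 p w Γ).add_mem hu ((V0 p w Γ).smul_mem _ hone)
    · rw [him]
      exact (V0 p w Γ).add_mem hv ((V0 p w Γ).smul_mem _ hone)
    · exact (hv2.add_const ((-u y₀) * 1) ((-v y₀) * 1)).congr hre.symm him.symm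
    · simp [f]
  refine ⟨(⟨f, hf⟩, u y₀), Subtype.ext ?_⟩
  funext y
  show (f y).re + u y₀ = u y
  rw [show (f y).re = u y + (-u y₀) * 1 from congrFun hre y]
  ring

/-- the Albanese map, from **S1** and the finite dimension of `V0` -/
theorem alb_of_s1 (n : ℕ) (X : Type) [TopologicalSpace X]
    [T2Space X] [CompactSpace X] [ConnectedSpace X]
    [ChartedSpace (Cm n) X] [IsManifold 𝓘(ℂ, Cm n) ω X]
    (w : Chart n X → Cm n → Matrix (Fin n) (Fin n) ℂ) (hw : IsKahler w)
    (E Γ : Type) [TopologicalSpace E] [SimplyConnectedSpace E] [Group Γ] [MulAction Γ E]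
    (p : E → X) (hG : IsGalois Γ p)
    (hS1 : ∀ (H : Subgroup Γ), H.FiniteIndex → ∀ φ : H →* Multiplicative ℤ,
      ∃ (u : E → ℝ) (B : ℝ), IsPHB p w u B ∧
        ∀ (h : H) (y : E), u ((h : Γ) • y) = u y + (Multiplicative.toAdd (φ h) : ℤ))
    [FiniteDimensional ℝ (V0 p w Γ)] :
    ∃ (G K : Subgroup Γ) (N : ℕ) (F : E → Cm N) (c : Γ → Cm N), Alb p w G K F c := by
  obtain ⟨_, _, _, hfg, -⟩ := Vale.Agent.P284.H639.V.v15Stmt n X w hw E Γ p hG
  obtain ⟨y₀⟩ : Nonempty E := inferInstance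
  obtain ⟨G, hGfi, hGc⟩ := exists_subgroup (p := p) (w := w) (Γ := Γ)
  have := finite_H0 (p := p) (w := w) (Γ := Γ) y₀
  let b := Module.finBasis ℂ (H0 p w Γ y₀)
  let F : E → Cm (Module.finrank ℂ (H0 p w Γ y₀)) := fun y j => (b j : E → ℂ) y
  have hb : ∀ j, (fun y => (F y j).re) ∈ V0 p w Γ ∧ (fun y => (F y j).im) ∈ V0 p w Γ ∧
    Conj n p (fun y => (F y j).re) (fun y => (F y j).im) ∧ F y₀ j = 0 := fun j => mem_H0.1 (b j).2
  have hF0 : F y₀ = 0 := funext fun j => (hb j).2.2.2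
  let c : Γ → Cm (Module.finrank ℂ (H0 p w Γ y₀)) := fun g => F (g • y₀)
  have hequiv : ∀ g ∈ G, ∀ y, F (g • y) = F y + c g := by
    intro g hg y
    funext j
    obtain ⟨r, hr⟩ := hGc _ (hb j).1 g hg
    obtain ⟨s, hs⟩ := hGc _ (hb j).2.1 g hg
    have h1 : (F y₀ j).re = 0 := by rw [hF0]; rfl
    have h2 : (F y₀ j).im = 0 := by rw [hF0]; rfl
    have h3 : ((F (g • y₀) j).re) = r := by
      rw [show ((F (g • y₀) j).re) = (F y₀ j).re + r from hr y₀, h1, zero_add]
    have h4 : ((F (g • y₀) j).im) = s := by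
      rw [show ((F (g • y₀) j).im) = (F y₀ j).im + s from hs y₀, h2, zero_add]
    apply Complex.ext
    · show (F (g • y) j).re = (F y j + F (g • y₀) j).re
      rw [Complex.add_re, h3]
      exact hr y
    · show (F (g • y) j).im = (F y j + F (g • y₀) j).im
      rw [Complex.add_im, h4]
      exact hs y
  have hadd : ∀ g ∈ G, ∀ h ∈ G, c (g * h) = c g + c h := by
    intro g hg h hh
    show F ((g * h) • y₀) = _
    rw [mul_smul, hequiv g hg, add_comm]
  have hrep : ∀ u ∈ V0 p w Γ, ∃ a : Fin (Module.finrank ℂ (H0 p w Γ y₀)) → ℂ,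
      ∀ y, u y = (∑ j, a j * F y j).re + u y₀ := by
    intro u hu
    obtain ⟨⟨B, hB⟩, G', hG', hc⟩ := mem_V0.1 hu
    obtain ⟨v, hv1, hv2⟩ := s2 hG.cov hB
    have hv : v ∈ V0 p w Γ := mem_V0.2 ⟨⟨B, hv1⟩, G', hG', fun g hg => by
      obtain ⟨r, hr⟩ := hc g hg
      exact conj_periods hG hv2 g hr⟩
    have hone : (fun _ : E => (1 : ℝ)) ∈ V0 p w Γ := by
      refine mem_V0.2 ⟨⟨0, fun y e he => ⟨fun _ => 1, Eventually.of_forall fun _ => rfl,
        Eventually.of_forall fun z => ⟨contDiffAt_const, ?_⟩, fun x => ?_⟩⟩, ⊤, inferInstance,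
        fun g _ => ⟨0, fun y => (add_zero _).symm⟩⟩
      · ext j k
        rw [cHess_apply]
        have : dzb k (fun _ : Cm n => ((1 : ℝ) : ℂ)) = fun _ => 0 := funext fun y => dzb_const _
        rw [this, dz_const]
        rfl
      · have h : fderiv ℝ (fun _ : Cm n => (1 : ℝ)) (e (p y)) = 0 := fderiv_const_apply _
        rw [h]
        simp
    let f : E → ℂ := fun y => ((u y + (-u y₀) * 1 : ℝ) : ℂ) + ((v y + (-v y₀) * 1 : ℝ) : ℂ) * Complex.I
    have hre : (fun y => (f y).re) = fun y => u y + (-u y₀) * 1 := by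
      funext y
      simp only [f, Complex.add_re, Complex.ofReal_re, Complex.mul_re, Complex.I_re, mul_zero,
        Complex.ofReal_im, Complex.I_im, mul_one, sub_self, add_zero]
    have him : (fun y => (f y).im) = fun y => v y + (-v y₀) * 1 := by
      funext y
      simp only [f, Complex.add_im, Complex.ofReal_re, Complex.mul_im, Complex.I_re, mul_zero,
        Complex.ofReal_im, Complex.I_im, mul_one, add_zero, zero_add]
    have hf : f ∈ H0 p w Γ y₀ := by
      refine mem_H0.2 ⟨?_, ?_, ?_, ?_⟩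
      · rw [hre]
        exact (V0 p w Γ).add_mem hu ((V0 p w Γ).smul_mem _ hone)
      · rw [him]
        exact (V0 p w Γ).add_mem hv ((V0 p w Γ).smul_mem _ hone)
      · exact (hv2.add_const ((-u y₀) * 1) ((-v y₀) * 1)).congr hre.symm him.symm
      · simp [f]
    refine ⟨fun j => b.repr ⟨f, hf⟩ j, fun y => ?_⟩
    have h1 := congrArg (fun x : H0 p w Γ y₀ => (x : E → ℂ) y) (b.sum_repr ⟨f, hf⟩)
    have h2 : (∑ j, b.repr ⟨f, hf⟩ j * F y j) = f y := by
      rw [← show _ = f y from h1]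
      push_cast
      rw [Finset.sum_apply]
      rfl
    rw [h2, show (f y).re = u y + (-u y₀) * 1 from congrFun hre y]
    ring
  have hfun : ∀ a : Fin (Module.finrank ℂ (H0 p w Γ y₀)) → ℂ,
      (fun y => ∑ j, a j * F y j) ∈ H0 p w Γ y₀ := by
    intro a
    have h1 := (∑ j, a j • b j : H0 p w Γ y₀).2
    convert h1 using 1
    funext y
    push_cast
    rw [Finset.sum_apply]
    rfl
  have hper : ∀ (G' : Subgroup Γ) (_ : G'.FiniteIndex) (χ : G' →* Multiplicative ℤ),
      ∃ a : Fin (Module.finrank ℂ (H0 p w Γ y₀)) → ℂ, ∀ g : G',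
        ((Multiplicative.toAdd (χ g) : ℤ) : ℝ) = (∑ j, a j * c g j).re := by
    intro G' hG' χ
    obtain ⟨u, B, hu, hu2⟩ := hS1 G' hG' χ
    obtain ⟨a, ha⟩ := hrep u (mem_V0.2 ⟨⟨B, hu⟩, G', hG', fun g hg => ⟨_, hu2 ⟨g, hg⟩⟩⟩)
    refine ⟨a, fun g => ?_⟩
    have h1 := hu2 g y₀
    have h2 := ha ((g : Γ) • y₀)
    rw [h1] at h2
    have h3 : (∑ j, a j * c g j).re = (∑ j, a j * F ((g : Γ) • y₀) j).re := rfl
    rw [h3]
    linarith
  refine ⟨G,
    { carrier := {g | g ∈ G ∧ c g = 0}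
      mul_mem' := ?_
      one_mem' := ?_
      inv_mem' := ?_ }, _, F, c, ?_⟩
  · rintro g h ⟨hg, hg0⟩ ⟨hh, hh0⟩
    exact ⟨G.mul_mem hg hh, by rw [hadd g hg h hh, hg0, hh0, add_zero]⟩
  · exact ⟨G.one_mem, by show F ((1 : Γ) • y₀) = 0; rw [one_smul, hF0]⟩
  · rintro g ⟨hg, hg0⟩
    refine ⟨G.inv_mem hg, ?_⟩
    have h1 := hadd g hg g⁻¹ (G.inv_mem hg)
    rw [mul_inv_cancel, hg0, zero_add] at h1
    rw [← h1]
    show F ((1 : Γ) • y₀) = 0
    rw [one_smul, hF0]
  · refine ⟨hGfi, ?_, hequiv, fun g => Iff.rfl, ?_, ?_, ?_⟩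
    · exact holB_of hw.toIsHermitian hG.cov fun j =>
        ⟨(mem_V0.1 (hb j).1).1, (mem_V0.1 (hb j).2.1).1, (hb j).2.2.1⟩
    · -- the periods form a discrete set
      intro R
      have : Group.FG G := Subgroup.fg_of_index_ne_zero G
      obtain ⟨r, β, χ, hχ⟩ := exists_int_coords (H := G) (fun g => c g)
        (fun g h => hadd g g.2 h h.2)
      choose a ha using fun k => hper G hGfi (χ k)
      refine Set.Finite.subset (Set.Finite.image (fun m : Fin r → ℤ => ∑ k, (m k : ℝ) • β k)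
        (Set.Finite.pi' fun k => Set.finite_Icc (-⌈(∑ j, ‖a k j‖) * R⌉) ⌈(∑ j, ‖a k j‖) * R⌉)) ?_
      rintro v ⟨⟨g, hg, rfl⟩, hR⟩
      refine ⟨fun k => Multiplicative.toAdd (χ k ⟨g, hg⟩), fun k => ?_, (hχ ⟨g, hg⟩).symm⟩
      have h1 : |((Multiplicative.toAdd (χ k ⟨g, hg⟩) : ℤ) : ℝ)| ≤ (∑ j, ‖a k j‖) * R := by
        rw [ha k ⟨g, hg⟩]
        refine (Complex.abs_re_le_norm _).trans ((norm_sum_le _ _).trans ?_)
        rw [Finset.sum_mul]
        refine Finset.sum_le_sum fun j _ => ?_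
        rw [norm_mul]
        exact mul_le_mul_of_nonneg_left ((norm_le_pi_norm _ j).trans hR) (norm_nonneg _)
      have h2 := abs_le.1 (h1.trans (Int.le_ceil _))
      constructor
      · exact_mod_cast h2.1
      · exact_mod_cast h2.2
    · -- the periods span
      by_contra hne
      obtain ⟨l, hl0, hl⟩ := Submodule.exists_le_ker_of_lt_top _ (lt_top_iff_ne_top.2 hne)
      apply hl0
      obtain ⟨a, ha⟩ := functional_eq l
      have hf := mem_H0.1 (hfun a)
      obtain ⟨B, hB⟩ := (mem_V0.1 hf.1).1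
      have h1 : ∀ g ∈ G, ∀ y, (∑ j, a j * F (g • y) j).re = (∑ j, a j * F y j).re := by
        intro g hg y
        rw [← ha, ← ha, hequiv g hg, map_add]
        have h2 : l (c g) = 0 := hl (Submodule.subset_span ⟨g, hg, rfl⟩)
        rw [h2, add_zero]
      have h2 := const_of_fi hG hB G hGfi h1
      have h3 : ∀ y y', (∑ j, a j * F y j).im = (∑ j, a j * F y' j).im := by
        intro y y'
        have := const_of_conj hG.cov hf.2.2.1.mul_I h2 y y'
        linarith
      have h4 : ∀ y, ∑ j, a j * F y j = 0 := by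
        intro y
        rw [← hf.2.2.2]
        exact Complex.ext (h2 y y₀) (h3 y y₀)
      have h5 : ∑ j, a j • b j = 0 := by
        apply Subtype.ext
        funext y
        rw [← show _ = ((0 : H0 p w Γ y₀) : E → ℂ) y from h4 y]
        push_cast
        rw [Finset.sum_apply]
        rfl
      have h6 : ∀ j, a j = 0 := Fintype.linearIndependent_iff.1 b.linearIndependent a h5
      refine LinearMap.ext fun z => ?_
      rw [ha]
      simp [h6]
    · -- maximality
      intro G' hG' hle φ hφ g hg hcg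
      have : Group.FG G' := Subgroup.fg_of_index_ne_zero G'
      obtain ⟨r, β, χ, hχ⟩ := exists_int_coords (H := G') (fun g => φ g)
        (fun g h => hφ g g.2 h h.2)
      have h1 := hχ ⟨g, hg⟩
      rw [show φ g = _ from h1]
      refine Finset.sum_eq_zero fun k _ => ?_
      obtain ⟨a, ha⟩ := hper G' hG' (χ k)
      rw [ha ⟨g, hg⟩, show c ((⟨g, hg⟩ : G') : Γ) = 0 from hcg]
      simp

/-- the Albanese map, from the Liouville property and the finite dimension of `V0` -/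
theorem alb_of_v0 (n : ℕ) (X : Type) [TopologicalSpace X]
    [T2Space X] [CompactSpace X] [ConnectedSpace X]
    [ChartedSpace (Cm n) X] [IsManifold 𝓘(ℂ, Cm n) ω X]
    (w : Chart n X → Cm n → Matrix (Fin n) (Fin n) ℂ) (hw : IsKahler w)
    (E Γ : Type) [TopologicalSpace E] [SimplyConnectedSpace E] [Group Γ] [MulAction Γ E]
    (p : E → X) (hG : IsGalois Γ p)
    (hL : ∀ (u : E → ℝ) (B M : ℝ), IsPHB p w u B → (∀ y, |u y| ≤ M) → ∀ y y', u y = u y')
    [FiniteDimensional ℝ (V0 p w Γ)] :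
    ∃ (G K : Subgroup Γ) (N : ℕ) (F : E → Cm N) (c : Γ → Cm N), Alb p w G K F c :=
  alb_of_s1 n X w hw E Γ p hG (s1l n X w hw E Γ p hG hL)

/-- a `HolB` function is locally analytic -/
theorem holB_locAn {n : ℕ} {X : Type} [TopologicalSpace X] [ChartedSpace (Cm n) X]
    {E : Type} [TopologicalSpace E] {p : E → X} {w : Chart n X → Cm n → Matrix (Fin n) (Fin n) ℂ}
    {q : ℕ} {F : E → Cm q} {B : ℝ} (hF : HolB p w F B) : LocAn n p F := by
  intro y e he
  obtain ⟨f, hf, hd, -⟩ := hF y e he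
  exact ⟨f, hf, (Vale.Agent.P299.H720.contDiffAt_of_eventually hd).analyticAt⟩

/-- **ALB+U** for one covering, from **S1** and **U** -/
theorem albU_of (n : ℕ) (X : Type) [TopologicalSpace X]
    [T2Space X] [CompactSpace X] [ConnectedSpace X]
    [ChartedSpace (Cm n) X] [IsManifold 𝓘(ℂ, Cm n) ω X]
    (w : Chart n X → Cm n → Matrix (Fin n) (Fin n) ℂ) (hw : IsKahler w)
    (E Γ : Type) [TopologicalSpace E] [SimplyConnectedSpace E] [Group Γ] [MulAction Γ E]
    (p : E → X) (hG : IsGalois Γ p)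
    (hS1 : ∀ (H : Subgroup Γ), H.FiniteIndex → ∀ φ : H →* Multiplicative ℤ,
      ∃ (u : E → ℝ) (B : ℝ), IsPHB p w u B ∧
        ∀ (h : H) (y : E), u ((h : Γ) • y) = u y + (Multiplicative.toAdd (φ h) : ℤ))
    (hU : RegOn (n := n) Γ p) :
    ∃ (G K : Subgroup Γ) (q : ℕ) (F : E → Cm q) (c : Γ → Cm q), Alb p w G K F c ∧
      ∃ y, Reg (n := n) p F y := by
  obtain ⟨y₀⟩ : Nonempty E := inferInstance
  have : Module.Finite ℂ (H0 p w Γ y₀) := fd_H0 n X w E Γ p hG hU y₀
  have : FiniteDimensional ℝ (V0 p w Γ) := fd_V0 hG y₀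
  obtain ⟨G, K, q, F, c, hA⟩ := alb_of_s1 n X w hw E Γ p hG hS1
  obtain ⟨B, hB⟩ := hA.hol
  exact ⟨G, K, q, F, c, hA, hU G hA.fi q F c (holB_locAn hB) hA.equiv hA.span⟩

/-- **ALB** -/
theorem albStmt3_of_reg (hU : RegStmt) : AlbStmt3 := by
  intro n N X _ _ _ _ _ _ w hw ι _ D hD E Γ _ _ _ _ p hG
  exact albU_of n X w hw E Γ p hG
    (s1l n X w hw E Γ p hG (liouStmt n N X hD w E p hG.cov hG.surj))
    (fun G hG' => hU n N X ι D hD E Γ p hG G hG')

theorem albStmt3_of (h0 : NS0Stmt) (hs : SigStmt) : AlbStmt3 := albStmt3_of_reg (regStmt_of h0 hs)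

end Vale.Agent.P284.H174
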