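import Vale.Agent.P284.H174.Harn

/-!
# P284 (helper174): bounded pluriharmonic functions on a `ℤ`-covering of a compact manifold are constant
-/

open scoped Manifold ContDiff Topology ComplexOrder
open Filter Set Metric

noncomputable section

namespace Vale.Agent.P284.H174

open Vale.Agent.P272.K Vale.Agent.P284.H894 Vale.Agent.P284.H894.G Vale.Agent.P284.H894.V
  Vale.Agent.P284.H221 Vale.Agent.P284.H465.V17 Vale.Agent.P284.H5.V Vale.Agent.P284.H446
  Vale.Agent.P284.H446.V Vale.Agent.P284.H731.Alb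

attribute [local instance] Subgroup.fintypeQuotientOfFiniteIndex

section
variable {n : ℕ} {X : Type} [TopologicalSpace X] [ChartedSpace (Cm n) X]
  {E Γ : Type} [TopologicalSpace E] [Group Γ] [MulAction Γ E] {p : E → X}
  {w : Chart n X → Cm n → Matrix (Fin n) (Fin n) ℂ}

/-- one step -/
theorem step_le [ConnectedSpace E] (hG : IsGalois Γ p) {D : Set E} (hD : IsCompact D)
    (hcov : ∀ y : E, ∃ γ : Γ, ∃ x ∈ D, γ • x = y)
    (hlin : ∀ (u u' : E → ℝ) (B B' a b : ℝ), IsPHB p w u B → IsPHB p w u' B' →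
      ∃ B'', IsPHB p w (fun y => a * u y + b * u' y) B'')
    (hone : ∃ B, IsPHB p w (fun _ => (1 : ℝ)) B)
    (H : Subgroup Γ) [H.FiniteIndex] (φ : H →* Multiplicative ℤ) {t : H}
    (ht : φ t = Multiplicative.ofAdd 1) {u : E → ℝ} {B M : ℝ} (hu : IsPHB p w u B)
    (hM : ∀ y, |u y| ≤ M) (hinv : ∀ ν : H, φ ν = 1 → ∀ y, u ((ν : Γ) • y) = u y) (y₀ : E) :
    u ((t : Γ) • y₀) ≤ u y₀ := by
  have hdep : ∀ h h' : H, φ h = φ h' → ∀ y, u ((h : Γ) • y) = u ((h' : Γ) • y) := by
    intro h h' hh y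
    have h1 : ((h : Γ)) • y = ((h * h'⁻¹ : H) : Γ) • (h' : Γ) • y := by
      rw [← mul_smul]
      congr 1
      simp
    rw [h1]
    exact hinv _ (by rw [map_mul, map_inv, hh, mul_inv_cancel]) _
  have hpow : ∀ k : ℤ, φ (t ^ k) = Multiplicative.ofAdd k := by
    intro k
    rw [map_zpow, ht, ← ofAdd_zsmul]
    simp
  have hpk : ∀ h : H, φ h = φ (t ^ (Multiplicative.toAdd (φ h) : ℤ)) := by
    intro h
    rw [hpow, ofAdd_toAdd]
  by_contra hcon
  push Not at hcon
  set δ : E → ℝ := fun y => u ((t : Γ) • y) - u y with hδ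
  have hδM : ∀ y, δ y ≤ 2 * M := fun y => by
    have h1 := abs_le.1 (hM ((t : Γ) • y))
    have h2 := abs_le.1 (hM y)
    simp only [hδ]
    linarith [h1.2, h2.1]
  have hbdd : BddAbove (range δ) := ⟨2 * M, by rintro _ ⟨y, rfl⟩; exact hδM y⟩
  set s := sSup (range δ) with hs
  have hsle : ∀ y, δ y ≤ s := fun y => le_csSup hbdd ⟨y, rfl⟩
  have hs0 : 0 < s := lt_of_lt_of_le (sub_pos.2 hcon) (hsle y₀)
  set k : E → ℝ := fun y => s - δ y with hk
  have hk0 : ∀ y, 0 ≤ k y := fun y => sub_nonneg.2 (hsle y)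
  have hkP : ∃ B', IsPHB p w k B' := by
    obtain ⟨B₀, hB₀⟩ := hone
    obtain ⟨B₁, h1⟩ := hlin _ _ _ _ 1 (-1) (phb_smul hG hu (t : Γ)) hu
    obtain ⟨B₂, h2⟩ := hlin _ _ _ _ s (-1) hB₀ h1
    refine ⟨B₂, ?_⟩
    have e : k = fun y => s * 1 + -1 * (1 * u ((t : Γ) • y) + -1 * u y) := by
      funext y
      simp only [hk, hδ]
      ring
    rw [e]
    exact h2
  obtain ⟨B', hkP⟩ := hkP
  have hδdep : ∀ h h' : H, φ h = φ h' → ∀ y, δ ((h : Γ) • y) = δ ((h' : Γ) • y) := by
    intro h h' hh y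
    simp only [hδ]
    rw [hdep h h' hh]
    have h1 := hdep (t * h) (t * h') (by rw [map_mul, map_mul, hh]) y
    simp only [Subgroup.coe_mul, mul_smul] at h1
    rw [h1]
  have hkdep : ∀ h h' : H, φ h = φ h' → ∀ y, k ((h : Γ) • y) = k ((h' : Γ) • y) := by
    intro h h' hh y
    simp only [hk]
    rw [hδdep h h' hh]
  -- the compact set
  set D' : Set E := ⋃ i : Γ ⧸ H, (fun y => rp H i • y) '' D with hD'
  have hD'c : IsCompact D' := isCompact_iUnion fun i => hD.image (hG.cont _)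
  set D'' : Set E := D' ∪ (fun y => (t : Γ) • y) '' D' with hD''
  have hD''c : IsCompact D'' := hD'c.union (hD'c.image (hG.cont _))
  obtain ⟨C, hC, hHar⟩ := harnack_compact hG.cov w hD''c
  have hstep : ∀ y, k ((t : Γ) • y) ≤ C * k y := by
    intro y
    obtain ⟨γ, x₀, hx₀, rfl⟩ := hcov y
    have hγ : γ = ((hp H γ : H) : Γ) * rp H (cl H γ) := (hp_mul_rp H γ).symm
    set x := rp H (cl H γ) • x₀ with hx
    have hxD : x ∈ D' := mem_iUnion.2 ⟨_, x₀, hx₀, rfl⟩
    set h := hp H γ with hh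
    set j : ℤ := Multiplicative.toAdd (φ h) with hj
    have e1 : γ • x₀ = (h : Γ) • x := by
      rw [hx, ← mul_smul, ← hγ]
    have e2 : k ((h : Γ) • x) = k (((t ^ j : H) : Γ) • x) := hkdep _ _ (hpk h) x
    have e3 : k ((t : Γ) • (h : Γ) • x) = k (((t ^ j : H) : Γ) • (t : Γ) • x) := by
      have := hkdep (t * h) (t ^ j * t) (by rw [map_mul, map_mul, hpk h, mul_comm]) x
      simpa [mul_smul] using this
    rw [e1, e2, e3]
    exact hHar (fun y => k (((t ^ j : H) : Γ) • y)) B' (phb_smul hG hkP _) (fun y => hk0 _) x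
      (Or.inl hxD) _ (Or.inr ⟨x, hxD, rfl⟩)
  set C' := max C 1 with hC'
  have hC'1 : 1 ≤ C' := le_max_right _ _
  have hC'0 : 0 < C' := lt_of_lt_of_le one_pos hC'1
  have hiter : ∀ (j : ℕ) y, k (((t : Γ) ^ j) • y) ≤ C' ^ j * k y := by
    intro j
    induction j with
    | zero => intro y; simp
    | succ j ih =>
      intro y
      rw [pow_succ, mul_smul]
      calc k ((t : Γ) ^ j • (t : Γ) • y) ≤ C' ^ j * k ((t : Γ) • y) := ih _
        _ ≤ C' ^ j * (C' * k y) := by
            refine mul_le_mul_of_nonneg_left ?_ (pow_nonneg hC'0.le _)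
            exact (hstep y).trans (mul_le_mul_of_nonneg_right (le_max_left _ _) (hk0 y))
        _ = C' ^ (j + 1) * k y := by ring
  obtain ⟨J, hJ⟩ := exists_nat_gt (2 * M / (s / 2))
  have hJ' : 2 * M < J * (s / 2) := by
    rwa [div_lt_iff₀ (by positivity)] at hJ
  -- a point with `δ` close to `s`
  obtain ⟨_, ⟨y, rfl⟩, hy⟩ := exists_lt_of_lt_csSup (⟨_, y₀, rfl⟩ : (range δ).Nonempty)
    (show s - s / (2 * C' ^ J) < sSup (range δ) by
      rw [← hs]
      have : 0 < s / (2 * C' ^ J) := by positivity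
      linarith)
  have hky : k y ≤ s / (2 * C' ^ J) := by
    simp only [hk]
    linarith
  have hδj : ∀ j : ℕ, j < J → s / 2 ≤ δ (((t : Γ) ^ j) • y) := by
    intro j hj
    have h1 := hiter j y
    have h2 : C' ^ j * k y ≤ s / 2 := by
      calc C' ^ j * k y ≤ C' ^ J * (s / (2 * C' ^ J)) := by
            refine mul_le_mul (pow_le_pow_right₀ hC'1 hj.le) hky (hk0 y) (by positivity)
        _ = s / 2 := by field_simp
    have h3 : k (((t : Γ) ^ j) • y) = s - δ (((t : Γ) ^ j) • y) := rfl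
    linarith
  have hsum : ∀ j : ℕ, j ≤ J → u y + j * (s / 2) ≤ u (((t : Γ) ^ j) • y) := by
    intro j
    induction j with
    | zero => intro _; simp
    | succ j ih =>
      intro hj
      have h1 := ih (by omega)
      have h2 := hδj j (by omega)
      have h3 : δ (((t : Γ) ^ j) • y) = u (((t : Γ) ^ (j + 1)) • y) - u (((t : Γ) ^ j) • y) := by
        simp only [hδ]
        rw [← mul_smul, ← pow_succ']
      push_cast
      linarith
  have h4 := hsum J le_rfl
  have h5 := abs_le.1 (hM y)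
  have h6 := abs_le.1 (hM (((t : Γ) ^ J) • y))
  linarith [h5.1, h6.2]

/-- **Liouville for `ℤ`-coverings**: a bounded pluriharmonic function with bounded gradient which is
invariant under the kernel of a surjection `H → ℤ`, `H` of finite index, is constant. -/
theorem const_of_kerinv [CompactSpace X] [Nonempty X] [ConnectedSpace E] (hG : IsGalois Γ p)
    {D : Set E} (hD : IsCompact D)
    (hcov : ∀ y : E, ∃ γ : Γ, ∃ x ∈ D, γ • x = y)
    (hlin : ∀ (u u' : E → ℝ) (B B' a b : ℝ), IsPHB p w u B → IsPHB p w u' B' →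
      ∃ B'', IsPHB p w (fun y => a * u y + b * u' y) B'')
    (hone : ∃ B, IsPHB p w (fun _ => (1 : ℝ)) B)
    (H : Subgroup Γ) [hHf : H.FiniteIndex] (φ : H →* Multiplicative ℤ)
    (hφ : Function.Surjective φ) {u : E → ℝ} {B M : ℝ} (hu : IsPHB p w u B)
    (hM : ∀ y, |u y| ≤ M) (hinv : ∀ ν : H, φ ν = 1 → ∀ y, u ((ν : Γ) • y) = u y) (y y' : E) :
    u y = u y' := by
  obtain ⟨t, ht⟩ := hφ (Multiplicative.ofAdd 1)
  have hle : ∀ y, u ((t : Γ) • y) ≤ u y :=
    step_le hG hD hcov hlin hone H φ ht hu hM hinv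
  obtain ⟨B₁, hB₁⟩ := hlin _ _ _ _ (-1) 0 hu hu
  have hge : ∀ y, u y ≤ u ((t : Γ) • y) := by
    intro y
    have h1 := step_le hG hD hcov hlin hone H φ ht hB₁ (M := M)
      (fun y => by
        have : -1 * u y + 0 * u y = -u y := by ring
        rw [this, abs_neg]
        exact hM y)
      (fun ν hν y => by simp only [hinv ν hν y]) y
    linarith
  have heq : ∀ y, u ((t : Γ) • y) = u y := fun y => le_antisymm (hle y) (hge y)
  have hpowt : ∀ (j : ℤ) y, u (((t ^ j : H) : Γ) • y) = u y := by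
    have hnat : ∀ (j : ℕ) y, u (((t ^ j : H) : Γ) • y) = u y := by
      intro j
      induction j with
      | zero => intro y; simp
      | succ j ih =>
        intro y
        have : ((t ^ (j + 1) : H) : Γ) • y = ((t ^ j : H) : Γ) • (t : Γ) • y := by
          rw [← mul_smul, pow_succ]
          rfl
        rw [this, ih, heq]
    intro j y
    obtain ⟨m, rfl | rfl⟩ := j.eq_nat_or_neg
    · have := hnat m y
      simpa using this
    · have h1 := hnat m (((t ^ (-(m : ℤ)) : H) : Γ) • y)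
      have h2 : ((t ^ m : H) : Γ) • ((t ^ (-(m : ℤ)) : H) : Γ) • y = y := by
        rw [← mul_smul]
        have : ((t ^ m : H) : Γ) * ((t ^ (-(m : ℤ)) : H) : Γ) = 1 := by
          rw [← Subgroup.coe_mul]
          simp
        rw [this, one_smul]
      rw [h2] at h1
      exact h1.symm
  refine const_of_fi hG hu H hHf (fun g hg y => ?_) y y'
  have hh : φ ⟨g, hg⟩ = φ (t ^ (Multiplicative.toAdd (φ ⟨g, hg⟩) : ℤ)) := by
    rw [map_zpow, ht, ← ofAdd_zsmul]
    simp
  have h1 : (g : Γ) • y = (((⟨g, hg⟩ : H) * (t ^ (Multiplicative.toAdd (φ ⟨g, hg⟩) : ℤ))⁻¹ : H) : Γ) •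
      ((t ^ (Multiplicative.toAdd (φ ⟨g, hg⟩) : ℤ) : H) : Γ) • y := by
    rw [← mul_smul, ← Subgroup.coe_mul, inv_mul_cancel_right]
  rw [h1, hinv _ (by rw [map_mul, map_inv, ← hh, mul_inv_cancel]), hpowt]

end

end Vale.Agent.P284.H174
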