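import Vale.Agent.P284.H174.S1L
import Vale.Agent.P284.H174.ZLiou

/-!
# P284 (helper174): **S1** (Hodge) for every compact Kähler manifold

Every homomorphism of a subgroup of finite index to `ℤ` is the period of a pluriharmonic function with
bounded gradient (helper446's proof, with the Liouville property of the `ℤ`-covering).
-/

open scoped Manifold ContDiff Topology Pointwise ComplexConjugate ComplexOrder BoundedContinuousFunction
open Filter Set Metric MeasureTheory

noncomputable section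

namespace Vale.Agent.P284.H174

open Vale.Agent.P272.K Vale.Agent.P284.H248 Vale.Agent.P284.H894 Vale.Agent.P284.H678
  Vale.Agent.P284.H894.G Vale.Agent.P284.H894.V Vale.Agent.P284.H639 Vale.Agent.P284.H639.V
  Vale.Agent.P284.H465.V17 Vale.Agent.P284.H446.V Vale.Agent.P284.H5.V Vale.Agent.P284.H446
  Vale.Agent.P284.H731.Alb

attribute [local instance] Subgroup.fintypeQuotientOfFiniteIndex

/-- the constant function -/
theorem phb_one {n : ℕ} {X : Type} [TopologicalSpace X] [ChartedSpace (Cm n) X]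
    {E : Type} [TopologicalSpace E] (p : E → X)
    (w : Chart n X → Cm n → Matrix (Fin n) (Fin n) ℂ) :
    ∃ B, IsPHB p w (fun _ => (1 : ℝ)) B := by
  refine ⟨0, fun y e he => ⟨fun _ => 1, Eventually.of_forall fun _ => rfl,
    Eventually.of_forall fun z => ⟨contDiffAt_const, ?_⟩, fun x => ?_⟩⟩
  · ext j k
    rw [cHess_apply]
    have : dzb k (fun _ : Cm n => ((1 : ℝ) : ℂ)) = fun _ => 0 := funext fun y => dzb_const _
    rw [this, dz_const]
    rfl
  · have h : fderiv ℝ (fun _ : Cm n => (1 : ℝ)) (e (p y)) = 0 := fderiv_const_apply _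
    rw [h]
    simp

section
variable {n : ℕ} {X : Type} [TopologicalSpace X] [ChartedSpace (Cm n) X]
  {E Γ : Type} [TopologicalSpace E] [Group Γ] [MulAction Γ E] {p : E → X}
  {w : Chart n X → Cm n → Matrix (Fin n) (Fin n) ℂ} {C : Coc n Γ}

/-- the period of a function invariant under the kernel -/
theorem exists_period' [CompactSpace X] [Nonempty X] [ConnectedSpace E] (hG : IsGalois Γ p)
    (S : Sheets p w C)
    (H : Subgroup Γ) [hHf : H.FiniteIndex] (φ : H →* Multiplicative ℤ)
    (hφ : Function.Surjective φ) {v : E → ℝ} {B : ℝ} (hv : IsPHB p w v B) (hne : ∃ y y', v y ≠ v y')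
    (hinv : ∀ ν : H, φ ν = 1 → ∀ y, v ((ν : Γ) • y) = v y) :
    ∃ (u : E → ℝ) (B : ℝ), IsPHB p w u B ∧
      ∀ (h : H) (y : E), u ((h : Γ) • y) = u y + (Multiplicative.toAdd (φ h) : ℤ) := by
  obtain ⟨D, hD, hcov⟩ := S.exists_compact
  obtain ⟨t, ht⟩ := hφ (Multiplicative.ofAdd 1)
  have hdep : ∀ h h' : H, φ h = φ h' → ∀ y, v ((h : Γ) • y) = v ((h' : Γ) • y) := by
    intro h h' hh y
    have h1 : ((h : Γ)) • y = ((h * h'⁻¹ : H) : Γ) • (h' : Γ) • y := by
      rw [← mul_smul]
      congr 1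
      simp
    rw [h1]
    exact hinv _ (by rw [map_mul, map_inv, hh, mul_inv_cancel]) _
  have hpow : ∀ k : ℤ, φ (t ^ k) = Multiplicative.ofAdd k := by
    intro k
    rw [map_zpow, ht, ← ofAdd_zsmul]
    simp
  have hpk : ∀ h : H, φ h = φ (t ^ (Multiplicative.toAdd (φ h) : ℤ)) := by
    intro h
    rw [hpow, ofAdd_toAdd]
  -- bounded displacement
  have hdisp : ∃ M : ℝ, ∀ y, |v ((t : Γ) • y) - v y| ≤ M := by
    have h1 : ∀ q : (Γ ⧸ H) × C.I, ∃ L : ℝ, ∀ g : Γ, ∀ z ∈ ball (C.c q.2) (2 * C.r q.2),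
        ∀ z' ∈ ball (C.c q.2) (2 * C.r q.2),
        |v (g • ((t : Γ) * rp H q.1) • S.σ q.2 z) - v (g • (rp H q.1) • S.σ q.2 z')| ≤ L :=
      fun q => S.disp hG hv _ _ _ _
    choose L hL using h1
    refine ⟨∑ q, |L q|, fun y => ?_⟩
    obtain ⟨γ, a, z, hz, rfl⟩ := S.cover y
    set h := hp H γ with hh
    set i := cl H γ with hi
    have hγ : γ = (h : Γ) * rp H i := (hp_mul_rp H γ).symm
    set k : ℤ := Multiplicative.toAdd (φ h) with hk
    have e1 : v (γ • S.σ a z) = v (((t ^ k : H) : Γ) • (rp H i) • S.σ a z) := by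
      rw [hγ, mul_smul]
      exact hdep _ _ (hpk h) _
    have e2 : v ((t : Γ) • γ • S.σ a z) =
        v (((t ^ k : H) : Γ) • ((t : Γ) * rp H i) • S.σ a z) := by
      rw [hγ, mul_smul, mul_smul, ← mul_smul, ← mul_smul (((t ^ k : H) : Γ))]
      have := hdep (t * h) (t ^ k * t) (by rw [map_mul, map_mul, hpk h, mul_comm]) (rp H i • S.σ a z)
      simpa using this
    rw [e1, e2]
    refine (hL (i, a) _ z hz z hz).trans ((le_abs_self _).trans ?_)
    exact Finset.single_le_sum (f := fun q => |L q|) (fun q _ => abs_nonneg _)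
      (Finset.mem_univ (i, a))
  obtain ⟨M, hM⟩ := hdisp
  have hvt : IsPHB p w (fun y => v ((t : Γ) • y)) B := phb_smul hG hv _
  have hdV : ∃ B', IsPHB p w (fun y => v ((t : Γ) • y) - v y) B' := by
    have := phb_lin (phb p w) (fun _ => Iff.rfl) hvt hv 1 (-1)
    obtain ⟨B', hB'⟩ := this
    refine ⟨B', ?_⟩
    have e : (fun y => v ((t : Γ) • y) - v y) = fun y => 1 * v ((t : Γ) • y) + -1 * v y := by
      funext y; ring
    rw [e]
    exact hB'
  obtain ⟨B₁, hdV⟩ := hdV
  have hc := const_of_kerinv hG hD hcov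
    (fun u u' B B' a b hu hu' => phb_lin (phb p w) (fun _ => Iff.rfl) hu hu' a b)
    (phb_one p w) H φ hφ hdV hM (fun ν hν y => by
      have e1 := hdep (t * ν) t (by rw [map_mul, hν, mul_one]) y
      simp only [Subgroup.coe_mul, mul_smul] at e1
      rw [e1, hinv ν hν])
  obtain ⟨y₀, y₁, hne⟩ := hne
  set c : ℝ := v ((t : Γ) • y₀) - v y₀ with hcdef
  have hstep : ∀ y, v ((t : Γ) • y) = v y + c := by
    intro y
    have := hc y y₀
    rw [hcdef]
    linarith
  have hk : ∀ (k : ℤ) (y : E), v (((t ^ k : H) : Γ) • y) = v y + k * c := by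
    have hnat : ∀ (k : ℕ) (y : E), v (((t ^ k : H) : Γ) • y) = v y + k * c := by
      intro k
      induction k with
      | zero => intro y; simp
      | succ k ih =>
        intro y
        have : ((t ^ (k + 1) : H) : Γ) • y = ((t ^ k : H) : Γ) • (t : Γ) • y := by
          rw [← mul_smul, pow_succ]
          rfl
        rw [this, ih, hstep]
        push_cast
        ring
    intro k y
    obtain ⟨m, rfl | rfl⟩ := k.eq_nat_or_neg
    · have := hnat m y
      simpa using this
    · have h1 := hnat m (((t ^ (-(m : ℤ)) : H) : Γ) • y)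
      have h2 : ((t ^ m : H) : Γ) • ((t ^ (-(m : ℤ)) : H) : Γ) • y = y := by
        rw [← mul_smul]
        have : ((t ^ m : H) : Γ) * ((t ^ (-(m : ℤ)) : H) : Γ) = 1 := by
          rw [← Subgroup.coe_mul]
          simp
        rw [this, one_smul]
      rw [h2] at h1
      have h3 : ((-(m : ℤ) : ℤ) : ℝ) = -(m : ℝ) := by push_cast; rfl
      rw [h3]
      linarith
  have hall : ∀ (h : H) (y : E), v ((h : Γ) • y) = v y + (Multiplicative.toAdd (φ h) : ℤ) * c := by
    intro h y
    rw [hdep _ _ (hpk h) y, hk]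
  have hc0 : c ≠ 0 := by
    intro h0
    apply hne
    exact const_of_fi hG hv H hHf (fun h hh y => by
      have := hall ⟨h, hh⟩ y
      rw [h0, mul_zero, add_zero] at this
      exact this) y₀ y₁
  obtain ⟨B', hB'⟩ := phb_lin (phb p w) (fun _ => Iff.rfl) hv hv c⁻¹ 0
  refine ⟨_, B', hB', fun h y => ?_⟩
  rw [hall]
  field_simp
  ring


end

theorem s1u_of (hE : ExConcl) (h14 : V14Concl) (n : ℕ) (X : Type) [TopologicalSpace X]
    [T2Space X] [CompactSpace X] [ConnectedSpace X]
    [ChartedSpace (Cm n) X] [IsManifold 𝓘(ℂ, Cm n) ω X]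
    (w : Chart n X → Cm n → Matrix (Fin n) (Fin n) ℂ) (hw : IsKahler w)
    (E Γ : Type) [TopologicalSpace E] [ConnectedSpace E] [Group Γ] [MulAction Γ E] (p : E → X)
    (hG : IsGalois Γ p) (H : Subgroup Γ) (hH : H.FiniteIndex) (φ : H →* Multiplicative ℤ) :
    ∃ (u : E → ℝ) (B : ℝ), IsPHB p w u B ∧
      ∀ (h : H) (y : E), u ((h : Γ) • y) = u y + (Multiplicative.toAdd (φ h) : ℤ) := by
  obtain ⟨C, P, K, ⟨S⟩⟩ := exists_sheets n X w hw E Γ p hG
  by_cases htriv : ∀ h, φ h = 1
  · obtain ⟨B, hB⟩ : ∃ B, IsPHB p w (0 : E → ℝ) B := (phb p w).zero_mem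
    refine ⟨0, B, hB, fun h y => ?_⟩
    rw [htriv h]
    simp
  · push Not at htriv
    obtain ⟨h₀, hh₀⟩ := htriv
    -- the image is infinite cyclic
    set R := φ.range with hR
    have hRinf : Infinite R := by
      have hne : (⟨φ h₀, h₀, rfl⟩ : R) ≠ 1 := fun h => hh₀ (congrArg Subtype.val h)
      refine Infinite.of_injective (fun k : ℤ => (⟨φ h₀, h₀, rfl⟩ : R) ^ k) ?_
      intro k l hkl
      have h1 := congrArg Subtype.val hkl
      simp only [SubgroupClass.coe_zpow] at h1
      have h2 := congrArg Multiplicative.toAdd h1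
      rw [toAdd_zpow, toAdd_zpow] at h2
      have h3 : Multiplicative.toAdd (φ h₀) ≠ 0 := fun h => hh₀ (by
        rw [← ofAdd_toAdd (φ h₀), h, ofAdd_zero])
      simpa [h3] using h2
    have hcyc : IsCyclic R := inferInstance
    have hcard : Nat.card R = 0 := Nat.card_eq_zero_of_infinite
    obtain ⟨e⟩ : Nonempty (R ≃* Multiplicative ℤ) := by
      have e0 := (zmodCyclicMulEquiv (G := R) hcyc).symm
      rw [hcard] at e0
      exact ⟨e0⟩
    set ψ : H →* Multiplicative ℤ := e.toMonoidHom.comp φ.rangeRestrict with hψ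
    have hψs : Function.Surjective ψ := e.surjective.comp φ.rangeRestrict_surjective
    obtain ⟨v, B, hv, hne, hinv⟩ := exists_inv hE h14 P K S H ψ hψs
    obtain ⟨u, B', hu, hper⟩ := exists_period' hG S H ψ hψs hv hne hinv
    set m : ℤ := Multiplicative.toAdd ((e.symm (Multiplicative.ofAdd 1) : R) : Multiplicative ℤ)
      with hm
    have hφψ : ∀ h, (Multiplicative.toAdd (φ h) : ℤ) = Multiplicative.toAdd (ψ h) * m := by
      intro h
      have h1 : φ h = ((e.symm (ψ h) : R) : Multiplicative ℤ) := by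
        rw [hψ]
        simp only [MonoidHom.comp_apply, MulEquiv.toMonoidHom_eq_coe, MonoidHom.coe_coe,
          MulEquiv.symm_apply_apply]
        rfl
      have h2 : ψ h = (Multiplicative.ofAdd (1 : ℤ)) ^ (Multiplicative.toAdd (ψ h)) := by
        rw [← ofAdd_zsmul]
        simp
      rw [h1]
      conv_lhs => rw [h2, map_zpow]
      rw [SubgroupClass.coe_zpow, toAdd_zpow, smul_eq_mul]
    obtain ⟨B'', hB''⟩ := phb_lin (phb p w) (fun _ => Iff.rfl) hu hu (m : ℝ) 0
    refine ⟨_, B'', hB'', fun h y => ?_⟩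
    rw [hper, hφψ]
    push_cast
    ring



/-- **S1** -/
theorem s1u (n : ℕ) (X : Type) [TopologicalSpace X]
    [T2Space X] [CompactSpace X] [ConnectedSpace X]
    [ChartedSpace (Cm n) X] [IsManifold 𝓘(ℂ, Cm n) ω X]
    (w : Chart n X → Cm n → Matrix (Fin n) (Fin n) ℂ) (hw : IsKahler w)
    (E Γ : Type) [TopologicalSpace E] [ConnectedSpace E] [Group Γ] [MulAction Γ E] (p : E → X)
    (hG : IsGalois Γ p) (H : Subgroup Γ) (hH : H.FiniteIndex) (φ : H →* Multiplicative ℤ) :
    ∃ (u : E → ℝ) (B : ℝ), IsPHB p w u B ∧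
      ∀ (h : H) (y : E), u ((h : Γ) • y) = u y + (Multiplicative.toAdd (φ h) : ℤ) :=
  s1u_of exConcl v14Concl n X w hw E Γ p hG H hH φ

end Vale.Agent.P284.H174
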