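import Vale.Agent.P284.H174.NoFE
import Vale.Agent.P284.H174.S1U
import Vale.Agent.P284.H213.Q.AsmQS
import Vale.Agent.P284.H885.Dom

/-!
# P284 (helper174): ALB+U for classes of manifolds without Hilbert space valued forms; the classes of
dominable and of special manifolds
-/

open scoped Manifold ContDiff Topology
open Filter Set Metric

noncomputable section

namespace Vale.Agent.P284.H174

open Vale.Agent.P272.K Vale.Agent.P284.H573 Vale.Agent.P284.H894.G Vale.Agent.P284.H619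
  Vale.Agent.P284.H221 Vale.Agent.P284.H998 Vale.Agent.P284.H894.W Vale.Agent.P284.H837
  Vale.Agent.P284.H248 Vale.Agent.P284.H213.Q

/-- **ALB+U** for a class of manifolds -/
theorem albUD_of {D : Cls}
    (h : ∀ (n : ℕ) (X : Type) [TopologicalSpace X] [T2Space X] [CompactSpace X] [ConnectedSpace X]
      [ChartedSpace (Cm n) X] [IsManifold 𝓘(ℂ, Cm n) ω X] (ι : Type) [Fintype ι] (_ : PJ n X ι),
      D n X → NoFE n X) : AlbUD D := by
  intro n X _ _ _ _ _ _ ι _ J hD w hw E Γ _ _ _ _ p hG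
  exact albU_of n X w hw E Γ p hG (s1u n X w hw E Γ p hG) (regOn_of_noFE (h n X ι J hD) hG)

/-! ### dominable manifolds -/

/-- the class of the manifolds with a holomorphic map from `ℂᴺ` of rank `n` at one point -/
def domWC (N : ℕ) : Cls := fun n X _ _ => GD.DomW N n X

theorem albUD_domW (N : ℕ) : AlbUD (domWC N) :=
  albUD_of fun _ _ _ _ _ _ _ _ _ _ J hD => noFE_domW J hD

theorem etSt_domW (N : ℕ) : EtSt (domWC N) := by
  intro n X _ _ _ _ _ _ Y _ _ _ _ _ _ π hπ hπc hD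
  obtain ⟨Φ, hΦ, ζ, e, he, hs⟩ := hD
  have hsurj : Function.Surjective π := by
    have h1 : IsOpen (range π) := hπc.isLocalHomeomorph.isOpenMap.isOpen_range
    have h2 : IsClosed (range π) := (isCompact_range hπc.continuous).isClosed
    exact range_eq_univ.1 (IsClopen.eq_univ ⟨h2, h1⟩ (range_nonempty π))
  obtain ⟨y, hy⟩ := hsurj (Φ ζ)
  obtain ⟨Φl, h1, h2, h3⟩ := H885.exists_lift_at hπc hΦ.continuous hy
  have h5 : (fun t => π (Φl t)) = Φ := funext h2
  have h6 : ContMDiff 𝓘(ℂ, Cm N) 𝓘(ℂ, Cm n) ω Φl :=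
    hπ.contMDiff_of_comp h1 (by rw [h5]; exact hΦ)
  have hm : MDifferentiableAt 𝓘(ℂ, Cm N) 𝓘(ℂ, Cm n) Φl ζ := (h6 ζ).mdifferentiableAt (by simp)
  have hm' : MDifferentiableAt 𝓘(ℂ, Cm N) 𝓘(ℂ, Cm n) Φ ζ := (hΦ ζ).mdifferentiableAt (by simp)
  have h7 : Function.Surjective (mfderiv 𝓘(ℂ, Cm N) 𝓘(ℂ, Cm n) Φl ζ) := by
    rw [← hπ.surjective_iff hm, h5]
    exact (H885.surj_mfderiv_iff hm' he).2 hs
  have he' : At (chartAt (Cm n) (Φl ζ)) (Φl ζ) := ⟨chart_mem_atlas _ _, mem_chart_source _ _⟩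
  exact ⟨Φl, h6, ζ, _, he', (H885.surj_mfderiv_iff hm he').1 h7⟩

/-! ### special manifolds -/

theorem isCoveringMap_id' {X : Type} [TopologicalSpace X] : IsCoveringMap (id : X → X) := by
  intro x
  have : Unique (id ⁻¹' {x} : Set X) := ⟨⟨⟨x, rfl⟩⟩, fun y => Subtype.ext y.2⟩
  refine ⟨inferInstance, univ, mem_univ x, isOpen_univ, isOpen_univ,
    { toFun := fun y => (⟨y.1, mem_univ _⟩, default)
      invFun := fun z => ⟨z.1.1, mem_univ _⟩
      left_inv := fun y => rfl
      right_inv := fun z => Prod.ext rfl (Subsingleton.elim _ _)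
      continuous_toFun := by fun_prop
      continuous_invFun := by fun_prop }, fun y => rfl⟩

theorem special_of_fsp {n : ℕ} {X : Type} [TopologicalSpace X] [T2Space X] [CompactSpace X]
    [ConnectedSpace X] [ChartedSpace (Cm n) X] [IsManifold 𝓘(ℂ, Cm n) ω X] (h : FSp n X) :
    Special n X :=
  h X id isCoveringMap_id' contMDiff_id

/-- **ALB+U** for special manifolds -/
theorem albSp_of (h : SpStmt) : AlbSpStmt :=
  albUD_of (D := fun n X _ _ => FSp n X) fun _ _ _ _ _ _ _ _ _ _ J hD =>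
    noFE_special h J (special_of_fsp hD)

end Vale.Agent.P284.H174
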