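import Vale.Agent.P284.H174.Alb3
import Vale.Agent.P284.H213.Grp.AsmS

/-!
# P284 (helper174): helper213's interface statement `AlbUStmt`
-/

open scoped Manifold ContDiff

noncomputable section

namespace Vale.Agent.P284.H174

open Vale.Agent.P284.H619 Vale.Agent.P284.H221 Vale.Agent.P284.H213.Grp

/-- **ALB+U** -/
theorem albUStmt_of (h0 : NS0Stmt) (hs : SigStmt) : AlbUStmt := by
  intro n N X _ _ _ _ _ _ ι _ D hD w hw E Γ _ _ _ _ p hG _
  exact albStmt3_of h0 hs n N X w hw ι D hD E Γ p hG

end Vale.Agent.P284.H174
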