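import Mathlib.Topology.Covering.Basic
import Mathlib.Topology.Separation.Hausdorff

/-!
# P284 (helper174): local homeomorphisms from compact spaces are coverings
-/

open Filter Set Topology

namespace Vale.Agent.P284.H174

/-- A surjective local homeomorphism from a compact Hausdorff space to a Hausdorff space is a covering. -/
theorem isCoveringMap_of_compact {Z X : Type*} [TopologicalSpace Z] [TopologicalSpace X]
    [CompactSpace Z] [T2Space Z] [T2Space X] {f : Z → X} (hf : IsLocalHomeomorph f)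
    (hs : Function.Surjective f) : IsCoveringMap f := by
  classical
  intro x
  have hfc : Continuous f := hf.continuous
  have hfo : IsOpenMap f := hf.isOpenMap
  set F : Set Z := f ⁻¹' {x} with hF
  have hFcl : IsClosed F := isClosed_singleton.preimage hfc
  have hFc : IsCompact F := hFcl.isCompact
  -- the fibre is discrete and finite
  have hdisc : DiscreteTopology F := by
    rw [discreteTopology_subtype_iff']
    intro z hz
    obtain ⟨φ, hφ, hφf⟩ := hf z
    refine ⟨φ.source, φ.open_source, ?_⟩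
    ext z'
    constructor
    · rintro ⟨h1, h2⟩
      refine mem_singleton_iff.2 (φ.injOn h1 hφ ?_)
      have e1 : f z' = x := h2
      have e2 : f z = x := hz
      rw [← hφf, e1, e2]
    · rintro rfl
      exact ⟨hφ, hz⟩
  have hFfin : F.Finite := hFc.finite ⟨hdisc⟩
  have hex : ∀ z : Z, ∃ φ : OpenPartialHomeomorph Z X, z ∈ φ.source ∧ f = φ := hf
  choose φ hφ hφf using hex
  obtain ⟨U₀, hU₀, hdisj⟩ := hFfin.t2_separation
  -- disjoint open sets on which `f` is injective
  set U₁ : Z → Set Z := fun z => U₀ z ∩ (φ z).source with hU₁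
  have hU₁o : ∀ z, IsOpen (U₁ z) := fun z => (hU₀ z).2.inter (φ z).open_source
  have hzU₁ : ∀ z, z ∈ U₁ z := fun z => ⟨(hU₀ z).1, hφ z⟩
  have hinj : ∀ z, InjOn f (U₁ z) := by
    intro z a ha b hb hab
    refine (φ z).injOn ha.2 hb.2 ?_
    rw [← hφf z]
    exact hab
  set Kc : Set Z := (⋃ z ∈ F, U₁ z)ᶜ with hKc
  have hKcc : IsClosed (f '' Kc) := by
    have h1 : IsClosed Kc := (isOpen_biUnion fun z _ => hU₁o z).isClosed_compl
    exact (h1.isCompact.image hfc).isClosed
  set V : Set X := (⋂ z ∈ F, f '' U₁ z) ∩ (f '' Kc)ᶜ with hV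
  have hVo : IsOpen V := by
    refine IsOpen.inter ?_ hKcc.isOpen_compl
    exact hFfin.isOpen_biInter fun z _ => hfo _ (hU₁o z)
  have hxV : x ∈ V := by
    refine ⟨mem_iInter₂.2 fun z hz => ⟨z, hzU₁ z, hz⟩, ?_⟩
    rintro ⟨z, hz, hzx⟩
    exact hz (mem_iUnion₂.2 ⟨z, hzx, hzU₁ z⟩)
  obtain ⟨z₀, hz₀⟩ := hs x
  have : Nonempty F := ⟨⟨z₀, hz₀⟩⟩
  have : Nonempty (X → Z) := ⟨fun _ => z₀⟩
  set U : F → Set Z := fun z => U₁ z ∩ f ⁻¹' V with hU
  have hsurj : ∀ i : F, SurjOn f (U i) V := by
    intro i y hy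
    obtain ⟨z, hz, rfl⟩ := mem_iInter₂.1 hy.1 i.1 i.2
    exact ⟨z, ⟨hz, hy⟩, rfl⟩
  let t := IsOpen.trivializationDiscrete (f := f) U V hVo
    (fun i W hW => ⟨fun h => (h.preimage hfc).inter ((hU₁o i).inter (hVo.preimage hfc)),
      fun h => by
        have h1 : W = f '' (f ⁻¹' W ∩ U i) := by
          ext y
          constructor
          · intro hy
            obtain ⟨z, hz, rfl⟩ := hsurj i (hW hy)
            exact ⟨z, ⟨hy, hz⟩, rfl⟩
          · rintro ⟨z, ⟨h2, -⟩, rfl⟩
            exact h2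
        rw [h1]
        exact hfo _ h⟩)
    (fun i => (hinj i).mono inter_subset_left) hsurj
    (fun i j hij => (hdisj i.2 j.2 fun h => hij (Subtype.ext h)).mono
      (fun z hz => hz.1.1) (fun z hz => hz.1.1))
    (fun z hz => by
      have h1 : z ∈ ⋃ z ∈ F, U₁ z := by
        by_contra h2
        exact hz.2 ⟨z, h2, rfl⟩
      obtain ⟨z', hz', h3⟩ := mem_iUnion₂.1 h1
      exact mem_iUnion.2 ⟨⟨z', hz'⟩, h3, hz⟩)
  exact IsEvenlyCovered.of_trivialization (t := t) hxV

/-- the composition of two coverings of compact spaces -/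
theorem covering_comp {X' Y X : Type*} [TopologicalSpace X'] [TopologicalSpace Y]
    [TopologicalSpace X] [CompactSpace X'] [T2Space X'] [Nonempty X'] [T2Space X]
    [ConnectedSpace X] {g : X' → Y} {f : Y → X} (hg : IsCoveringMap g) (hf : IsCoveringMap f) :
    IsCoveringMap (fun z => f (g z)) := by
  have hl : IsLocalHomeomorph (f ∘ g) := hf.isLocalHomeomorph.comp hg.isLocalHomeomorph
  refine isCoveringMap_of_compact hl ?_
  have h1 : IsOpen (range (f ∘ g)) := hl.isOpenMap.isOpen_range
  have h2 : IsClosed (range (f ∘ g)) := (isCompact_range hl.continuous).isClosed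
  exact range_eq_univ.1 (IsClopen.eq_univ ⟨h2, h1⟩ (range_nonempty _))

end Vale.Agent.P284.H174
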