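import Vale.Agent.P284.H174.UMain

/-!
# P284 (helper174), module U: the derivative of a holomorphic function on a covering
-/

open scoped Manifold ContDiff Topology InnerProductSpace
open Filter Set Metric

noncomputable section

namespace Vale.Agent.P284.H174

open Vale.Agent.P272.K Vale.Agent.P284.H573 Vale.Agent.P284.H894.G Vale.Agent.P284.H619
  Vale.Agent.P284.H221 Vale.Agent.P284.H998

section
variable {n : ℕ} {X : Type} [TopologicalSpace X] [ChartedSpace (Cm n) X]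
  {E : Type} [TopologicalSpace E] {p : E → X} {W : Type} [NormedAddCommGroup W]
  [NormedSpace ℂ W] {F : E → W}

/-- `F` is holomorphic -/
def LocAn (n : ℕ) {X : Type} [TopologicalSpace X] [ChartedSpace (Cm n) X] (p : E → X)
    (F : E → W) : Prop :=
  ∀ (y : E) (e : Chart n X), At e (p y) → ∃ f : Cm n → W,
    (∀ᶠ y' in 𝓝 y, F y' = f (e (p y'))) ∧ AnalyticAt ℂ f (e (p y))

open Classical in
/-- the derivative of a function on the covering -/
def dd (p : E → X) (F : E → W) (y : E) (e : Chart n X) : Cm n →L[ℂ] W :=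
  if h : ∃ f : Cm n → W, (∀ᶠ y' in 𝓝 y, F y' = f (e (p y'))) ∧ AnalyticAt ℂ f (e (p y))
  then fderiv ℂ h.choose (e (p y)) else 0

lemma rep_unique (hp : IsCoveringMap p) {y : E} {e : Chart n X} (he : At e (p y))
    {f f' : Cm n → W} (hf : ∀ᶠ y' in 𝓝 y, F y' = f (e (p y')))
    (hf' : ∀ᶠ y' in 𝓝 y, F y' = f' (e (p y'))) : f =ᶠ[𝓝 (e (p y))] f' := by
  rw [Filter.EventuallyEq, ← ev_iff hp he]
  filter_upwards [hf, hf'] with y' h1 h2
  rw [← h1, ← h2]

lemma dd_eq (hp : IsCoveringMap p) {y : E} {e : Chart n X} (he : At e (p y))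
    {f : Cm n → W} (hf : ∀ᶠ y' in 𝓝 y, F y' = f (e (p y'))) (ha : AnalyticAt ℂ f (e (p y))) :
    dd p F y e = fderiv ℂ f (e (p y)) := by
  have h : ∃ f : Cm n → W, (∀ᶠ y' in 𝓝 y, F y' = f (e (p y'))) ∧ AnalyticAt ℂ f (e (p y)) :=
    ⟨f, hf, ha⟩
  unfold dd
  rw [dif_pos h]
  exact (rep_unique hp he h.choose_spec.1 hf).fderiv_eq

lemma dd_ev [CompleteSpace W] (hp : IsCoveringMap p) {y : E} {e : Chart n X} (he : At e (p y))
    {f : Cm n → W} (hf : ∀ᶠ y' in 𝓝 y, F y' = f (e (p y'))) (ha : AnalyticAt ℂ f (e (p y))) :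
    ∀ᶠ y' in 𝓝 y, dd p F y' e = fderiv ℂ f (e (p y')) := by
  filter_upwards [hf.eventually_nhds, at_ev hp he,
    (ev_iff hp he).2 ha.eventually_analyticAt] with y' h1 h2 h3
  exact dd_eq hp h2 h1 h3

end

section
variable {n : ℕ} {X : Type} [TopologicalSpace X] [ChartedSpace (Cm n) X]
  [IsManifold 𝓘(ℂ, Cm n) ω X]
  {E : Type} [TopologicalSpace E] {p : E → X} {W : Type} [NormedAddCommGroup W]
  [InnerProductSpace ℂ W] [CompleteSpace W] {F : E → W}

lemma dd_cform (hp : IsCoveringMap p) (hF : LocAn n p F) : CForm n p W (dd p F) := by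
  refine ⟨fun y e he => ?_, fun y e e' he he' => ?_⟩
  · obtain ⟨f, hf, ha⟩ := hF y e he
    exact ⟨f, ha, dd_ev hp he hf ha⟩
  · obtain ⟨f, hf, ha⟩ := hF y e' he'
    have h1 : ∀ᶠ y' in 𝓝 y, F y' = (fun z => f (e' (e.symm z))) (e (p y')) := by
      filter_upwards [hf, at_ev hp he] with y' h1 h2
      show F y' = f (e' (e.symm (e (p y'))))
      rw [h1, h2.left_inv]
    have h2 : AnalyticAt ℂ (fun z => e' (e.symm z)) (e (p y)) := (transition he he').analyticAt
    have h3 : e' (e.symm (e (p y))) = e' (p y) := by rw [he.left_inv]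
    have h4 : AnalyticAt ℂ f (e' (e.symm (e (p y)))) := by rw [h3]; exact ha
    have h5 : AnalyticAt ℂ (fun z => f (e' (e.symm z))) (e (p y)) :=
      AnalyticAt.comp' (f := fun z => e' (e.symm z)) h4 h2
    rw [dd_eq hp he h1 h5, dd_eq hp he' hf ha]
    have h6 := fderiv_comp (𝕜 := ℂ) (e (p y)) (g := f) (f := fun z => e' (e.symm z))
      h4.differentiableAt h2.differentiableAt
    rw [h3] at h6
    exact h6

lemma dd_equi {Γ : Type} [Group Γ] [MulAction Γ E] (hG : IsGalois Γ p)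
    (π : Γ →* (W ≃ₗᵢ[ℂ] W)) (hF : LocAn n p F)
    (hπ : ∀ g : Γ, ∃ c : W, ∀ y, F (g • y) = π g (F y) + c) : Equi (n := n) p π (dd p F) := by
  intro g y e he
  have hpy : ∀ y, p (g • y) = p y := fun y => ((hG.orb y (g • y)).2 ⟨g, rfl⟩).symm
  have he' : At e (p (g • y)) := by rw [hpy]; exact he
  obtain ⟨f, hf, ha⟩ := hF y e he
  obtain ⟨c, hc⟩ := hπ g
  have h1 : ∀ᶠ y' in 𝓝 (g • y), F y' = (fun z => π g (f z) + c) (e (p y')) := by
    have h2 : Tendsto (fun y' : E => g⁻¹ • y') (𝓝 (g • y)) (𝓝 y) := by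
      have := (hG.cont g⁻¹).tendsto (g • y)
      rwa [inv_smul_smul] at this
    filter_upwards [h2.eventually hf] with y' h3
    have h4 := hc (g⁻¹ • y')
    rw [smul_inv_smul] at h4
    show F y' = π g (f (e (p y'))) + c
    rw [h4, h3]
    have h5 : p (g⁻¹ • y') = p y' := ((hG.orb y' (g⁻¹ • y')).2 ⟨g⁻¹, rfl⟩).symm
    rw [h5]
  have ha' : AnalyticAt ℂ (fun z => π g (f z) + c) (e (p (g • y))) := by
    rw [hpy]
    exact (((π g).toContinuousLinearEquiv : W →L[ℂ] W).analyticAt _ |>.comp ha).add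
      analyticAt_const
  rw [dd_eq hG.cov he' h1 ha', dd_eq hG.cov he hf ha, hpy]
  rw [fderiv_add_const]
  exact (((π g).toContinuousLinearEquiv : W →L[ℂ] W).hasFDerivAt.comp (e (p y))
    ha.differentiableAt.hasFDerivAt).fderiv

end

end Vale.Agent.P284.H174
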