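import Vale.Agent.P284.H174.GoodD
import Vale.Agent.P284.H812.Cal
import Mathlib.Analysis.Normed.Operator.Extend

/-!
# P284 (helper174): every `HForm` on a connected Galois covering is equivariant (Calabi rigidity)

The norm of the values determines their inner products; so every element of the group acts on the
closed span of the values by a linear isometry.
-/

open scoped Manifold ContDiff Topology InnerProductSpace
open Filter Set Metric

noncomputable section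

namespace Vale.Agent.P284.H174.EQ

open Vale.Agent.P272.K Vale.Agent.P284.H573 Vale.Agent.P284.H619 Vale.Agent.P284.H174.GD
  Vale.Agent.P284.H894 Vale.Agent.P284.H894.G

/-- a linear isometry from equal Gram matrices -/
theorem exists_isometry {ι : Type*} {H : Type*} [NormedAddCommGroup H] [InnerProductSpace ℂ H]
    [CompleteSpace H] (a b : ι → H) (hab : ∀ i j, ⟪a i, a j⟫_ℂ = ⟪b i, b j⟫_ℂ)
    (ha : Dense ((Submodule.span ℂ (range a) : Submodule ℂ H) : Set H))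
    (hb : Dense ((Submodule.span ℂ (range b) : Submodule ℂ H) : Set H)) :
    ∃ U : H ≃ₗᵢ[ℂ] H, ∀ i, U (a i) = b i := by
  classical
  set Ta : (ι →₀ ℂ) →ₗ[ℂ] H := Finsupp.linearCombination ℂ a with hTa
  set Tb : (ι →₀ ℂ) →ₗ[ℂ] H := Finsupp.linearCombination ℂ b with hTb
  have hn : ∀ x, ‖Tb ((LinearEquiv.refl ℂ (ι →₀ ℂ)) x)‖ = ‖Ta x‖ := by
    intro x
    have h1 : ⟪Tb x, Tb x⟫_ℂ = ⟪Ta x, Ta x⟫_ℂ := by
      simp only [hTa, hTb, Finsupp.linearCombination_apply, Finsupp.sum, sum_inner, inner_sum,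
        inner_smul_left, inner_smul_right, hab]
    rw [inner_self_eq_norm_sq_to_K, inner_self_eq_norm_sq_to_K] at h1
    have h2 : ‖Tb x‖ ^ 2 = ‖Ta x‖ ^ 2 := by exact_mod_cast h1
    exact (sq_eq_sq₀ (norm_nonneg _) (norm_nonneg _)).1 h2
  have hda : DenseRange Ta := by
    rw [DenseRange, ← LinearMap.coe_range, Finsupp.range_linearCombination]
    exact ha
  have hdb : DenseRange Tb := by
    rw [DenseRange, ← LinearMap.coe_range, Finsupp.range_linearCombination]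
    exact hb
  refine ⟨(LinearEquiv.refl ℂ (ι →₀ ℂ)).extendOfIsometry Ta Tb hda hdb hn, fun i => ?_⟩
  have h3 := LinearEquiv.extendOfIsometry_eq (LinearEquiv.refl ℂ (ι →₀ ℂ)) Ta Tb hda hdb hn
    (Finsupp.single i 1)
  have h4 : Ta (Finsupp.single i 1) = a i := by simp [hTa]
  have h5 : Tb ((LinearEquiv.refl ℂ (ι →₀ ℂ)) (Finsupp.single i 1)) = b i := by simp [hTb]
  rw [h4, h5] at h3
  exact h3

section
variable {n R m : ℕ} {X : Type} [TopologicalSpace X] [ChartedSpace (Cm n) X]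
  {E : Type} [TopologicalSpace E] {p : E → X} {Γ : Type} [Group Γ] [MulAction Γ E]
  {H : Type} [NormedAddCommGroup H] [InnerProductSpace ℂ H]
  {v : E → Chart n X → (Fin R → Cm n) → H}

lemma p_smul (hG : IsGalois Γ p) (g : Γ) (y : E) : p (g • y) = p y :=
  ((hG.orb y (g • y)).2 ⟨g, rfl⟩).symm

lemma scale (hv : HForm n R m p H v) {y : E} {e : Chart n X} (he : At e (p y)) (t : ℂ)
    (ξ : Fin R → Cm n) : v y e (t • ξ) = (t ^ R) ^ m • v y e ξ := by
  have h3 := hv.det y e he (t • (1 : Matrix (Fin R) (Fin R) ℂ)) ξ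
  have h4 : (fun i => ∑ j, (t • (1 : Matrix (Fin R) (Fin R) ℂ)) i j • ξ j) = t • ξ := by
    funext i
    simp [Matrix.smul_apply, Matrix.one_apply]
  rw [h4, Matrix.det_smul, Matrix.det_one, mul_one, Fintype.card_fin] at h3
  exact h3

/-- the scaling factor -/
def tf (ξ : Fin R → Cm n) : ℂ := (((1 + ‖ξ‖)⁻¹ : ℝ) : ℂ)

lemma tf_ne (ξ : Fin R → Cm n) : tf ξ ≠ 0 :=
  Complex.ofReal_ne_zero.2 (inv_ne_zero (by positivity))

lemma tf_mem (ξ : Fin R → Cm n) : tf ξ • ξ ∈ ball (0 : Fin R → Cm n) 1 := by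
  have hpos : 0 < 1 + ‖ξ‖ := by positivity
  rw [mem_ball_zero_iff, tf, norm_smul, Complex.norm_real, Real.norm_of_nonneg
    (inv_nonneg.2 hpos.le), inv_mul_lt_iff₀ hpos]
  linarith

variable [CompleteSpace H]

/-- local equality of the inner products -/
theorem gram_near (hG : IsGalois Γ p) (hv : HForm n R m p H v) (g : Γ) {y₁ : E} {e : Chart n X}
    (he : At e (p y₁)) : ∃ V ∈ 𝓝 y₁, ∀ y ∈ V, ∀ y' ∈ V, ∀ ξ ξ',
      ⟪v y e ξ, v y' e ξ'⟫_ℂ = ⟪v (g • y) e ξ, v (g • y') e ξ'⟫_ℂ := by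
  have hp := hG.cov
  have he' : At e (p (g • y₁)) := by rw [p_smul hG]; exact he
  obtain ⟨F, hF, hFe⟩ := hv.hol y₁ e he
  obtain ⟨G, hGa, hGe⟩ := hv.hol (g • y₁) e he'
  rw [p_smul hG] at hGa
  have hGe' : ∀ᶠ y' in 𝓝 y₁, ∀ ξ, v (g • y') e ξ = G (e (p y'), ξ) := by
    filter_upwards [((hG.cont g).tendsto y₁).eventually hGe] with y' h ξ
    rw [h, p_smul hG]
  have h1 : ∀ᶠ z in 𝓝 (e (p y₁)), ∀ ξ ∈ closedBall (0 : Fin R → Cm n) 1,
      AnalyticAt ℂ F (z, ξ) ∧ AnalyticAt ℂ G (z, ξ) := by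
    refine (isCompact_closedBall _ _).eventually_forall_of_forall_eventually fun ξ _ => ?_
    exact (hF ξ).eventually_analyticAt.and (hGa ξ).eventually_analyticAt
  have h2 : ∀ᶠ z in 𝓝 (e (p y₁)), ∃ y, e (p y) = z ∧ At e (p y) ∧
      (∀ ξ, v y e ξ = F (e (p y), ξ)) ∧ ∀ ξ, v (g • y) e ξ = G (e (p y), ξ) := by
    rw [← map_ep hp he, eventually_map]
    filter_upwards [at_ev hp he, hFe, hGe'] with y k1 k2 k3 using ⟨y, rfl, k1, k2, k3⟩
  obtain ⟨ε, hε, hb⟩ := Metric.eventually_nhds_iff_ball.1 (h1.and h2)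
  set B : Set (Cm n × (Fin R → Cm n)) := ball (e (p y₁)) ε ×ˢ ball 0 1 with hB
  have hBo : IsOpen B := isOpen_ball.prod isOpen_ball
  have hBc : Convex ℝ B := (convex_ball _ _).prod (convex_ball _ _)
  have hFd : DifferentiableOn ℂ F B := fun x hx =>
    ((hb x.1 hx.1).1 x.2 (ball_subset_closedBall hx.2)).1.differentiableAt.differentiableWithinAt
  have hGd : DifferentiableOn ℂ G B := fun x hx =>
    ((hb x.1 hx.1).1 x.2 (ball_subset_closedBall hx.2)).2.differentiableAt.differentiableWithinAt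
  have hn : ∀ x ∈ B, ‖F x‖ = ‖G x‖ := by
    intro x hx
    obtain ⟨y, k1, k2, k3, k4⟩ := (hb x.1 hx.1).2
    have k5 := hv.inv y (g • y) e k2 (p_smul hG g y).symm x.2
    rw [k3, k4, k1] at k5
    exact k5
  refine ⟨{y | At e (p y) ∧ e (p y) ∈ ball (e (p y₁)) ε ∧ (∀ ξ, v y e ξ = F (e (p y), ξ)) ∧
    ∀ ξ, v (g • y) e ξ = G (e (p y), ξ)}, ?_, ?_⟩
  · filter_upwards [at_ev hp he, (tendsto_ep hp he).eventually_mem (ball_mem_nhds _ hε), hFe,
      hGe'] with y k1 k2 k3 k4 using ⟨k1, k2, k3, k4⟩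
  · rintro y ⟨a1, a2, a3, a4⟩ y' ⟨b1, b2, b3, b4⟩ ξ ξ'
    have a1' : At e (p (g • y)) := by rw [p_smul hG]; exact a1
    have b1' : At e (p (g • y')) := by rw [p_smul hG]; exact b1
    have h5 := Vale.Agent.P284.H812.inner_eq_of_norm_eq hBo hBc hFd hGd hn
      (z := (e (p y'), tf ξ' • ξ')) (w := (e (p y), tf ξ • ξ)) ⟨b2, tf_mem ξ'⟩ ⟨a2, tf_mem ξ⟩
    rw [← a3, ← a4, ← b3, ← b4, scale hv a1, scale hv b1, scale hv a1', scale hv b1',
      inner_smul_left, inner_smul_right, inner_smul_left, inner_smul_right] at h5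
    have n1 : (starRingEnd ℂ) ((tf ξ ^ R) ^ m) ≠ 0 :=
      (map_ne_zero _).2 (pow_ne_zero _ (pow_ne_zero _ (tf_ne ξ)))
    have n2 : (tf ξ' ^ R) ^ m ≠ 0 := pow_ne_zero _ (pow_ne_zero _ (tf_ne ξ'))
    exact mul_left_cancel₀ n2 (mul_left_cancel₀ n1 h5)

/-- **Equality of the inner products** -/
theorem gram_eq [IsManifold 𝓘(ℂ, Cm n) ω X] [PreconnectedSpace E] (hG : IsGalois Γ p)
    (hv : HForm n R m p H v) (g : Γ) {y₀ : E} {e₀ : Chart n X} (he₀ : At e₀ (p y₀))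
    (ξ₀ : Fin R → Cm n) {y : E} {e : Chart n X} (he : At e (p y)) (ξ : Fin R → Cm n) :
    ⟪v y₀ e₀ ξ₀, v y e ξ⟫_ℂ = ⟪v (g • y₀) e₀ ξ₀, v (g • y) e ξ⟫_ℂ := by
  have hp := hG.cov
  set a := v y₀ e₀ ξ₀ with ha
  set a' := v (g • y₀) e₀ ξ₀ with ha'
  have hchg : ∀ (y' : E) (e e' : Chart n X), At e (p y') → At e' (p y') →
      (∀ ξ, ⟪a, v y' e ξ⟫_ℂ = ⟪a', v (g • y') e ξ⟫_ℂ) →
      ∀ ξ, ⟪a, v y' e' ξ⟫_ℂ = ⟪a', v (g • y') e' ξ⟫_ℂ := by
    intro y' e e' h1 h2 h3 ξ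
    rw [hv.change y' e' e h2 h1, hv.change (g • y') e' e (by rw [p_smul hG]; exact h2)
      (by rw [p_smul hG]; exact h1), p_smul hG]
    exact h3 _
  set Q : Set E := {y | ∀ᶠ y' in 𝓝 y, ∀ e, At e (p y') → ∀ ξ,
    ⟪a, v y' e ξ⟫_ℂ = ⟪a', v (g • y') e ξ⟫_ℂ} with hQ
  have hQo : IsOpen Q := isOpen_iff_mem_nhds.2 fun y hy => hy.eventually_nhds
  have hQc : IsClosed Q := by
    rw [← closure_subset_iff_isClosed]
    intro y₁ hy₁
    set e := chartAt (Cm n) (p y₁) with he_def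
    have he : At e (p y₁) := ⟨chart_mem_atlas _ _, mem_chart_source _ _⟩
    have he' : At e (p (g • y₁)) := by rw [p_smul hG]; exact he
    obtain ⟨ε, hε, f, hf, hfe⟩ := exists_fam hv hp he
    obtain ⟨ε', hε', f', hf', hfe'⟩ := exists_fam hv hp he'
    rw [p_smul hG] at hf'
    have hfe'' : ∀ᶠ y' in 𝓝 y₁, ∀ ξ, v (g • y') e ξ = f' ξ (e (p y')) := by
      filter_upwards [((hG.cont g).tendsto y₁).eventually hfe'] with y' h ξ
      rw [h, p_smul hG]
    set r := min ε ε' with hr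
    set B := ball (e (p y₁)) r with hB
    have hBc : IsPreconnected B := (convex_ball _ _).isPreconnected
    have hall : ∀ᶠ y' in 𝓝 y₁, At e (p y') ∧ e (p y') ∈ B ∧ (∀ ξ, v y' e ξ = f ξ (e (p y'))) ∧
        ∀ ξ, v (g • y') e ξ = f' ξ (e (p y')) := by
      filter_upwards [at_ev hp he, (tendsto_ep hp he).eventually_mem
        (ball_mem_nhds _ (lt_min hε hε')), hfe, hfe''] with y' k1 k2 k3 k4 using ⟨k1, k2, k3, k4⟩
    obtain ⟨V, hV, hVo, hyV⟩ := _root_.eventually_nhds_iff.1 hall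
    obtain ⟨y₂, h2V, h2Q⟩ := mem_closure_iff.1 hy₁ V hVo hyV
    have hz : ∀ ξ, EqOn (fun z => ⟪a, f ξ z⟫_ℂ - ⟪a', f' ξ z⟫_ℂ) 0 B := by
      intro ξ
      refine AnalyticOnNhd.eqOn_zero_of_preconnected_of_eventuallyEq_zero (𝕜 := ℂ) ?_ hBc
        (hV y₂ h2V).2.1 ?_
      · intro z hz
        have e1 : AnalyticAt ℂ (f ξ) z := hf ξ z (ball_subset_ball (min_le_left _ _) hz)
        have e2 : AnalyticAt ℂ (f' ξ) z := hf' ξ z (ball_subset_ball (min_le_right _ _) hz)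
        exact ((innerSL ℂ a).analyticAt _ |>.comp e1).sub ((innerSL ℂ a').analyticAt _ |>.comp e2)
      · show ∀ᶠ z in 𝓝 (e (p y₂)), _
        rw [← ev_iff hp (hV y₂ h2V).1]
        filter_upwards [h2Q, hVo.mem_nhds h2V] with y' k1 k2
        have k3 := k1 e (hV y' k2).1 ξ
        rw [(hV y' k2).2.2.1, (hV y' k2).2.2.2] at k3
        show _ - _ = (0 : ℂ)
        rw [k3, sub_self]
    show ∀ᶠ y' in 𝓝 y₁, _
    filter_upwards [hVo.mem_nhds hyV] with y' h3 e' he' ξ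
    refine hchg y' e e' (hV y' h3).1 he' (fun ξ => ?_) ξ
    rw [(hV y' h3).2.2.1, (hV y' h3).2.2.2]
    exact sub_eq_zero.1 (hz ξ (hV y' h3).2.1)
  have h0 : y₀ ∈ Q := by
    obtain ⟨V, hV, hVe⟩ := gram_near hG hv g he₀
    show ∀ᶠ y' in 𝓝 y₀, _
    filter_upwards [hV, at_ev hp he₀] with y' h1 h2 e' he' ξ
    exact hchg y' e₀ e' h2 he' (fun ξ => hVe y₀ (mem_of_mem_nhds hV) y' h1 ξ₀ ξ) ξ
  have hQu : Q = univ := IsClopen.eq_univ ⟨hQc, hQo⟩ ⟨y₀, h0⟩
  have : y ∈ Q := hQu ▸ mem_univ y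
  exact this.self_of_nhds e he ξ

/-- the set of the values of `v` -/
def vals (p : E → X) (v : E → Chart n X → (Fin R → Cm n) → H) : Set H :=
  {x | ∃ y e ξ, At e (p y) ∧ v y e ξ = x}

/-- **Equivariance**, if the values span a dense subspace -/
theorem eqv_of_dense [IsManifold 𝓘(ℂ, Cm n) ω X] [PreconnectedSpace E] (hG : IsGalois Γ p)
    (hv : HForm n R m p H v)
    (hd : Dense ((Submodule.span ℂ (vals p v) : Submodule ℂ H) : Set H)) (g : Γ) :
    ∃ U : H ≃ₗᵢ[ℂ] H, ∀ y e, At e (p y) → ∀ ξ, v (g • y) e ξ = U (v y e ξ) := by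
  let ι := {x : E × Chart n X × (Fin R → Cm n) // At x.2.1 (p x.1)}
  let a : ι → H := fun i => v i.1.1 i.1.2.1 i.1.2.2
  let b : ι → H := fun i => v (g • i.1.1) i.1.2.1 i.1.2.2
  have ha : range a = vals p v := by
    ext x
    constructor
    · rintro ⟨⟨⟨y, e, ξ⟩, he⟩, rfl⟩
      exact ⟨y, e, ξ, he, rfl⟩
    · rintro ⟨y, e, ξ, he, rfl⟩
      exact ⟨⟨⟨y, e, ξ⟩, he⟩, rfl⟩
  have hb : range b = vals p v := by
    ext x
    constructor
    · rintro ⟨⟨⟨y, e, ξ⟩, he⟩, rfl⟩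
      exact ⟨g • y, e, ξ, by rw [p_smul hG]; exact he, rfl⟩
    · rintro ⟨y, e, ξ, he, rfl⟩
      refine ⟨⟨⟨g⁻¹ • y, e, ξ⟩, by show At e (p (g⁻¹ • y)); rw [p_smul hG]; exact he⟩, ?_⟩
      show v (g • g⁻¹ • y) e ξ = _
      rw [smul_inv_smul]
  obtain ⟨U, hU⟩ := exists_isometry a b
    (fun i j => gram_eq hG hv g i.2 i.1.2.2 j.2 j.1.2.2) (by rw [ha]; exact hd)
    (by rw [hb]; exact hd)
  exact ⟨U, fun y e he ξ => (hU ⟨⟨y, e, ξ⟩, he⟩).symm⟩

/-- the closed span of the values -/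
def VS (p : E → X) (v : E → Chart n X → (Fin R → Cm n) → H) : Submodule ℂ H :=
  (Submodule.span ℂ (vals p v)).topologicalClosure

instance VS_complete : CompleteSpace (VS p v) :=
  (Submodule.isClosed_topologicalClosure _).completeSpace_coe

instance VS_proj : (VS p v).HasOrthogonalProjection := inferInstance

lemma mem_VS {y : E} {e : Chart n X} (he : At e (p y)) (ξ : Fin R → Cm n) :
    v y e ξ ∈ VS p v :=
  Submodule.le_topologicalClosure _ (Submodule.subset_span ⟨y, e, ξ, he, rfl⟩)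

/-- the form with values in the closed span -/
def vS (p : E → X) (v : E → Chart n X → (Fin R → Cm n) → H) (y : E) (e : Chart n X)
    (ξ : Fin R → Cm n) : VS p v := (VS p v).orthogonalProjectionOnto (v y e ξ)

lemma vS_coe {y : E} {e : Chart n X} (he : At e (p y)) (ξ : Fin R → Cm n) :
    (vS p v y e ξ : H) = v y e ξ :=
  Submodule.starProjection_eq_self_iff.2 (mem_VS he ξ)

lemma vS_hform (hp : IsCoveringMap p) (hv : HForm n R m p H v) :
    HForm n R m p (VS p v) (vS p v) := by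
  refine ⟨fun y e he => ?_, fun y e e' he he' ξ => ?_, fun y e he A ξ => ?_,
    fun y y₁ e he hy ξ => ?_⟩
  · obtain ⟨F, hF, hFe⟩ := hv.hol y e he
    refine ⟨fun x => (VS p v).orthogonalProjectionOnto (F x), fun ξ =>
      ((VS p v).orthogonalProjectionOnto.analyticAt _).comp (hF ξ), ?_⟩
    filter_upwards [hFe] with y' h ξ
    rw [vS, h]
  · rw [vS, hv.change y e e' he he']
    rfl
  · rw [vS, hv.det y e he, map_smul]
    rfl
  · have he' : At e (p y₁) := by rw [← hy]; exact he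
    show ‖(vS p v y e ξ : H)‖ = ‖(vS p v y₁ e ξ : H)‖
    rw [vS_coe he, vS_coe he', hv.inv y y₁ e he hy ξ]

lemma vS_dense : Dense ((Submodule.span ℂ (vals p (vS p v)) : Submodule ℂ (VS p v)) :
    Set (VS p v)) := by
  have h1 : vals p (vS p v) = (Subtype.val : VS p v → H) ⁻¹' vals p v := by
    ext x
    constructor
    · rintro ⟨y, e, ξ, he, rfl⟩
      exact ⟨y, e, ξ, he, (vS_coe he ξ).symm⟩
    · rintro ⟨y, e, ξ, he, h⟩
      exact ⟨y, e, ξ, he, Subtype.ext (by rw [vS_coe he]; exact h)⟩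
  have hsub : vals p v ⊆ range (Subtype.val : VS p v → H) := by
    rintro x ⟨y, e, ξ, he, rfl⟩
    exact ⟨⟨_, mem_VS he ξ⟩, rfl⟩
  have h2 : (Submodule.span ℂ (vals p (vS p v))).map (VS p v).subtype =
      Submodule.span ℂ (vals p v) := by
    rw [Submodule.map_span, h1]
    congr 1
    show Subtype.val '' (Subtype.val ⁻¹' vals p v) = _
    exact image_preimage_eq_of_subset hsub
  intro x
  rw [Metric.mem_closure_iff]
  intro ε hε
  have hx : (x : H) ∈ closure ((Submodule.span ℂ (vals p v) : Submodule ℂ H) : Set H) := by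
    rw [← Submodule.topologicalClosure_coe]
    exact x.2
  obtain ⟨b, hb, hd⟩ := Metric.mem_closure_iff.1 hx ε hε
  rw [← h2] at hb
  obtain ⟨b', hb', rfl⟩ := hb
  exact ⟨b', hb', hd⟩

/-- **Equivariance** of the form with values in the closed span -/
theorem vS_eqv [IsManifold 𝓘(ℂ, Cm n) ω X] [PreconnectedSpace E] (hG : IsGalois Γ p)
    (hv : HForm n R m p H v) (g : Γ) :
    ∃ U : VS p v ≃ₗᵢ[ℂ] VS p v, ∀ y e, At e (p y) → ∀ ξ,
      vS p v (g • y) e ξ = U (vS p v y e ξ) :=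
  eqv_of_dense hG (vS_hform hG.cov hv) vS_dense g

end

end Vale.Agent.P284.H174.EQ
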