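import Vale.Agent.P284.H174.CovC
import Vale.Agent.P284.H837.SpS
import Vale.Agent.P284.H213.Q.AsmQS
import Vale.Agent.P284.H885.Cov

/-!
# P284 (helper174), T1': the class `FSp` passes to finite étale coverings
-/

open scoped Manifold ContDiff Topology
open Filter Set Metric

noncomputable section

namespace Vale.Agent.P284.H174

open Vale.Agent.P272.K Vale.Agent.P284.H894.G Vale.Agent.P284.H998 Vale.Agent.P284.H894.W
  Vale.Agent.P284.H837 Vale.Agent.P284.H248 Vale.Agent.P284.H213.Q

/-- the class of the manifolds all of whose finite étale coverings are special -/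
def fspC : Cls := fun n X _ _ => FSp n X

/-- **EtSt** for special manifolds -/
theorem etSt_fsp : EtSt fspC := by
  intro n X _ _ _ _ _ _ Y _ _ _ _ _ _ π hπ hπc hD X' _ _ _ _ _ _ g hg hgc
  exact hD X' (fun z => π (g z)) (covering_comp hg hπc) (hπ.contMDiff.comp hgc)

/-- **COV** for special manifolds -/
theorem covSp : CovSpStmt := by
  intro n X _ _ _ _ _ _ ι _ D hD w hw E Γ _ _ _ _ p hp G hG M hM
  obtain ⟨Y, _, _, _, _, _, _, q, π, hπ, hπc, hq, hπq⟩ := H885.exists_quo n X E Γ p hp G hG
  refine ⟨Y, inferInstance, inferInstance, inferInstance, inferInstance, inferInstance,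
    inferInstance, hπ.pj D, etSt_fsp n X Y π hπ hπc hD, H885.pull π w,
    hπ.isKahler hw, H885.Quo E M, inferInstance, H885.connected_quo M, inferInstance,
    H885.toX hq M, H885.isGalois_toX hq M, H885.mk M, (H885.mk_isQuotientMap M).continuous,
    H885.mk_surjective M, fun g y => rfl, ?_⟩
  intro q' F B hF hFM
  refine ⟨H885.desc M F hFM, fun y => rfl, H885.holB_desc hq M hFM (hπ.holB hπq hF), fun y hy => ?_⟩
  exact (H885.reg_desc hq M hFM y).2 ((hπ.reg_iff hπq).2 hy)

end Vale.Agent.P284.H174
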