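import Vale.Agent.P284.H619.NF

/-!
# P284 (helper174): factorisation of a map through a submersion
-/

open scoped InnerProductSpace ENNReal ComplexConjugate Topology
open Filter Set Metric

noncomputable section

namespace Vale.Agent.P284.H174

open Vale.Agent.P284.H619

/-- a map with vanishing derivative along a segment -/
lemma const_seg' {V H : Type*} [NormedAddCommGroup V] [NormedSpace ℂ V] [NormedAddCommGroup H]
    [NormedSpace ℂ H] {G : V → H} {a b : V}
    (h : ∀ t ∈ Icc (0 : ℝ) 1, ∃ G' : V →L[ℂ] H, HasFDerivAt G G' (a + (t : ℂ) • (b - a)) ∧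
      G' (b - a) = 0) : G b = G a := by
  have h1 : ∀ t ∈ Icc (0 : ℝ) 1,
      HasDerivWithinAt (fun t : ℝ => G (a + (t : ℂ) • (b - a))) ((fun _ => (0 : H)) t)
        (Icc 0 1) t := by
    intro t ht
    obtain ⟨G', hG, hG0⟩ := h t ht
    have e1 : HasDerivAt (fun t : ℝ => a + (t : ℂ) • (b - a)) (b - a) t := by
      have e2 : HasDerivAt (fun t : ℝ => (t : ℂ)) 1 t := Complex.ofRealCLM.hasDerivAt
      simpa using (e2.smul_const (b - a)).const_add a
    have e3 := (hG.restrictScalars ℝ).comp_hasDerivAt t e1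
    have e4 : (G'.restrictScalars ℝ) (b - a) = 0 := hG0
    rw [e4] at e3
    exact e3.hasDerivWithinAt
  have h2 := Convex.norm_image_sub_le_of_norm_hasDerivWithin_le (C := 0) h1
    (fun t _ => by simp) (convex_Icc 0 1) (left_mem_Icc.2 zero_le_one)
    (right_mem_Icc.2 zero_le_one)
  have h3 : G (a + ((1 : ℝ) : ℂ) • (b - a)) - G (a + ((0 : ℝ) : ℂ) • (b - a)) = 0 := by
    rw [← norm_le_zero_iff]
    simpa using h2
  have h4 : G (a + ((1 : ℝ) : ℂ) • (b - a)) = G b := by simp
  have h5 : G (a + ((0 : ℝ) : ℂ) • (b - a)) = G a := by simp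
  rw [h4, h5] at h3
  exact sub_eq_zero.1 h3

/-- **Factorisation** through a submersion. -/
theorem exists_factor {V H : Type*} [NormedAddCommGroup V] [NormedSpace ℂ V]
    [FiniteDimensional ℂ V] [NormedAddCommGroup H] [NormedSpace ℂ H] [CompleteSpace H] {R : ℕ}
    {b : V → Fin R → ℂ} {F : V → H} {z₀ : V} (hban : AnalyticAt ℂ b z₀)
    (hbs : Function.Surjective (fderiv ℂ b z₀)) (hF : AnalyticAt ℂ F z₀)
    (hker : ∀ᶠ z in 𝓝 z₀, ∀ v, fderiv ℂ b z v = 0 → fderiv ℂ F z v = 0) :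
    ∃ g : (Fin R → ℂ) → H, AnalyticAt ℂ g (b z₀) ∧ ∀ᶠ z in 𝓝 z₀, F z = g (b z) := by
  have : CompleteSpace V := FiniteDimensional.complete ℂ V
  set L : V →L[ℂ] (Fin R → ℂ) := fderiv ℂ b z₀ with hL
  obtain ⟨s₀, hs₀⟩ := (L : V →ₗ[ℂ] (Fin R → ℂ)).exists_rightInverse_of_surjective
    (LinearMap.range_eq_top.2 hbs)
  set s : (Fin R → ℂ) →L[ℂ] V := LinearMap.toContinuousLinearMap s₀ with hs
  have hLs' : ∀ w, L (s w) = w := fun w => LinearMap.congr_fun hs₀ w
  -- straightening
  set φ : V → V := fun z => (z - z₀) - s (L (z - z₀)) + s (b z - b z₀) with hφ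
  have hφan : AnalyticAt ℂ φ z₀ := by
    have e1 : AnalyticAt ℂ (fun z : V => z - z₀) z₀ := analyticAt_id.sub analyticAt_const
    exact (e1.sub (((s.comp L).analyticAt _).comp e1)).add
      ((s.analyticAt _).comp (hban.sub analyticAt_const))
  have hφd : HasFDerivAt φ (ContinuousLinearMap.id ℂ V) z₀ := by
    have e1 : HasFDerivAt (fun z : V => z - z₀) (ContinuousLinearMap.id ℂ V) z₀ :=
      (hasFDerivAt_id z₀).sub_const z₀
    have e2 : HasFDerivAt b L z₀ := hban.differentiableAt.hasFDerivAt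
    have e3 := (e1.sub ((s.comp L).hasFDerivAt.comp z₀ e1)).add
      (s.hasFDerivAt.comp z₀ (e2.sub_const (b z₀)))
    refine e3.congr_fderiv ?_
    ext v
    simp
  have hφs : HasStrictFDerivAt φ ((ContinuousLinearEquiv.refl ℂ V : V ≃L[ℂ] V) : V →L[ℂ] V) z₀ := by
    have := hφan.hasStrictFDerivAt
    rw [hφd.fderiv] at this
    exact this
  have hφ0 : φ z₀ = 0 := by simp [hφ]
  have hLφ : ∀ z, L (φ z) = b z - b z₀ := by
    intro z
    simp only [hφ, map_add, map_sub, hLs']
    abel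
  set Φ := hφs.toOpenPartialHomeomorph φ with hΦ
  have hΦc : ∀ z, Φ z = φ z := fun z => rfl
  have hzs : z₀ ∈ Φ.source := hφs.mem_toOpenPartialHomeomorph_source
  have h0t : (0 : V) ∈ Φ.target := by
    have := Φ.map_source hzs
    rwa [hΦc, hφ0] at this
  set χ := Φ.symm with hχ
  have hχan : AnalyticAt ℂ χ 0 := by
    have := Φ.analyticAt_symm' (i := ContinuousLinearEquiv.refl ℂ V) hzs hφan hφd.fderiv
    rwa [hΦc, hφ0] at this
  have hχ0 : χ 0 = z₀ := by
    have := Φ.left_inv hzs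
    rwa [hΦc, hφ0] at this
  have hbχ : ∀ u ∈ Φ.target, b (χ u) = b z₀ + L u := by
    intro u hu
    have e1 := hLφ (χ u)
    have e2 : φ (χ u) = u := Φ.right_inv hu
    rw [e2] at e1
    rw [e1]; abel
  have hgood : ∀ᶠ u in 𝓝 (0 : V), u ∈ Φ.target ∧ AnalyticAt ℂ χ u ∧ AnalyticAt ℂ F (χ u) ∧
      AnalyticAt ℂ b (χ u) ∧ ∀ v, fderiv ℂ b (χ u) v = 0 → fderiv ℂ F (χ u) v = 0 := by
    have hc : Tendsto χ (𝓝 0) (𝓝 z₀) := by
      have := hχan.continuousAt.tendsto
      rwa [hχ0] at this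
    filter_upwards [Φ.open_target.mem_nhds h0t, hχan.eventually_analyticAt,
      hc.eventually hF.eventually_analyticAt, hc.eventually hban.eventually_analyticAt,
      hc.eventually hker] with u h1 h2 h3 h4 h5
    exact ⟨h1, h2, h3, h4, h5⟩
  obtain ⟨δ, hδ, hball⟩ := Metric.eventually_nhds_iff_ball.1 hgood
  -- constancy
  have hconst : ∀ u, u ∈ ball (0 : V) δ → s (L u) ∈ ball (0 : V) δ → F (χ u) = F (χ (s (L u))) := by
    intro u hu hsu
    refine const_seg' (G := fun u => F (χ u)) (a := s (L u)) (b := u) fun t ht => ?_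
    set u' := s (L u) + (t : ℂ) • (u - s (L u)) with hu'
    have hu'b : u' ∈ ball (0 : V) δ := by
      have e1 : u' = (1 - t) • s (L u) + t • u := by
        rw [hu', smul_sub, sub_smul, one_smul]
        simp only [Complex.coe_smul]
        abel
      rw [e1]
      exact (convex_ball (0 : V) δ) hsu hu (sub_nonneg.2 ht.2) ht.1 (by ring)
    obtain ⟨g1, g2, g3, g4, g5⟩ := hball u' hu'b
    have e1 : HasFDerivAt (fun u => F (χ u)) ((fderiv ℂ F (χ u')).comp (fderiv ℂ χ u')) u' :=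
      g3.differentiableAt.hasFDerivAt.comp u' g2.differentiableAt.hasFDerivAt
    refine ⟨_, e1, ?_⟩
    rw [ContinuousLinearMap.comp_apply]
    apply g5
    have e2 : HasFDerivAt (fun u => b (χ u)) ((fderiv ℂ b (χ u')).comp (fderiv ℂ χ u')) u' :=
      g4.differentiableAt.hasFDerivAt.comp u' g2.differentiableAt.hasFDerivAt
    have e3 : HasFDerivAt (fun u => b (χ u)) L u' := by
      have e4 : HasFDerivAt (fun u => b z₀ + L u) L u' := L.hasFDerivAt.const_add _
      refine e4.congr_of_eventuallyEq ?_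
      filter_upwards [Φ.open_target.mem_nhds g1] with y hy using hbχ y hy
    have e5 := DFunLike.congr_fun (e2.unique e3) (u - s (L u))
    rw [ContinuousLinearMap.comp_apply] at e5
    rw [e5, map_sub, hLs', sub_self]
  have hF'an : AnalyticAt ℂ (fun β => F (χ (s (β - b z₀)))) (b z₀) := by
    have e0 : s (b z₀ - b z₀) = 0 := by rw [sub_self, map_zero]
    have e1 : AnalyticAt ℂ (fun β => s (β - b z₀)) (b z₀) :=
      (s.analyticAt _).comp (analyticAt_id.sub analyticAt_const)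
    have e2 : AnalyticAt ℂ (fun β => χ (s (β - b z₀))) (b z₀) :=
      AnalyticAt.fun_comp (by rw [e0]; exact hχan) e1
    exact AnalyticAt.fun_comp (by rw [e0, hχ0]; exact hF) e2
  refine ⟨fun β => F (χ (s (β - b z₀))), hF'an, ?_⟩
  have hc1 : Tendsto φ (𝓝 z₀) (𝓝 0) := by
    have := hφan.continuousAt.tendsto
    rwa [hφ0] at this
  have hc2 : Tendsto (fun z => s (L (φ z))) (𝓝 z₀) (𝓝 0) := by
    have h := ((s.comp L).continuous.tendsto 0).comp hc1
    rw [map_zero] at h
    exact h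
  filter_upwards [hc1.eventually (ball_mem_nhds 0 hδ), hc2.eventually (ball_mem_nhds 0 hδ),
    Φ.open_source.mem_nhds hzs] with z h1 h2 h3
  have e1 : χ (φ z) = z := Φ.left_inv h3
  calc F z = F (χ (φ z)) := by rw [e1]
    _ = F (χ (s (L (φ z)))) := hconst _ h1 h2
    _ = F (χ (s (b z - b z₀))) := by rw [hLφ]

end Vale.Agent.P284.H174
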