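import Vale.Agent.P284.H174.GoodL2
import Vale.Agent.P284.H619.NS0A
import Vale.Agent.P284.H573.HNF
import Vale.Agent.P284.H553.LBS

/-!
# P284 (helper174): the good points of a form on a connected covering are dense, and the points of `X`
without a good point over them form a thin set
-/

open scoped Manifold ContDiff Topology InnerProductSpace
open Filter Set Metric

noncomputable section

namespace Vale.Agent.P284.H174.GD

open Vale.Agent.P272.K Vale.Agent.P284.H573 Vale.Agent.P284.H619 Vale.Agent.P284.H174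

section
variable {n R m : ℕ} {X : Type} [TopologicalSpace X] [ChartedSpace (Cm n) X]
  {E : Type} [TopologicalSpace E] {p : E → X}
  {H : Type} [NormedAddCommGroup H] [InnerProductSpace ℂ H]
  {v : E → Chart n X → (Fin R → Cm n) → H}

/-- the local representation of `v` on a ball which does not depend on `ξ` -/
theorem exists_fam [CompleteSpace H] (hv : HForm n R m p H v) (hp : IsCoveringMap p) {y₁ : E} {e : Chart n X}
    (he : At e (p y₁)) : ∃ ε > 0, ∃ f : (Fin R → Cm n) → Cm n → H,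
      (∀ ξ, AnalyticOnNhd ℂ (f ξ) (ball (e (p y₁)) ε)) ∧
      ∀ᶠ y' in 𝓝 y₁, ∀ ξ, v y' e ξ = f ξ (e (p y')) := by
  obtain ⟨F, hF, hev⟩ := hv.hol y₁ e he
  have h1 : ∀ᶠ z in 𝓝 (e (p y₁)), ∀ ξ ∈ closedBall (0 : Fin R → Cm n) 1,
      AnalyticAt ℂ F (z, ξ) := by
    refine (isCompact_closedBall _ _).eventually_forall_of_forall_eventually fun ξ _ => ?_
    exact (hF ξ).eventually_analyticAt
  obtain ⟨ε, hε, hb⟩ := Metric.eventually_nhds_iff_ball.1 h1
  set t : (Fin R → Cm n) → ℂ := fun ξ => (((1 + ‖ξ‖)⁻¹ : ℝ) : ℂ) with ht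
  have hpos : ∀ ξ : Fin R → Cm n, 0 < 1 + ‖ξ‖ := fun ξ => by positivity
  have ht0 : ∀ ξ, t ξ ≠ 0 := fun ξ => Complex.ofReal_ne_zero.2 (inv_ne_zero (hpos ξ).ne')
  have ht1 : ∀ ξ, t ξ • ξ ∈ closedBall (0 : Fin R → Cm n) 1 := by
    intro ξ
    rw [mem_closedBall_zero_iff, norm_smul, Complex.norm_real, Real.norm_of_nonneg
      (inv_nonneg.2 (hpos ξ).le), inv_mul_le_iff₀ (hpos ξ)]
    linarith
  refine ⟨ε, hε, fun ξ z => ((t ξ ^ R) ^ m)⁻¹ • F (z, t ξ • ξ), ?_, ?_⟩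
  · intro ξ z hz
    have h2 : AnalyticAt ℂ (fun z => F (z, t ξ • ξ)) z :=
      AnalyticAt.comp' (f := fun z : Cm n => (z, t ξ • ξ)) (hb z hz _ (ht1 ξ))
        (analyticAt_id.prod analyticAt_const)
    exact analyticAt_const.smul h2
  · filter_upwards [hev, at_ev hp he] with y' h1 h2 ξ
    have h3 := hv.det y' e h2 (t ξ • (1 : Matrix (Fin R) (Fin R) ℂ)) ξ
    have h4 : (fun i => ∑ j, (t ξ • (1 : Matrix (Fin R) (Fin R) ℂ)) i j • ξ j) = t ξ • ξ := by
      funext i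
      simp [Matrix.smul_apply, Matrix.one_apply]
    rw [h4, Matrix.det_smul, Matrix.det_one, mul_one, Fintype.card_fin] at h3
    have h5 : F (e (p y'), t ξ • ξ) = (t ξ ^ R) ^ m • v y' e ξ := by rw [← h1, h3]
    show _ = ((t ξ ^ R) ^ m)⁻¹ • F (e (p y'), t ξ • ξ)
    rw [h5, smul_smul, inv_mul_cancel₀ (pow_ne_zero _ (pow_ne_zero _ (ht0 ξ))), one_smul]

/-- the normal form in another chart -/
theorem nf_chg [IsManifold 𝓘(ℂ, Cm n) ω X] (hv : HForm n R m p H v) (hp : IsCoveringMap p)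
    {y : E} {e e' : Chart n X} {b : Cm n → Cm R} {γ : Cm R → H} (h : IsNF m p v y e' b γ)
    (he : At e (p y)) : IsNF m p v y e (fun z => b (e' (e.symm z))) γ := by
  have h2 : AnalyticAt ℂ (fun z => e' (e.symm z)) (e (p y)) := (transition he h.mem).analyticAt
  have h3 : e' (e.symm (e (p y))) = e' (p y) := by rw [he.left_inv]
  have h4 : AnalyticAt ℂ b (e' (e.symm (e (p y)))) := by rw [h3]; exact h.ban
  have h5 : AnalyticAt ℂ (fun z => b (e' (e.symm z))) (e (p y)) :=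
    AnalyticAt.comp' (f := fun z => e' (e.symm z)) h4 h2
  have hfd : ∀ y', At e (p y') → At e' (p y') → AnalyticAt ℂ b (e' (p y')) →
      fderiv ℂ (fun z => b (e' (e.symm z))) (e (p y')) =
        (fderiv ℂ b (e' (p y'))).comp (fderiv ℂ (fun z => e' (e.symm z)) (e (p y'))) := by
    intro y' k1 k2 k3
    have h2 : AnalyticAt ℂ (fun z => e' (e.symm z)) (e (p y')) := (transition k1 k2).analyticAt
    have h3 : e' (e.symm (e (p y'))) = e' (p y') := by rw [k1.left_inv]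
    have h6 := fderiv_comp (𝕜 := ℂ) (e (p y')) (g := b) (f := fun z => e' (e.symm z))
      (by rw [h3]; exact k3.differentiableAt) h2.differentiableAt
    rw [h3] at h6
    exact h6
  refine ⟨he, h5, ?_, ?_, ?_, ?_⟩
  · rw [hfd y he h.mem h.ban]
    have h7 : Function.Surjective (fderiv ℂ (fun z => e' (e.symm z)) (e (p y))) := by
      intro u
      refine ⟨fderiv ℂ (fun z => e (e'.symm z)) (e' (p y)) u, ?_⟩
      have a2 : AnalyticAt ℂ (fun z => e (e'.symm z)) (e' (p y)) :=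
        (transition h.mem he).analyticAt
      have a3 : e (e'.symm (e' (p y))) = e (p y) := by rw [h.mem.left_inv]
      have a4 := fderiv_comp (𝕜 := ℂ) (e' (p y)) (g := fun z => e' (e.symm z))
        (f := fun z => e (e'.symm z)) (by rw [a3]; exact h2.differentiableAt)
        a2.differentiableAt
      rw [a3] at a4
      have a5 : ((fun z => e' (e.symm z)) ∘ fun z => e (e'.symm z)) =ᶠ[𝓝 (e' (p y))] id := by
        have h8 : ∀ᶠ z in 𝓝 (e' (p y)), z ∈ e'.target ∧ e'.symm z ∈ e.source := by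
          have b1 := e'.open_target.mem_nhds (e'.map_source h.mem.2)
          have b2 : ContinuousAt e'.symm (e' (p y)) :=
            e'.continuousAt_symm (e'.map_source h.mem.2)
          have b3 : e.source ∈ 𝓝 (e'.symm (e' (p y))) := by
            rw [e'.left_inv h.mem.2]
            exact e.open_source.mem_nhds he.2
          filter_upwards [b1, b2.eventually_mem b3] with z c1 c2 using ⟨c1, c2⟩
        filter_upwards [h8] with z hz
        show e' (e.symm (e (e'.symm z))) = z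
        rw [e.left_inv hz.2, e'.right_inv hz.1]
      rw [a5.fderiv_eq, fderiv_id] at a4
      exact (congrArg (fun L : Cm n →L[ℂ] Cm n => L u) a4).symm
    exact h.bsurj.comp h7
  · show AnalyticAt ℂ γ (b (e' (e.symm (e (p y)))))
    rw [h3]
    exact h.γan
  · show ImmAt γ (b (e' (e.symm (e (p y)))))
    rw [h3]
    exact h.imm
  · have h8 : ∀ᶠ y' in 𝓝 y, AnalyticAt ℂ b (e' (p y')) :=
      (ev_iff hp h.mem).2 h.ban.eventually_analyticAt
    filter_upwards [h.nf, at_ev hp he, at_ev hp h.mem, h8] with y' k1 k2 k3 k4 ξ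
    rw [hv.change y' e e' k2 k3, k1, hfd y' k2 k3 k4]
    show _ = _ • γ (b (e' (e.symm (e (p y')))))
    rw [k2.left_inv]
    rfl

/-- the local statement on the covering -/
theorem loc_E [IsManifold 𝓘(ℂ, Cm n) ω X] [CompleteSpace H] (hv : HForm n R m p H v)
    (hp : IsCoveringMap p) {y₁ : E} {e : Chart n X} (he : At e (p y₁)) :
    ∃ V : Set E, IsOpen V ∧ y₁ ∈ V ∧ ∀ y₀ ∈ V, GoodAt p R m v y₀ → ∃ w : Cm n → ℂ,
      AnalyticAt ℂ w (e (p y₁)) ∧ (¬ ∀ᶠ z in 𝓝 (e (p y₁)), w z = 0) ∧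
      (∀ y ∈ V, w (e (p y)) ≠ 0 → GoodAt p R m v y) ∧
      ∀ y ∈ V, ∃ᶠ y' in 𝓝 y, GoodAt p R m v y' := by
  obtain ⟨ε, hε, f, hf, hev⟩ := exists_fam hv hp he
  set K : Set (Cm n) := ball (e (p y₁)) ε with hK
  have hKo : IsOpen K := isOpen_ball
  have hKc : IsPreconnected K := (convex_ball _ _).isPreconnected
  have hKev : ∀ᶠ y' in 𝓝 y₁, e (p y') ∈ K := (tendsto_ep hp he).eventually_mem (ball_mem_nhds _ hε)
  obtain ⟨V, hV, hVo, hyV⟩ := eventually_nhds_iff.1 (hev.and ((at_ev hp he).and hKev))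
  refine ⟨V, hVo, hyV, fun y₀ hy₀ hgood => ?_⟩
  obtain ⟨e', b, γ, hnf⟩ := hgood
  have h1 := nf_chg hv hp hnf (hV y₀ hy₀).2.1
  set b' : Cm n → Cm R := fun z => b (e' (e.symm z)) with hb'
  have hnear : ∀ᶠ z in 𝓝 (e (p y₀)), ∀ ξ, f ξ z = Jd b' z ξ ^ m • γ (b' z) := by
    rw [← ev_iff hp (hV y₀ hy₀).2.1]
    filter_upwards [h1.nf, hVo.mem_nhds hy₀] with y' k1 k2 ξ
    rw [← (hV y' k2).1 ξ, k1 ξ]
    rfl
  obtain ⟨w, hw, hws, hg⟩ := loc_good' hKo hKc hf (hV y₀ hy₀).2.2 h1.ban h1.bsurj h1.γan h1.imm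
    hnear
  have hnz : ∀ z ∈ K, ¬ ∀ᶠ z' in 𝓝 z, w z' = 0 := by
    intro z hz hcon
    exact hws (AnalyticOnNhd.eqOn_zero_of_preconnected_of_eventuallyEq_zero (𝕜 := ℂ) hw hKc hz
      hcon (hV y₀ hy₀).2.2)
  have hgd : ∀ y ∈ V, w (e (p y)) ≠ 0 → GoodAt p R m v y := by
    intro y hy hwy
    obtain ⟨β, g, k1, k2, k3, k4, k5⟩ := hg _ (hV y hy).2.2 hwy
    refine ⟨e, β, g, (hV y hy).2.1, k1, k2, k3, k4, ?_⟩
    filter_upwards [(ev_iff hp (hV y hy).2.1).2 k5, hVo.mem_nhds hy] with y' l1 l2 ξ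
    rw [(hV y' l2).1 ξ, l1 ξ]
    rfl
  refine ⟨w, hw _ (mem_ball_self hε), hnz _ (mem_ball_self hε), hgd, fun y hy => ?_⟩
  have h3 : ∃ᶠ y' in 𝓝 y, w (e (p y')) ≠ 0 := by
    intro hcon
    refine hnz _ (hV y hy).2.2 ((ev_iff hp (hV y hy).2.1).1 ?_)
    filter_upwards [hcon] with y' hy' using not_not.1 hy'
  exact (h3.and_eventually (hVo.mem_nhds hy)).mono fun y' hy' => hgd y' hy'.2 hy'.1

/-- **The good points are dense** in the connected covering. -/
theorem good_dense [IsManifold 𝓘(ℂ, Cm n) ω X] [CompleteSpace H] [PreconnectedSpace E]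
    (hv : HForm n R m p H v) (hp : IsCoveringMap p) {y₀ : E} (h0 : GoodAt p R m v y₀) (y : E) :
    ∃ᶠ y' in 𝓝 y, GoodAt p R m v y' := by
  have hcl : closure {y | GoodAt p R m v y} = univ := by
    refine IsClopen.eq_univ ⟨isClosed_closure, ?_⟩ ⟨y₀, subset_closure h0⟩
    rw [isOpen_iff_mem_nhds]
    intro y₁ hy₁
    obtain ⟨V, hVo, hyV, hV⟩ := loc_E hv hp
      (e := chartAt (Cm n) (p y₁)) (y₁ := y₁) ⟨chart_mem_atlas _ _, mem_chart_source _ _⟩
    obtain ⟨y₂, h1, h2⟩ := mem_closure_iff.1 hy₁ V hVo hyV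
    obtain ⟨w, -, -, -, h3⟩ := hV y₂ h1 h2
    filter_upwards [hVo.mem_nhds hyV] with y hy
    exact mem_closure_iff_frequently.2 (h3 y hy)
  exact mem_closure_iff_frequently.1 (hcl ▸ mem_univ y : y ∈ closure {y | GoodAt p R m v y})

/-- **The complement of the good points of `X` is thin.** -/
theorem goodX_thin [IsManifold 𝓘(ℂ, Cm n) ω X] [CompleteSpace H] [PreconnectedSpace E]
    (hv : HForm n R m p H v) (hp : IsCoveringMap p) (hs : Function.Surjective p) {y₀ : E}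
    (h0 : GoodAt p R m v y₀) :
    Vale.Agent.P284.H553.LB.ThinC n (Vale.Agent.P284.H553.LB.GoodX p R m v) := by
  intro x e he
  obtain ⟨y₁, rfl⟩ := hs x
  obtain ⟨V, hVo, hyV, hV⟩ := loc_E hv hp he
  obtain ⟨y₂, h1, h2⟩ := ((good_dense hv hp h0 y₁).and_eventually (hVo.mem_nhds hyV)).exists
  obtain ⟨w, k1, k2, k3, -⟩ := hV y₂ h2 h1
  refine ⟨w, k1, k2, ?_⟩
  have h4 : map p (𝓝 y₁) = 𝓝 (p y₁) := hp.isLocalHomeomorph.map_nhds_eq y₁
  rw [← h4, eventually_map]
  filter_upwards [hVo.mem_nhds hyV] with y hy hng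
  by_contra hne
  exact hng ⟨y, rfl, k3 y hy hne⟩

end

end Vale.Agent.P284.H174.GD
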