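import Vale.Agent.P284.H174.Fac
import Vale.Agent.P284.H573.HNF

/-!
# P284 (helper174): density of the good points, local computations
-/

open scoped InnerProductSpace ENNReal ComplexConjugate Topology Manifold ContDiff
open Filter Set Metric

noncomputable section

namespace Vale.Agent.P284.H174.GD

open Vale.Agent.P284.H619 Vale.Agent.P284.H573 Vale.Agent.P272.K Vale.Agent.P284.H174

section
variable {n R m : ℕ} {H : Type} [NormedAddCommGroup H] [InnerProductSpace ℂ H]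

/-- the vector `a₀² dβ(x)`, `β = a / a₀` -/
def mv (a₀ : Cm n → ℂ) (a : Cm n → Cm R) (z x : Cm n) : Cm R :=
  a₀ z • fderiv ℂ a z x - fderiv ℂ a₀ z x • a z

/-- the matrix with columns `mv (ξ j)` -/
def mm (a₀ : Cm n → ℂ) (a : Cm n → Cm R) (z : Cm n) (ξ : Fin R → Cm n) :
    Matrix (Fin R) (Fin R) ℂ := Matrix.of fun i j => mv a₀ a z (ξ j) i

/-- the ratio `a / a₀` -/
def bt (a₀ : Cm n → ℂ) (a : Cm n → Cm R) (z : Cm n) : Cm R := (a₀ z)⁻¹ • a z

variable {a₀ : Cm n → ℂ} {a : Cm n → Cm R} {z : Cm n}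

lemma bt_an (h0 : AnalyticAt ℂ a₀ z) (h : AnalyticAt ℂ a z) (hne : a₀ z ≠ 0) :
    AnalyticAt ℂ (bt a₀ a) z := (h0.inv hne).smul h

lemma bt_fderiv (h0 : AnalyticAt ℂ a₀ z) (h : AnalyticAt ℂ a z) (hne : a₀ z ≠ 0) (x : Cm n) :
    mv a₀ a z x = (a₀ z ^ 2) • fderiv ℂ (bt a₀ a) z x := by
  have h1 : HasFDerivAt (fun z => (a₀ z)⁻¹) (-(a₀ z ^ 2)⁻¹ • fderiv ℂ a₀ z) z := by
    have := (hasDerivAt_inv hne).comp_hasFDerivAt z h0.differentiableAt.hasFDerivAt
    exact this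
  have h2 : HasFDerivAt (bt a₀ a) ((a₀ z)⁻¹ • fderiv ℂ a z +
      (-(a₀ z ^ 2)⁻¹ • fderiv ℂ a₀ z).smulRight (a z)) z :=
    h1.smul h.differentiableAt.hasFDerivAt
  rw [h2.fderiv]
  simp only [mv, add_apply, smul_apply, ContinuousLinearMap.smulRight_apply]
  funext i
  simp only [Pi.sub_apply, Pi.smul_apply, Pi.add_apply, smul_eq_mul]
  field_simp
  ring

lemma det_mm (h0 : AnalyticAt ℂ a₀ z) (h : AnalyticAt ℂ a z) (hne : a₀ z ≠ 0)
    (ξ : Fin R → Cm n) : (mm a₀ a z ξ).det = a₀ z ^ (2 * R) * Jd (bt a₀ a) z ξ := by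
  have h1 : mm a₀ a z ξ = (a₀ z ^ 2) • Matrix.of fun i j => fderiv ℂ (bt a₀ a) z (ξ j) i := by
    ext i j
    simp only [mm, Matrix.of_apply, Matrix.smul_apply, bt_fderiv h0 h hne, Pi.smul_apply]
  rw [h1, Matrix.det_smul, Fintype.card_fin, ← pow_mul]
  rfl

lemma mv_an (h0 : AnalyticAt ℂ a₀ z) (h : AnalyticAt ℂ a z) (x : Cm n) :
    AnalyticAt ℂ (fun z => mv a₀ a z x) z := by
  have h1 : AnalyticAt ℂ (fun z => fderiv ℂ a z x) z :=
    ((ContinuousLinearMap.apply ℂ (Cm R) x).analyticAt _).comp h.fderiv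
  have h2 : AnalyticAt ℂ (fun z => fderiv ℂ a₀ z x) z :=
    ((ContinuousLinearMap.apply ℂ ℂ x).analyticAt _).comp h0.fderiv
  exact (h0.smul h1).sub (h2.smul h)

lemma det_an' {M : Cm n → Matrix (Fin R) (Fin R) ℂ} (h : ∀ i j, AnalyticAt ℂ (fun z => M z i j) z) :
    AnalyticAt ℂ (fun z => (M z).det) z := by
  simp only [Matrix.det_apply]
  refine Finset.analyticAt_fun_sum _ fun σ _ => ?_
  simp only [Units.smul_def, zsmul_eq_mul]
  exact analyticAt_const.mul (Finset.analyticAt_fun_prod _ fun a _ => h _ _)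

lemma mm_an (h0 : AnalyticAt ℂ a₀ z) (h : AnalyticAt ℂ a z) (ξ : Fin R → Cm n) :
    AnalyticAt ℂ (fun z => (mm a₀ a z ξ).det) z :=
  det_an' fun i j => ((ContinuousLinearMap.proj (R := ℂ) (φ := fun _ : Fin R => ℂ) i).analyticAt
    _).comp (mv_an h0 h (ξ j))

lemma mv_lin (a₀ : Cm n → ℂ) (a : Cm n → Cm R) (z : Cm n) :
    ∃ L : Cm n →ₗ[ℂ] Cm R, ∀ x, L x = mv a₀ a z x :=
  ⟨{ toFun := mv a₀ a z
     map_add' := fun x y => by
      simp only [mv, map_add, smul_add, add_smul]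
      abel
     map_smul' := fun c x => by
      simp only [mv, map_smul, smul_sub, smul_smul, RingHom.id_apply, smul_eq_mul]
      rw [mul_comm] }, fun _ => rfl⟩

/-- the projection to the kernel -/
def kp (a₀ : Cm n → ℂ) (a : Cm n → Cm R) (ξ : Fin R → Cm n) (z x : Cm n) : Cm n :=
  (mm a₀ a z ξ).det • x - ∑ j, ((mm a₀ a z ξ).updateCol j (mv a₀ a z x)).det • ξ j

lemma mv_kp (a₀ : Cm n → ℂ) (a : Cm n → Cm R) (ξ : Fin R → Cm n) (z x : Cm n) :
    mv a₀ a z (kp a₀ a ξ z x) = 0 := by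
  obtain ⟨L, hL⟩ := mv_lin a₀ a z
  rw [← hL, kp, map_sub, map_sum, map_smul]
  simp only [map_smul]
  simp only [hL]
  have h1 := Matrix.mulVec_cramer (mm a₀ a z ξ) (mv a₀ a z x)
  rw [← h1, sub_eq_zero]
  funext i
  simp only [Matrix.mulVec, dotProduct, Finset.sum_apply, Pi.smul_apply, smul_eq_mul]
  refine Finset.sum_congr rfl fun j _ => ?_
  rw [Matrix.cramer_apply, mul_comm]
  rfl

lemma kp_of_ker {ξ : Fin R → Cm n} {x : Cm n} (h : mv a₀ a z x = 0) :
    kp a₀ a ξ z x = (mm a₀ a z ξ).det • x := by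
  unfold kp
  rw [h, Finset.sum_eq_zero, sub_zero]
  intro j _
  rw [Matrix.det_eq_zero_of_column_eq_zero j, zero_smul]
  intro i
  rw [Matrix.updateCol_self]
  rfl

lemma kp_an (h0 : AnalyticAt ℂ a₀ z) (h : AnalyticAt ℂ a z) (ξ : Fin R → Cm n) (x : Cm n) :
    AnalyticAt ℂ (fun z => kp a₀ a ξ z x) z := by
  unfold kp
  refine ((mm_an h0 h ξ).smul analyticAt_const).sub (Finset.analyticAt_fun_sum _ fun j _ => ?_)
  refine AnalyticAt.smul (det_an' fun i k => ?_) analyticAt_const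
  by_cases hk : k = j
  · subst hk
    simp only [Matrix.updateCol_self]
    exact ((ContinuousLinearMap.proj (R := ℂ) (φ := fun _ : Fin R => ℂ) i).analyticAt
      _).comp (mv_an h0 h x)
  · simp only [Matrix.updateCol_ne hk]
    exact ((ContinuousLinearMap.proj (R := ℂ) (φ := fun _ : Fin R => ℂ) i).analyticAt
      _).comp (mv_an h0 h (ξ k))

/-- the numerator of the derivative of `(N / D)ᵐ u` -/
def TT (m : ℕ) (N D : Cm n → ℂ) (u : Cm n → H) (z x : Cm n) : H :=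
  ((m : ℂ) * (fderiv ℂ N z x * D z - N z * fderiv ℂ D z x)) • u z + (N z * D z) • fderiv ℂ u z x

lemma TT_smul (m : ℕ) (N D : Cm n → ℂ) (u : Cm n → H) (z x : Cm n) (c : ℂ) :
    TT m N D u z (c • x) = c • TT m N D u z x := by
  simp only [TT, map_smul, smul_eq_mul, smul_add, smul_smul]
  congr 2
  · ring
  · ring

lemma TT_an [CompleteSpace H] {N D : Cm n → ℂ} {u : Cm n → H} {k : Cm n → Cm n}
    (hN : AnalyticAt ℂ N z) (hD : AnalyticAt ℂ D z) (hu : AnalyticAt ℂ u z)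
    (hk : AnalyticAt ℂ k z) : AnalyticAt ℂ (fun z => TT m N D u z (k z)) z := by
  have h1 : AnalyticAt ℂ (fun z => fderiv ℂ N z (k z)) z := an_apply hN.fderiv hk
  have h2 : AnalyticAt ℂ (fun z => fderiv ℂ D z (k z)) z := an_apply hD.fderiv hk
  have h3 : AnalyticAt ℂ (fun z => fderiv ℂ u z (k z)) z := an_apply hu.fderiv hk
  exact ((analyticAt_const.mul ((h1.mul hD).sub (hN.mul h2))).smul hu).add ((hN.mul hD).smul h3)

lemma TT_fderiv {N D : Cm n → ℂ} {u : Cm n → H} (hN : AnalyticAt ℂ N z) (hD : AnalyticAt ℂ D z)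
    (hu : AnalyticAt ℂ u z) (hne : D z ≠ 0) (x : Cm n) :
    (N z * D z ^ (m + 1)) • fderiv ℂ (fun z => (N z / D z) ^ m • u z) z x =
      N z ^ m • TT m N D u z x := by
  have h1 : HasFDerivAt (fun z => (D z)⁻¹) (-(D z ^ 2)⁻¹ • fderiv ℂ D z) z :=
    (hasDerivAt_inv hne).comp_hasFDerivAt z hD.differentiableAt.hasFDerivAt
  have h2 : HasFDerivAt (fun z => N z / D z) (N z • (-(D z ^ 2)⁻¹ • fderiv ℂ D z) +
      (D z)⁻¹ • fderiv ℂ N z) z := by
    have := hN.differentiableAt.hasFDerivAt.mul h1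
    simp only [div_eq_mul_inv]
    exact this
  have h3 := h2.pow m
  have h4 := h3.smul hu.differentiableAt.hasFDerivAt
  have h5 := h4.fderiv
  rw [show (fun z => (N z / D z) ^ m • u z) = ((fun z => (N z / D z) ^ m) • u) from rfl, h5]
  simp only [TT, add_apply, smul_apply, ContinuousLinearMap.smulRight_apply, smul_add, smul_smul,
    smul_eq_mul]
  rw [add_comm]
  congr 1
  · congr 1
    rcases Nat.eq_zero_or_pos m with rfl | hm
    · simp
    · obtain ⟨k, rfl⟩ : ∃ k, m = k + 1 := ⟨m - 1, by omega⟩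
      simp only [Nat.add_sub_cancel, nsmul_eq_mul, div_pow]
      field_simp
      ring
  · congr 1
    rw [div_pow]
    field_simp
    ring

end

end Vale.Agent.P284.H174.GD
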