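import Vale.Agent.P284.H174.GoodL1

/-!
# P284 (helper174): density of the good points, local theorem
-/

open scoped InnerProductSpace ENNReal ComplexConjugate Topology Manifold ContDiff
open Filter Set Metric

noncomputable section

namespace Vale.Agent.P284.H174.GD

open Vale.Agent.P284.H619 Vale.Agent.P284.H573 Vale.Agent.P272.K Vale.Agent.P284.H174

section
variable {n R m : ℕ} {H : Type} [NormedAddCommGroup H] [InnerProductSpace ℂ H]

lemma Jd_comp {c : Cm R → Cm R} {b : Cm n → Cm R} {z : Cm n} (hc : DifferentiableAt ℂ c (b z))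
    (hb : DifferentiableAt ℂ b z) (ξ : Fin R → Cm n) :
    Jd (fun z => c (b z)) z ξ = Jd c (b z) (fun i => Pi.single i 1) * Jd b z ξ := by
  unfold Jd
  rw [← Matrix.det_mul]
  congr 1
  ext i j
  rw [Matrix.mul_apply, Matrix.of_apply]
  have h1 : fderiv ℂ (fun z => c (b z)) z = (fderiv ℂ c (b z)).comp (fderiv ℂ b z) :=
    fderiv_comp z (g := c) hc hb
  rw [h1, ContinuousLinearMap.comp_apply, clm_sum]
  simp only [Finset.sum_apply, Pi.smul_apply, smul_eq_mul, Matrix.of_apply]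
  exact Finset.sum_congr rfl fun k _ => mul_comm _ _

lemma Jd_congr {V : Type*} [NormedAddCommGroup V] [NormedSpace ℂ V] {b b' : V → Fin R → ℂ} {z : V}
    (h : b =ᶠ[𝓝 z] b') (ξ : Fin R → V) : Jd b z ξ = Jd b' z ξ := by
  unfold Jd
  rw [h.fderiv_eq]

/-- the vectors `γ, ∂₁γ, …` are linearly independent -/
lemma imm_indep {γ : Cm R → H} {t : Cm R} (h : ImmAt γ t) :
    LinearIndependent ℂ (Fin.cons (γ t) (fun j : Fin R => fderiv ℂ γ t (Pi.single j 1)) :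
      Fin (R + 1) → H) := by
  rw [Fintype.linearIndependent_iff]
  intro c hc
  rw [Fin.sum_univ_succ] at hc
  simp only [Fin.cons_zero, Fin.cons_succ] at hc
  have h1 : fderiv ℂ γ t (fun j => c j.succ) = (-c 0) • γ t := by
    rw [clm_sum]
    rw [neg_smul, eq_neg_iff_add_eq_zero, add_comm]
    exact hc
  have h2 := h.2 _ _ h1
  have h3 : c 0 = 0 := by
    rw [h2, map_zero] at h1
    have h4 := smul_eq_zero.1 h1.symm
    rcases h4 with h4 | h4
    · exact neg_eq_zero.1 h4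
    · exact absurd h4 h.1
  intro i
  refine Fin.cases h3 (fun j => ?_) i
  exact congrFun h2 j

/-- the derivative of the ratio of coordinates is the identity -/
lemma bt_id {γ : Cm R → H} {t : Cm R} (hγ : AnalyticAt ℂ γ t) {P₀ : H →L[ℂ] ℂ} {P : H →L[ℂ] Cm R}
    (h1 : P₀ (γ t) = 1) (h2 : P (γ t) = 0) (h3 : ∀ η, P (fderiv ℂ γ t η) = η) (η : Cm R) :
    fderiv ℂ (bt (fun t => P₀ (γ t)) (fun t => P (γ t))) t η = η := by
  have e1 : AnalyticAt ℂ (fun t => P₀ (γ t)) t := (P₀.analyticAt _).comp hγ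
  have e2 : AnalyticAt ℂ (fun t => P (γ t)) t := (P.analyticAt _).comp hγ
  have e3 := bt_fderiv e1 e2 (by simp only [h1]; exact one_ne_zero) η
  have e4 : fderiv ℂ (fun t => P (γ t)) t η = P (fderiv ℂ γ t η) := by
    have : HasFDerivAt (fun t => P (γ t)) (P.comp (fderiv ℂ γ t)) t :=
      P.hasFDerivAt.comp t hγ.differentiableAt.hasFDerivAt
    rw [this.fderiv]
    rfl
  rw [mv] at e3
  simp only [h1, h2, e4, h3, one_smul, smul_zero, sub_zero, one_pow] at e3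
  exact e3.symm

/-- the ratio of coordinates is an immersion criterion -/
lemma imm_of_ratio {g : Cm R → H} {t₀ : Cm R} (hg : AnalyticAt ℂ g t₀) {P₀ : H →L[ℂ] ℂ}
    {P : H →L[ℂ] Cm R} (h0 : P₀ (g t₀) ≠ 0) (h1 : ∀ᶠ t in 𝓝 t₀, P (g t) = P₀ (g t) • t) :
    ImmAt g t₀ := by
  refine ⟨fun h => h0 (by rw [h, map_zero]), fun η c hη => ?_⟩
  have e1 : HasFDerivAt (fun t => P (g t)) (P.comp (fderiv ℂ g t₀)) t₀ :=
    P.hasFDerivAt.comp t₀ hg.differentiableAt.hasFDerivAt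
  have e2 : HasFDerivAt (fun t => P₀ (g t)) (P₀.comp (fderiv ℂ g t₀)) t₀ :=
    P₀.hasFDerivAt.comp t₀ hg.differentiableAt.hasFDerivAt
  have e3 : HasFDerivAt (fun t : Cm R => P₀ (g t) • t)
      (P₀ (g t₀) • (ContinuousLinearMap.id ℂ (Cm R)) +
        (P₀.comp (fderiv ℂ g t₀)).smulRight t₀) t₀ := e2.smul (hasFDerivAt_id t₀)
  have e4 := (e3.congr_of_eventuallyEq h1).unique e1
  have e5 := congrArg (fun L : Cm R →L[ℂ] Cm R => L η) e4
  simp only [add_apply, smul_apply, ContinuousLinearMap.smulRight_apply,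
    ContinuousLinearMap.comp_apply, ContinuousLinearMap.id_apply, hη, map_smul,
    h1.self_of_nhds, smul_eq_mul, mul_smul] at e5
  have e6 : P₀ (g t₀) • η = 0 := by
    have := e5
    rwa [add_eq_right] at this
  rcases smul_eq_zero.1 e6 with h | h
  · exact absurd h h0
  · exact h

variable [CompleteSpace H]

/-- **Local theorem**: if the family `f ξ` has the normal form at `s ∈ K`, it has a normal form at
all points of the connected open set `K` where a holomorphic function `w` does not vanish, and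
`w s ≠ 0`. -/
theorem loc_good' {K : Set (Cm n)} (hKo : IsOpen K) (hKc : IsPreconnected K)
    {f : (Fin R → Cm n) → Cm n → H} (hf : ∀ ξ, AnalyticOnNhd ℂ (f ξ) K) {s : Cm n} (hs : s ∈ K)
    {b : Cm n → Cm R} {γ : Cm R → H} (hb : AnalyticAt ℂ b s)
    (hbs : Function.Surjective (fderiv ℂ b s)) (hγ : AnalyticAt ℂ γ (b s))
    (hi : ImmAt γ (b s)) (hnf : ∀ᶠ z in 𝓝 s, ∀ ξ, f ξ z = Jd b z ξ ^ m • γ (b z)) :
    ∃ w : Cm n → ℂ, AnalyticOnNhd ℂ w K ∧ w s ≠ 0 ∧ ∀ z ∈ K, w z ≠ 0 →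
      ∃ (β : Cm n → Cm R) (g : Cm R → H), AnalyticAt ℂ β z ∧
      Function.Surjective (fderiv ℂ β z) ∧ AnalyticAt ℂ g (β z) ∧ ImmAt g (β z) ∧
      ∀ᶠ z' in 𝓝 z, ∀ ξ, f ξ z' = Jd β z' ξ ^ m • g (β z') := by
  obtain ⟨h, hh⟩ := exists_dual (imm_indep hi)
  set P₀ : H →L[ℂ] ℂ := innerSL ℂ (h 0) with hP₀
  set P : H →L[ℂ] Cm R := ContinuousLinearMap.pi fun i => innerSL ℂ (h i.succ) with hP
  have hP₀1 : P₀ (γ (b s)) = 1 := by
    have := hh 0 0
    simpa [hP₀] using this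
  have hP1 : P (γ (b s)) = 0 := by
    funext i
    have := hh i.succ 0
    simpa [hP, Fin.succ_ne_zero] using this
  have hP2 : ∀ η, P (fderiv ℂ γ (b s) η) = η := by
    intro η
    have h1 : ∀ j, P (fderiv ℂ γ (b s) (Pi.single j 1)) = Pi.single j 1 := by
      intro j
      funext i
      have := hh i.succ j.succ
      simp only [Fin.cons_succ, Fin.succ_inj] at this
      show ⟪h i.succ, fderiv ℂ γ (b s) (Pi.single j 1)⟫_ℂ = _
      rw [this, Pi.single_apply]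
    have h2 := clm_sum (P.comp (fderiv ℂ γ (b s))) η
    simp only [ContinuousLinearMap.comp_apply, h1] at h2
    rw [h2]
    exact (clm_sum (ContinuousLinearMap.id ℂ (Cm R)) η).symm
  -- the frame
  have hξ : ∀ j : Fin R, ∃ x, fderiv ℂ b s x = Pi.single j 1 := fun j => hbs _
  choose ξ₀ hξ₀ using hξ
  have hJ0 : Jd b s ξ₀ = 1 := by
    unfold Jd
    have : (Matrix.of fun i a => fderiv ℂ b s (ξ₀ a) i) = (1 : Matrix (Fin R) (Fin R) ℂ) := by
      ext i a
      rw [Matrix.of_apply, hξ₀, Matrix.one_apply, Pi.single_apply]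
    rw [this, Matrix.det_one]
  set u : Cm n → H := f ξ₀ with hu
  set a₀ : Cm n → ℂ := fun z => P₀ (u z) with ha₀
  set a : Cm n → Cm R := fun z => P (u z) with ha
  have hua : ∀ z ∈ K, AnalyticAt ℂ u z := fun z hz => hf ξ₀ z hz
  have ha₀a : ∀ z ∈ K, AnalyticAt ℂ a₀ z := fun z hz => (P₀.analyticAt _).comp (hua z hz)
  have haa : ∀ z ∈ K, AnalyticAt ℂ a z := fun z hz => (P.analyticAt _).comp (hua z hz)
  set N : Cm n → ℂ := fun z => a₀ z ^ (2 * R) with hN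
  set D : (Fin R → Cm n) → Cm n → ℂ := fun ξ z => (mm a₀ a z ξ).det with hD
  have hNa : ∀ z ∈ K, AnalyticAt ℂ N z := fun z hz => (ha₀a z hz).pow _
  have hDa : ∀ ξ, ∀ z ∈ K, AnalyticAt ℂ (D ξ) z := fun ξ z hz => mm_an (ha₀a z hz) (haa z hz) ξ
  -- the coordinates of `γ`
  set c₀ : Cm R → Cm R := bt (fun t => P₀ (γ t)) (fun t => P (γ t)) with hc₀
  have e1 : AnalyticAt ℂ (fun t => P₀ (γ t)) (b s) := (P₀.analyticAt _).comp hγ
  have e2 : AnalyticAt ℂ (fun t => P (γ t)) (b s) := (P.analyticAt _).comp hγ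
  have hc₀a : AnalyticAt ℂ c₀ (b s) := bt_an e1 e2 (by simp only [hP₀1]; exact one_ne_zero)
  set fr : Fin R → Cm R := fun i => Pi.single i 1 with hfr
  have hJc : Jd c₀ (b s) fr = 1 := by
    unfold Jd
    have : (Matrix.of fun i a => fderiv ℂ c₀ (b s) (fr a) i) = (1 : Matrix (Fin R) (Fin R) ℂ) := by
      ext i a
      rw [Matrix.of_apply, hc₀, bt_id hγ hP₀1 hP1 hP2, Matrix.one_apply]
      show (Pi.single a (1 : ℂ) : Cm R) i = _
      rw [Pi.single_apply]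
    rw [this, Matrix.det_one]
  -- near `s`
  have hJc' : ∀ᶠ t in 𝓝 (b s), Jd c₀ t fr ≠ 0 :=
    (jd_an hc₀a fr).continuousAt.eventually_ne (by rw [hJc]; exact one_ne_zero)
  have hP₀' : ∀ᶠ t in 𝓝 (b s), P₀ (γ t) ≠ 0 :=
    e1.continuousAt.eventually_ne (by simp only [hP₀1]; exact one_ne_zero)
  have hJb' : ∀ᶠ z in 𝓝 s, Jd b z ξ₀ ≠ 0 :=
    (jd_an hb ξ₀).continuousAt.eventually_ne (by rw [hJ0]; exact one_ne_zero)
  -- all properties near `s`
  have hnear : ∀ᶠ z in 𝓝 s, z ∈ K ∧ AnalyticAt ℂ b z ∧ AnalyticAt ℂ γ (b z) ∧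
      AnalyticAt ℂ c₀ (b z) ∧ Jd c₀ (b z) fr ≠ 0 ∧ P₀ (γ (b z)) ≠ 0 ∧ Jd b z ξ₀ ≠ 0 ∧
      ∀ ξ, f ξ z = Jd b z ξ ^ m • γ (b z) := by
    have hbc := hb.continuousAt
    filter_upwards [hKo.mem_nhds hs, hb.eventually_analyticAt,
      hbc.eventually hγ.eventually_analyticAt, hbc.eventually hc₀a.eventually_analyticAt,
      hbc.eventually hJc', hbc.eventually hP₀', hJb', hnf] with z h1 h2 h3 h4 h5 h6 h7 h8
    exact ⟨h1, h2, h3, h4, h5, h6, h7, h8⟩
  have hnear2 : ∀ᶠ z in 𝓝 s, a₀ z ≠ 0 ∧ bt a₀ a =ᶠ[𝓝 z] (fun z => c₀ (b z)) ∧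
      (∀ ξ, D ξ z = N z * (Jd c₀ (b z) fr * Jd b z ξ)) := by
    filter_upwards [hnear, hnear.eventually_nhds] with z hz hz'
    obtain ⟨k1, k2, k3, k4, k5, k6, k7, k8⟩ := hz
    have hne : a₀ z ≠ 0 := by
      simp only [ha₀, hu, k8, map_smul, smul_eq_mul]
      exact mul_ne_zero (pow_ne_zero _ k7) k6
    have hev : bt a₀ a =ᶠ[𝓝 z] fun z => c₀ (b z) := by
      filter_upwards [hz'] with y hy
      obtain ⟨l1, l2, l3, l4, l5, l6, l7, l8⟩ := hy
      simp only [bt, ha₀, ha, hu, l8, hc₀, map_smul, smul_eq_mul, smul_smul]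
      congr 1
      have : Jd b y ξ₀ ^ m ≠ 0 := pow_ne_zero _ l7
      field_simp
    refine ⟨hne, hev, fun ξ => ?_⟩
    show (mm a₀ a z ξ).det = _
    rw [det_mm (ha₀a z k1) (haa z k1) hne, Jd_congr hev,
      Jd_comp k4.differentiableAt k2.differentiableAt]
  have hs1 := hnear.self_of_nhds
  have hs2 := hnear2.self_of_nhds
  have hDs : D ξ₀ s ≠ 0 := by
    rw [hs2.2.2, hJc, hJ0, mul_one, mul_one]
    exact pow_ne_zero _ hs2.1
  -- identity (i)
  have hi1 : ∀ ξ, EqOn (fun z => D ξ₀ z ^ m • f ξ z - D ξ z ^ m • u z) 0 K := by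
    intro ξ
    refine AnalyticOnNhd.eqOn_zero_of_preconnected_of_eventuallyEq_zero (𝕜 := ℂ) ?_ hKc hs ?_
    · intro z hz
      exact (((hDa ξ₀ z hz).pow m).smul (hf ξ z hz)).sub (((hDa ξ z hz).pow m).smul (hua z hz))
    · filter_upwards [hnear, hnear2] with z h1 h2
      obtain ⟨k1, k2, k3, k4, k5, k6, k7, k8⟩ := h1
      simp only [hu, k8, h2.2.2, smul_smul, Pi.zero_apply, sub_eq_zero]
      congr 1
      ring
  -- identity (ii)
  have hi2 : ∀ x, EqOn (fun z => TT m N (D ξ₀) u z (kp a₀ a ξ₀ z x)) 0 K := by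
    intro x
    refine AnalyticOnNhd.eqOn_zero_of_preconnected_of_eventuallyEq_zero (𝕜 := ℂ) ?_ hKc hs ?_
    · intro z hz
      exact TT_an (hNa z hz) (hDa ξ₀ z hz) (hua z hz) (kp_an (ha₀a z hz) (haa z hz) ξ₀ x)
    · filter_upwards [hnear, hnear2, hnear.eventually_nhds, hnear2.eventually_nhds] with z h1 h2 h3 h4
      obtain ⟨k1, k2, k3, k4, k5, k6, k7, k8⟩ := h1
      have hNz : N z ≠ 0 := pow_ne_zero _ h2.1
      have hDz : D ξ₀ z ≠ 0 := by
        rw [h2.2.2]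
        exact mul_ne_zero hNz (mul_ne_zero k5 k7)
      -- `G` is a function of `b`
      have hG : (fun z => (N z / D ξ₀ z) ^ m • u z) =ᶠ[𝓝 z]
          fun z => (fun t => ((Jd c₀ t fr)⁻¹ ^ m) • γ t) (b z) := by
        filter_upwards [h3, h4] with y hy1 hy2
        obtain ⟨l1, l2, l3, l4, l5, l6, l7, l8⟩ := hy1
        have hNy : N y ≠ 0 := pow_ne_zero _ hy2.1
        simp only [hu, l8, hy2.2.2, smul_smul]
        congr 1
        rw [← mul_pow]
        congr 1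
        field_simp
      have hga : AnalyticAt ℂ (fun t => ((Jd c₀ t fr)⁻¹ ^ m) • γ t) (b z) :=
        (((jd_an k4 fr).inv k5).pow m).smul k3
      have hker : fderiv ℂ b z (kp a₀ a ξ₀ z x) = 0 := by
        have m1 := mv_kp a₀ a ξ₀ z x
        rw [bt_fderiv (ha₀a z k1) (haa z k1) h2.1] at m1
        have m2 : fderiv ℂ (bt a₀ a) z (kp a₀ a ξ₀ z x) = 0 := by
          rcases smul_eq_zero.1 m1 with m3 | m3
          · exact absurd m3 (pow_ne_zero 2 h2.1)
          · exact m3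
        rw [h2.2.1.fderiv_eq] at m2
        have m4 : fderiv ℂ (fun z => c₀ (b z)) z = (fderiv ℂ c₀ (b z)).comp (fderiv ℂ b z) :=
          fderiv_comp z (g := c₀) k4.differentiableAt k2.differentiableAt
        rw [m4, ContinuousLinearMap.comp_apply] at m2
        have m5 : Function.Surjective (fderiv ℂ c₀ (b z)) := surj_of_Jd k5
        have m6 : Function.Injective (fderiv ℂ c₀ (b z)) :=
          LinearMap.injective_iff_surjective.2
            (show Function.Surjective ((fderiv ℂ c₀ (b z) : Cm R →ₗ[ℂ] Cm R)) from m5)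
        exact m6 (by rw [m2, map_zero])
      have hdG : fderiv ℂ (fun z => (N z / D ξ₀ z) ^ m • u z) z (kp a₀ a ξ₀ z x) = 0 := by
        rw [hG.fderiv_eq]
        have m4 := fderiv_comp z (g := fun t => ((Jd c₀ t fr)⁻¹ ^ m) • γ t) (f := b)
          hga.differentiableAt k2.differentiableAt
        have m5 := congrArg (fun L : Cm n →L[ℂ] H => L (kp a₀ a ξ₀ z x)) m4
        simp only [ContinuousLinearMap.comp_apply, hker, map_zero] at m5
        exact m5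
      have h5 := TT_fderiv (m := m) (hNa z k1) (hDa ξ₀ z k1) (hua z k1) hDz (kp a₀ a ξ₀ z x)
      rw [hdG, smul_zero] at h5
      rcases smul_eq_zero.1 h5.symm with h6 | h6
      · exact absurd h6 (pow_ne_zero _ hNz)
      · exact h6
  refine ⟨fun z => a₀ z * D ξ₀ z, fun z hz => (ha₀a z hz).mul (hDa ξ₀ z hz),
    mul_ne_zero hs2.1 hDs, fun z hzK hne => ?_⟩
  have hza : a₀ z ≠ 0 := left_ne_zero_of_mul hne
  have hzD : D ξ₀ z ≠ 0 := right_ne_zero_of_mul hne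
  have hβa : AnalyticAt ℂ (bt a₀ a) z := bt_an (ha₀a z hzK) (haa z hzK) hza
  have hβs : Function.Surjective (fderiv ℂ (bt a₀ a) z) := by
    refine surj_of_Jd (ξ := ξ₀) fun h0 => hzD ?_
    show (mm a₀ a z ξ₀).det = 0
    rw [det_mm (ha₀a z hzK) (haa z hzK) hza, h0, mul_zero]
  have hGa : AnalyticAt ℂ (fun z => (N z / D ξ₀ z) ^ m • u z) z :=
    (((hNa z hzK).div (hDa ξ₀ z hzK) hzD).pow m).smul (hua z hzK)
  have hgood : ∀ᶠ z' in 𝓝 z, z' ∈ K ∧ a₀ z' ≠ 0 ∧ D ξ₀ z' ≠ 0 := by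
    filter_upwards [hKo.mem_nhds hzK, (ha₀a z hzK).continuousAt.eventually_ne hza,
      (hDa ξ₀ z hzK).continuousAt.eventually_ne hzD] with z' h1 h2 h3 using ⟨h1, h2, h3⟩
  have hker : ∀ᶠ z' in 𝓝 z, ∀ x, fderiv ℂ (bt a₀ a) z' x = 0 →
      fderiv ℂ (fun z => (N z / D ξ₀ z) ^ m • u z) z' x = 0 := by
    filter_upwards [hgood] with z' hz' x hx
    obtain ⟨k1, k2, k3⟩ := hz'
    have h1 : mv a₀ a z' x = 0 := by
      rw [bt_fderiv (ha₀a z' k1) (haa z' k1) k2, hx, smul_zero]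
    have h2 := hi2 x k1
    simp only [kp_of_ker h1, TT_smul, Pi.zero_apply] at h2
    have h3 : TT m N (D ξ₀) u z' x = 0 := by
      rcases smul_eq_zero.1 h2 with h3 | h3
      · exact absurd h3 k3
      · exact h3
    have h4 := TT_fderiv (m := m) (hNa z' k1) (hDa ξ₀ z' k1) (hua z' k1) k3 x
    rw [h3, smul_zero] at h4
    rcases smul_eq_zero.1 h4 with h5 | h5
    · exact absurd h5 (mul_ne_zero (pow_ne_zero _ k2) (pow_ne_zero _ k3))
    · exact h5
  obtain ⟨g, hga, hG⟩ := exists_factor hβa hβs hGa hker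
  refine ⟨bt a₀ a, g, hβa, hβs, hga, ?_, ?_⟩
  · -- immersion
    have hg0 : P₀ (g (bt a₀ a z)) ≠ 0 := by
      rw [← hG.self_of_nhds, map_smul, smul_eq_mul]
      exact mul_ne_zero (pow_ne_zero _ (div_ne_zero (pow_ne_zero _ hza) hzD)) hza
    refine imm_of_ratio (P := P) hga hg0 ?_
    have hopen : map (bt a₀ a) (𝓝 z) = 𝓝 (bt a₀ a z) :=
      hβa.hasStrictFDerivAt.map_nhds_eq_of_surj (LinearMap.range_eq_top.2 hβs)
    rw [← hopen, eventually_map]
    filter_upwards [hG, hgood] with z' h1 h2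
    obtain ⟨k1, k2, k3⟩ := h2
    rw [← h1, map_smul, map_smul]
    show _ • a z' = (_ • a₀ z') • bt a₀ a z'
    rw [bt, smul_eq_mul, smul_smul]
    congr 1
    field_simp
  · filter_upwards [hG, hgood] with z' h1 h2 ξ
    obtain ⟨k1, k2, k3⟩ := h2
    rw [← h1]
    have h3 := hi1 ξ k1
    simp only [Pi.zero_apply, sub_eq_zero] at h3
    have h4 : D ξ z' = N z' * Jd (bt a₀ a) z' ξ := det_mm (ha₀a z' k1) (haa z' k1) k2 ξ
    have h5 : f ξ z' = (D ξ₀ z' ^ m)⁻¹ • D ξ z' ^ m • u z' := by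
      rw [← h3, smul_smul, inv_mul_cancel₀ (pow_ne_zero _ k3), one_smul]
    rw [h5, h4, smul_smul, smul_smul]
    congr 1
    rw [mul_pow, div_pow]
    field_simp

/-- the good points are dense in `K` -/
theorem loc_good {K : Set (Cm n)} (hKo : IsOpen K) (hKc : IsPreconnected K)
    {f : (Fin R → Cm n) → Cm n → H} (hf : ∀ ξ, AnalyticOnNhd ℂ (f ξ) K) {s : Cm n} (hs : s ∈ K)
    {b : Cm n → Cm R} {γ : Cm R → H} (hb : AnalyticAt ℂ b s)
    (hbs : Function.Surjective (fderiv ℂ b s)) (hγ : AnalyticAt ℂ γ (b s))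
    (hi : ImmAt γ (b s)) (hnf : ∀ᶠ z in 𝓝 s, ∀ ξ, f ξ z = Jd b z ξ ^ m • γ (b z))
    {z₁ : Cm n} (hz₁ : z₁ ∈ K) :
    ∃ᶠ z in 𝓝 z₁, ∃ (β : Cm n → Cm R) (g : Cm R → H), AnalyticAt ℂ β z ∧
      Function.Surjective (fderiv ℂ β z) ∧ AnalyticAt ℂ g (β z) ∧ ImmAt g (β z) ∧
      ∀ᶠ z' in 𝓝 z, ∀ ξ, f ξ z' = Jd β z' ξ ^ m • g (β z') := by
  obtain ⟨w, hw, hws, hgood⟩ := loc_good' hKo hKc hf hs hb hbs hγ hi hnf
  have hfreq : ∃ᶠ z in 𝓝 z₁, w z ≠ 0 := by
    intro hcon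
    have h1 : w =ᶠ[𝓝 z₁] 0 := by
      filter_upwards [hcon] with z hz
      exact not_not.1 hz
    exact hws (AnalyticOnNhd.eqOn_zero_of_preconnected_of_eventuallyEq_zero (𝕜 := ℂ) hw hKc hz₁
      h1 hs)
  exact (hfreq.and_eventually (hKo.mem_nhds hz₁)).mono fun z hz => hgood z hz.2 hz.1

end

end Vale.Agent.P284.H174.GD
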