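import Vale.Agent.P284.H174.Liou
import Vale.Agent.P284.H731.Alb1
import Vale.Agent.P284.H446.S1
import Mathlib.Analysis.Complex.BorelCaratheodory

/-!
# P284 (helper174): Harnack inequality for pluriharmonic functions on a covering
-/

open scoped Manifold ContDiff Topology ComplexOrder
open Filter Set Metric

noncomputable section

namespace Vale.Agent.P284.H174

open Vale.Agent.P272.K Vale.Agent.P284.H894 Vale.Agent.P284.H894.G Vale.Agent.P284.H894.V
  Vale.Agent.P284.H221 Vale.Agent.P284.H465.V17 Vale.Agent.P284.H5.V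

/-- one variable -/
lemma harnack_one {φ : ℂ → ℂ} (hφ : DifferentiableOn ℂ φ (ball 0 (3 / 2)))
    (h0 : ∀ s ∈ ball (0 : ℂ) (3 / 2), 0 ≤ (φ s).re) : (φ 1).re ≤ 5 * (φ 0).re := by
  refine le_of_forall_pos_le_add fun ε hε => ?_
  have h00 : 0 ≤ (φ 0).re := h0 0 (mem_ball_self (by norm_num))
  set M := (φ 0).re + ε / 4 with hM
  have hM0 : 0 < M := by positivity
  have h1 := Complex.borelCaratheodory_zero (f := fun s => φ 0 - φ s) (M := M) (R := 3 / 2)
    (z := 1) hM0 (hφ.const_sub _) (fun s hs => by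
      show (φ 0 - φ s).re ≤ M
      rw [Complex.sub_re]
      have := h0 s hs
      linarith) (by norm_num) (by simp; norm_num) (by simp)
  have h2 : ‖φ 0 - φ 1‖ ≤ 4 * M := by
    refine h1.trans (le_of_eq ?_)
    rw [norm_one]
    ring
  have h3 := (Complex.abs_re_le_norm (φ 0 - φ 1)).trans h2
  rw [Complex.sub_re, abs_le] at h3
  linarith [h3.1]

/-- several variables -/
lemma harnack_ball {n : ℕ} {f : Cm n → ℂ} {c : Cm n} {r : ℝ}
    (hf : DifferentiableOn ℂ f (ball c (4 * r))) (h0 : ∀ z ∈ ball c (4 * r), 0 ≤ (f z).re)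
    {z z' : Cm n} (hz : z ∈ ball c r) (hz' : z' ∈ ball c r) : (f z').re ≤ 5 * (f z).re := by
  have hd : ‖z' - z‖ ≤ 2 * r := by
    rw [← dist_eq_norm]
    rw [mem_ball] at hz hz'
    have := dist_triangle_right z' z c
    linarith
  have key : ∀ s ∈ ball (0 : ℂ) (3 / 2), z + s • (z' - z) ∈ ball c (4 * r) := by
    intro s hs
    rw [mem_ball_zero_iff] at hs
    rw [mem_ball] at hz ⊢
    have h1 : dist (z + s • (z' - z)) c ≤ ‖s‖ * ‖z' - z‖ + dist z c := by
      have h2 : dist (z + s • (z' - z)) z = ‖s‖ * ‖z' - z‖ := by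
        rw [dist_eq_norm, add_sub_cancel_left, norm_smul]
      rw [← h2]
      exact dist_triangle _ _ _
    have h3 : ‖s‖ * ‖z' - z‖ ≤ 3 / 2 * (2 * r) :=
      mul_le_mul hs.le hd (norm_nonneg _) (by norm_num)
    linarith
  have h1 := harnack_one (φ := fun s => f (z + s • (z' - z)))
    (fun s hs => by
      have h2 : DifferentiableAt ℂ f (z + s • (z' - z)) :=
        hf.differentiableAt (isOpen_ball.mem_nhds (key s hs))
      have h3 : DifferentiableAt ℂ (fun s : ℂ => z + s • (z' - z)) s := by fun_prop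
      exact (DifferentiableAt.comp s h2 h3).differentiableWithinAt)
    (fun s hs => h0 _ (key s hs))
  simpa using h1

section
variable {n : ℕ} {X : Type} [TopologicalSpace X] [ChartedSpace (Cm n) X]
  {E : Type} [TopologicalSpace E] {p : E → X} {w : Chart n X → Cm n → Matrix (Fin n) (Fin n) ℂ}

/-- local sections -/
lemma exists_sec (hp : IsCoveringMap p) {y₁ : E} {e : Chart n X} (he : At e (p y₁)) :
    ∃ r > 0, ∃ σ : Cm n → E, ContinuousOn σ (ball (e (p y₁)) r) ∧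
      (∀ z ∈ ball (e (p y₁)) r, At e (p (σ z)) ∧ e (p (σ z)) = z) ∧
      ∀ᶠ y in 𝓝 y₁, σ (e (p y)) = y := by
  obtain ⟨φ, hφ, hφp⟩ := hp.isLocalHomeomorph y₁
  have hpφ : ∀ y, p y = φ y := fun y => congrFun hφp y
  have h1 : e.target ∩ e.symm ⁻¹' φ.target ∈ 𝓝 (e (p y₁)) := by
    refine inter_mem (e.open_target.mem_nhds (e.map_source he.2)) ?_
    refine (e.continuousAt_symm (e.map_source he.2)).preimage_mem_nhds ?_
    rw [e.left_inv he.2]
    exact φ.open_target.mem_nhds (by rw [hpφ]; exact φ.map_source hφ)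
  obtain ⟨r, hr, hsub⟩ := Metric.mem_nhds_iff.1 h1
  refine ⟨r, hr, fun z => φ.symm (e.symm z), ?_, ?_, ?_⟩
  · refine ContinuousOn.comp φ.continuousOn_symm
      (e.continuousOn_symm.mono fun z hz => (hsub hz).1) fun z hz => (hsub hz).2
  · intro z hz
    have h2 : p (φ.symm (e.symm z)) = e.symm z := by rw [hpφ, φ.right_inv (hsub hz).2]
    refine ⟨⟨he.1, ?_⟩, ?_⟩
    · show p (φ.symm (e.symm z)) ∈ e.source
      rw [h2]
      exact e.map_target (hsub hz).1
    · show e (p (φ.symm (e.symm z))) = z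
      rw [h2, e.right_inv (hsub hz).1]
  · filter_upwards [φ.open_source.mem_nhds hφ,
      hp.continuous.continuousAt.preimage_mem_nhds (e.open_source.mem_nhds he.2)] with y h2 h3
    show φ.symm (e.symm (e (p y))) = y
    rw [e.left_inv h3, hpφ, φ.left_inv h2]

/-- **Harnack**, locally on the covering -/
theorem harnack_near (hp : IsCoveringMap p) (w : Chart n X → Cm n → Matrix (Fin n) (Fin n) ℂ)
    (y₁ : E) : ∃ V : Set E, IsOpen V ∧ y₁ ∈ V ∧ ∀ (u : E → ℝ) (B : ℝ), IsPHB p w u B →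
      (∀ y, 0 ≤ u y) → ∀ y ∈ V, ∀ y' ∈ V, u y' ≤ 5 * u y := by
  set e := chartAt (Cm n) (p y₁) with he_def
  have he : At e (p y₁) := ⟨chart_mem_atlas _ _, mem_chart_source _ _⟩
  obtain ⟨r, hr, σ, hσc, hσ, hσe⟩ := exists_sec hp he
  have h1 : ∀ᶠ y in 𝓝 y₁, σ (e (p y)) = y ∧ e (p y) ∈ ball (e (p y₁)) (r / 4) :=
    hσe.and ((map_chart hp he).le (ball_mem_nhds _ (by positivity)))
  obtain ⟨V, hV, hVo, hyV⟩ := _root_.eventually_nhds_iff.1 h1
  refine ⟨V, hVo, hyV, fun u B hu hpos y hy y' hy' => ?_⟩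
  have hg : ∀ z ∈ ball (e (p y₁)) r, ContDiffAt ℝ ∞ (fun z => u (σ z)) z ∧
      cHess (fun z => u (σ z)) z = 0 := by
    intro z hz
    obtain ⟨g, hug, hg, -⟩ := hu (σ z) e (hσ z hz).1
    have h2 : (fun z => u (σ z)) =ᶠ[𝓝 z] g := by
      filter_upwards [(hσc.continuousAt (isOpen_ball.mem_nhds hz)).eventually hug,
        isOpen_ball.mem_nhds hz] with z' h3 h4
      rw [h3, (hσ z' h4).2]
    rw [(hσ z hz).2] at hg
    exact ⟨hg.self_of_nhds.1.congr_of_eventuallyEq h2, by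
      rw [cHess_congr h2]; exact hg.self_of_nhds.2⟩
  obtain ⟨F, hF, hFr⟩ := Vale.Agent.P301.H949.exists_re (U := ball (e (p y₁)) r) isOpen_ball
    (convex_ball _ _) (fun z hz => (hg z hz).1.of_le two_le)
    (fun z hz => (hg z hz).2)
  have h4 : 4 * (r / 4) = r := by ring
  have h5 := harnack_ball (f := F) (c := e (p y₁)) (r := r / 4) (by rw [h4]; exact hF)
    (fun z hz => by rw [h4] at hz; rw [hFr z hz]; exact hpos _) (hV y hy).2 (hV y' hy').2
  have hsub : ball (e (p y₁)) (r / 4) ⊆ ball (e (p y₁)) r := ball_subset_ball (by linarith)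
  rw [hFr _ (hsub (hV y hy).2), hFr _ (hsub (hV y' hy').2), (hV y hy).1, (hV y' hy').1] at h5
  exact h5

/-- **Harnack** on a compact set -/
theorem harnack_compact [ConnectedSpace E] (hp : IsCoveringMap p)
    (w : Chart n X → Cm n → Matrix (Fin n) (Fin n) ℂ) {D : Set E} (hD : IsCompact D) :
    ∃ C : ℝ, 0 < C ∧ ∀ (u : E → ℝ) (B : ℝ), IsPHB p w u B → (∀ y, 0 ≤ u y) →
      ∀ y ∈ D, ∀ y' ∈ D, u y' ≤ C * u y := by
  obtain ⟨y₀⟩ : Nonempty E := inferInstance
  set P : Set E → Prop := fun s => ∃ C : ℝ, 0 < C ∧ ∀ (u : E → ℝ) (B : ℝ), IsPHB p w u B →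
    (∀ y, 0 ≤ u y) → ∀ y ∈ s, u y ≤ C * u y₀ ∧ u y₀ ≤ C * u y with hP
  have hmono : ∀ s t, s ⊆ t → P t → P s := by
    rintro s t hst ⟨C, hC, h⟩
    exact ⟨C, hC, fun u B hu h0 y hy => h u B hu h0 y (hst hy)⟩
  -- near a point which is comparable to `y₀`
  have hnear : ∀ y₁ : E, ∃ V : Set E, IsOpen V ∧ y₁ ∈ V ∧ ∀ y₂ ∈ V, P {y₂} → P V := by
    intro y₁
    obtain ⟨V, hVo, hyV, hV⟩ := harnack_near hp w y₁
    refine ⟨V, hVo, hyV, ?_⟩
    rintro y₂ hy₂ ⟨C, hC, h⟩
    refine ⟨5 * C, by positivity, fun u B hu h0 y hy => ?_⟩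
    obtain ⟨h1, h2⟩ := h u B hu h0 y₂ rfl
    have h3 := hV u B hu h0 y₂ hy₂ y hy
    have h4 := hV u B hu h0 y hy y₂ hy₂
    constructor
    · calc u y ≤ 5 * u y₂ := h3
        _ ≤ 5 * (C * u y₀) := by linarith
        _ = 5 * C * u y₀ := by ring
    · calc u y₀ ≤ C * u y₂ := h2
        _ ≤ C * (5 * u y) := mul_le_mul_of_nonneg_left h4 hC.le
        _ = 5 * C * u y := by ring
  have hall : {y | P {y}} = univ := by
    refine IsClopen.eq_univ ⟨?_, ?_⟩ ⟨y₀, 1, one_pos, fun u B hu h0 y hy => ?_⟩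
    · rw [← closure_subset_iff_isClosed]
      intro y₁ hy₁
      obtain ⟨V, hVo, hyV, hV⟩ := hnear y₁
      obtain ⟨y₂, h1, h2⟩ := mem_closure_iff.1 hy₁ V hVo hyV
      exact hmono _ _ (singleton_subset_iff.2 hyV) (hV y₂ h1 h2)
    · rw [isOpen_iff_mem_nhds]
      intro y₁ hy₁
      obtain ⟨V, hVo, hyV, hV⟩ := hnear y₁
      filter_upwards [hVo.mem_nhds hyV] with y hy
      exact hmono _ _ (singleton_subset_iff.2 hy) (hV y₁ hyV hy₁)
    · rw [mem_singleton_iff.1 hy, one_mul]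
      exact ⟨le_rfl, le_rfl⟩
  have hPD : P D := by
    refine hD.induction_on (p := P) ⟨1, one_pos, fun u B hu h0 y hy => absurd hy (notMem_empty y)⟩
      hmono ?_ ?_
    · rintro s t ⟨C, hC, h⟩ ⟨C', hC', h'⟩
      refine ⟨max C C', lt_max_of_lt_left hC, fun u B hu h0 y hy => ?_⟩
      rcases hy with hy | hy
      · obtain ⟨h1, h2⟩ := h u B hu h0 y hy
        exact ⟨h1.trans (mul_le_mul_of_nonneg_right (le_max_left _ _) (h0 _)),
          h2.trans (mul_le_mul_of_nonneg_right (le_max_left _ _) (h0 _))⟩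
      · obtain ⟨h1, h2⟩ := h' u B hu h0 y hy
        exact ⟨h1.trans (mul_le_mul_of_nonneg_right (le_max_right _ _) (h0 _)),
          h2.trans (mul_le_mul_of_nonneg_right (le_max_right _ _) (h0 _))⟩
    · intro y _
      obtain ⟨V, hVo, hyV, hV⟩ := hnear y
      have h1 : P {y} := (hall ▸ mem_univ y : y ∈ {y | P {y}})
      exact ⟨V, mem_nhdsWithin_of_mem_nhds (hVo.mem_nhds hyV), hV y hyV h1⟩
  obtain ⟨C, hC, h⟩ := hPD
  refine ⟨C * C, by positivity, fun u B hu h0 y hy y' hy' => ?_⟩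
  calc u y' ≤ C * u y₀ := (h u B hu h0 y' hy').1
    _ ≤ C * (C * u y) := mul_le_mul_of_nonneg_left (h u B hu h0 y hy).2 hC.le
    _ = C * C * u y := by ring

end

end Vale.Agent.P284.H174
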