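import Vale.Agent.P284.H619.NS0
import Vale.Agent.P284.H812.Imm

/-!
# P284 (helper174): NS0 with the invariance under the kernel of the representation
-/

open scoped Manifold ContDiff Topology InnerProductSpace
open Filter Set Metric

noncomputable section

namespace Vale.Agent.P284.H174

open Vale.Agent.P272.K Vale.Agent.P284.H573 Vale.Agent.P284.H894.G Vale.Agent.P284.H619

section
variable {n r : ℕ} {X : Type} [TopologicalSpace X] [ChartedSpace (Cm n) X]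
  {E : Type} [TopologicalSpace E] {p : E → X}
  {W : Type} [NormedAddCommGroup W] [InnerProductSpace ℂ W] [CompleteSpace W]
  {Θ : E → Chart n X → (Cm n →L[ℂ] W)}
  {H : Type} [NormedAddCommGroup H] [InnerProductSpace ℂ H] [CompleteSpace H] (S : TH H)
  (J : W →ₗᵢ[ℂ] H)

/-- the elements acting trivially on `W` fix the natural form -/
lemma vf_fix {Γ : Type} [Group Γ] [MulAction Γ E] (hG : IsGalois Γ p) (hΘ : CForm n p W Θ)
    {π : Γ →* (W ≃ₗᵢ[ℂ] W)} (hπ : Equi p π Θ) (k : ℕ) (g : Γ) (hg : π g = 1) {y : E}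
    {e : Chart n X} (he : At e (p y)) (ξ : Fin (r + 1) → Cm n) :
    vf S J p Θ k (g • y) e ξ = vf S J p Θ k y e ξ := by
  have hpg : ∀ y' : E, p (g • y') = p y' := fun y' => ((hG.orb y' (g • y')).2 ⟨g, rfl⟩).symm
  have he1 : At e (p (g • y)) := by rw [hpg]; exact he
  have h1 : lo J p Θ (g • y) e =ᶠ[𝓝 (e (p (g • y)))] lo J p Θ y e := by
    refine lo_unique J hG.cov hΘ he1 ?_
    have hc : Tendsto (fun y'' : E => g⁻¹ • y'') (𝓝 (g • y)) (𝓝 y) := by
      have := (hG.cont g⁻¹).tendsto (g • y)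
      rwa [inv_smul_smul] at this
    filter_upwards [hc.eventually (lo_ev J hG.cov hΘ he), hc.eventually (at_ev hG.cov he)]
      with y'' h2 h3
    have h4 := hπ g (g⁻¹ • y'') e h3
    rw [smul_inv_smul, hg] at h4
    have h5 : p (g⁻¹ • y'') = p y'' := ((hG.orb _ _).2 ⟨g, by rw [smul_inv_smul]⟩)
    rw [h5] at h2
    rw [← h2, h4]
    rfl
  rw [vf_eq S J he, vf_eq S J he1]
  have h2 := S.G_congr (r := r) h1 k
  rw [h2.self_of_nhds, hpg]

end

/-- **Module NS0**, with the invariance of the form under the kernel of the representation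
(helper619's proof). -/
theorem ns0_fix (n r : ℕ) (X : Type) [TopologicalSpace X] [ChartedSpace (Cm n) X]
    [IsManifold 𝓘(ℂ, Cm n) ω X] (E Γ : Type) [TopologicalSpace E] [ConnectedSpace E] [Group Γ]
    [MulAction Γ E] (p : E → X) (hG : IsGalois Γ p)
    (W : Type) [NormedAddCommGroup W] [InnerProductSpace ℂ W] [CompleteSpace W]
    (π : Γ →* (W ≃ₗᵢ[ℂ] W)) (Θ : E → Chart n X → (Cm n →L[ℂ] W)) (hΘ : CForm n p W Θ)
    (hπ : Equi p π Θ) (hR : ∀ y e, At e (p y) → rk Θ y e ≤ r + 1)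
    (hN : ∀ c : W, (∀ y e, At e (p y) → rk Θ y e = r + 1 → ∃ ξ, Θ y e ξ = c) → c = 0)
    (y₀ : E) (e₀ : Chart n X) (he₀ : At e₀ (p y₀)) (hrk : rk Θ y₀ e₀ = r + 1) :
    ∃ (m : ℕ) (_ : 1 ≤ m) (H : Type) (_ : NormedAddCommGroup H) (_ : InnerProductSpace ℂ H)
      (_ : CompleteSpace H) (v : E → Chart n X → (Fin (r + 1) → Cm n) → H),
      HForm n (r + 1) m p H v ∧ GoodAt p (r + 1) m v y₀ ∧
        ∀ g, π g = 1 → ∀ y e, At e (p y) → ∀ ξ, v (g • y) e ξ = v y e ξ := by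
  have himm : ImmStmt := Vale.Agent.P284.H812.Imm.immStmt
  obtain ⟨H, iH1, iH2, iH3, S, ⟨J⟩⟩ := exists_TH W
  have hp : IsCoveringMap p := hG.cov
  set F : Cm n → H := prH J p Θ y₀ e₀ with hF_def
  set z₀ : Cm n := e₀ (p y₀) with hz₀
  have hF : AnalyticAt ℂ F z₀ := prH_an J hΘ he₀
  -- relation of the two languages near `y₀`
  have hlo : ∀ᶠ y in 𝓝 y₀, At e₀ (p y) ∧
      J.toContinuousLinearMap.comp (Θ y e₀) = fderiv ℂ F (e₀ (p y)) :=
    (at_ev hp he₀).and (lo_ev J hp hΘ he₀)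
  have hFrk : ∀ᶠ z in 𝓝 z₀, Module.finrank ℂ (LinearMap.range (fderiv ℂ F z : Cm n →ₗ[ℂ] H)) ≤
      r + 1 := by
    rw [hz₀, ← ev_iff hp he₀]
    filter_upwards [hlo] with y hy
    rw [← hy.2, rk_J]
    exact hR y e₀ hy.1
  have hF0 : Module.finrank ℂ (LinearMap.range (fderiv ℂ F z₀ : Cm n →ₗ[ℂ] H)) = r + 1 := by
    rw [hz₀, ← hlo.self_of_nhds.2, rk_J]
    exact hrk
  obtain ⟨b, F', hb, hbs, hF', hF'i, hFb⟩ := exists_nf hF hFrk hF0
  have hd : ∀ᶠ z in 𝓝 z₀, fderiv ℂ F z = (fderiv ℂ F' (b z)).comp (fderiv ℂ b z) := by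
    filter_upwards [hFb.eventually_nhds, hb.eventually_analyticAt,
      hb.continuousAt.eventually hF'.eventually_analyticAt] with w w1 w2 w3
    rw [Filter.EventuallyEq.fderiv_eq w1]
    exact (w3.differentiableAt.hasFDerivAt.comp w w2.differentiableAt.hasFDerivAt).fderiv
  obtain ⟨ξ₀, hξ₀⟩ := exists_frame hbs
  have hsurj : ∀ᶠ z in 𝓝 z₀, Function.Surjective (fderiv ℂ b z) := by
    filter_upwards [(jd_an hb ξ₀).continuousAt.eventually_ne hξ₀] with z hz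
    exact surj_of_Jd hz
  -- no constant direction
  obtain ⟨k, hk⟩ := himm H S r F' (b z₀) hF' hF'i (by
    intro c hc
    have h1 : ∀ᶠ y in 𝓝 y₀, ∃ v, J (Θ y e₀ v) = c := by
      have h2 : ∀ᶠ z in 𝓝 z₀, ∃ v, fderiv ℂ F z v = c := by
        filter_upwards [hb.continuousAt.eventually hc, hd, hsurj] with z z1 z2 z3
        obtain ⟨ξ, hξ⟩ := z1
        obtain ⟨v, hv⟩ := z3 ξ
        refine ⟨v, ?_⟩
        rw [z2, ContinuousLinearMap.comp_apply, hv, hξ]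
      rw [hz₀, ← ev_iff hp he₀] at h2
      filter_upwards [h2, hlo] with y h3 h4
      obtain ⟨v, hv⟩ := h3
      refine ⟨v, ?_⟩
      rw [← hv, ← h4.2]
      rfl
    obtain ⟨v₀, hv₀⟩ := h1.self_of_nhds
    have hbad : ∀ᶠ y in 𝓝 y₀, Bad S J p Θ r (Θ y₀ e₀ v₀) y := by
      filter_upwards [h1, hlo] with y h2 h3
      refine bad_of S J hΘ h3.1 ?_
      rw [hv₀]
      refine (S.mem_range_iff (R := r + 1)
        ((J.toContinuousLinearMap.comp (Θ y e₀) : Cm n →L[ℂ] H) : Cm n →ₗ[ℂ] H) c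
        (by rw [rk_J]; exact hR y e₀ h3.1)).2 fun _ => ?_
      obtain ⟨v, hv⟩ := h2
      exact ⟨v, hv⟩
    have h0 := hN (Θ y₀ e₀ v₀) fun y e he h =>
      bad_mem S J hR (bad_all S J hp hΘ hbad) y e he h
    rw [← hv₀, h0, map_zero])
  refine ⟨mu k, mu_pos k, H, iH1, iH2, iH3, vf S J p Θ k, vf_hform S J hG hΘ hπ hR k, ⟨e₀, b,
    fun z => S.G (fun y => fderiv ℂ F' y) k z (fr (r + 1)), ?_⟩,
    fun g hg y e he ξ => vf_fix S J hG hΘ hπ k g hg he ξ⟩
  refine ⟨he₀, hb, hbs, g_an S hF'.fderiv k _, hk, ?_⟩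
  have hnat := S.G_nat (r := r) hb hF'.fderiv hd k
  rw [hz₀, ← ev_iff hp he₀] at hnat
  filter_upwards [vf_near S J hp hΘ k he₀, hnat] with y h1 h2 ξ
  rw [h1 ξ]
  exact h2 ξ

end Vale.Agent.P284.H174
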