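import Vale.Agent.P284.H174.EqvG
import Vale.Agent.P284.H837.Ker

/-!
# P284 (helper174), T1': `SpStmt` without the equivariance hypothesis
-/

open scoped Manifold ContDiff Topology InnerProductSpace
open Filter Set Metric

noncomputable section

namespace Vale.Agent.P284.H174.EQ

open Vale.Agent.P272.K Vale.Agent.P284.H573 Vale.Agent.P284.H619 Vale.Agent.P284.H174.GD
  Vale.Agent.P284.H894 Vale.Agent.P284.H894.G Vale.Agent.P284.H837 Vale.Agent.P284.H248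
  Vale.Agent.P284.H998

section
variable {n R m : ℕ} {X : Type} [TopologicalSpace X] [ChartedSpace (Cm n) X]
  {E : Type} [TopologicalSpace E] {p : E → X} {Γ : Type} [Group Γ] [MulAction Γ E]
  {H : Type} [NormedAddCommGroup H] [InnerProductSpace ℂ H]
  {v : E → Chart n X → (Fin R → Cm n) → H}

/-- the curve of a normal form lies in the closed span of the values -/
lemma nf_mem [CompleteSpace H] (hp : IsCoveringMap p) {y₀ : E} {e : Chart n X} {b : Cm n → Cm R} {γ : Cm R → H}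
    (h : IsNF m p v y₀ e b γ) : ∀ᶠ x in 𝓝 (b (e (p y₀))), γ x ∈ VS p v := by
  have hξ : ∀ j : Fin R, ∃ x, fderiv ℂ b (e (p y₀)) x = Pi.single j 1 := fun j => h.bsurj _
  choose ξ₀ hξ₀ using hξ
  have hJ0 : Jd b (e (p y₀)) ξ₀ = 1 := by
    unfold Jd
    have : (Matrix.of fun i a => fderiv ℂ b (e (p y₀)) (ξ₀ a) i) =
        (1 : Matrix (Fin R) (Fin R) ℂ) := by
      ext i a
      rw [Matrix.of_apply, hξ₀, Matrix.one_apply, Pi.single_apply]
    rw [this, Matrix.det_one]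
  have hJ : ∀ᶠ z in 𝓝 (e (p y₀)), Jd b z ξ₀ ≠ 0 :=
    (jd_an h.ban ξ₀).continuousAt.eventually_ne (by rw [hJ0]; exact one_ne_zero)
  have hb : map b (𝓝 (e (p y₀))) = 𝓝 (b (e (p y₀))) :=
    h.ban.hasStrictFDerivAt.map_nhds_eq_of_surj (LinearMap.range_eq_top.2 h.bsurj)
  rw [← hb, eventually_map, ← ev_iff hp h.mem (Q := fun z => γ (b z) ∈ VS p v)]
  filter_upwards [h.nf, at_ev hp h.mem, (ev_iff hp h.mem).2 hJ] with y k1 k2 k3
  have k4 : v y e ξ₀ = Jd b (e (p y)) ξ₀ ^ m • γ (b (e (p y))) := k1 ξ₀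
  have k5 : γ (b (e (p y))) = (Jd b (e (p y)) ξ₀ ^ m)⁻¹ • v y e ξ₀ := by
    rw [k4, smul_smul, inv_mul_cancel₀ (pow_ne_zero _ k3), one_smul]
  rw [k5]
  exact (VS p v).smul_mem _ (mem_VS k2 ξ₀)

variable [CompleteSpace H]

/-- normal forms of `vS` -/
lemma nf_vS (hp : IsCoveringMap p) {y₀ : E} {e : Chart n X} {b : Cm n → Cm R} {γ : Cm R → H}
    (h : IsNF m p v y₀ e b γ) :
    IsNF m p (vS p v) y₀ e b (fun x => (VS p v).orthogonalProjectionOnto (γ x)) := by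
  set P := (VS p v).orthogonalProjectionOnto with hP
  have hPan : AnalyticAt ℂ (fun x => P (γ x)) (b (e (p y₀))) := (P.analyticAt _).comp h.γan
  have hmem := nf_mem hp h
  have hcoe : (fun x => ((P (γ x) : VS p v) : H)) =ᶠ[𝓝 (b (e (p y₀)))] γ := by
    filter_upwards [hmem] with x hx
    exact Submodule.starProjection_eq_self_iff.2 hx
  refine ⟨h.mem, h.ban, h.bsurj, hPan, ⟨fun h0 => h.imm.1 ?_, fun η c hη => ?_⟩, ?_⟩
  · have h1 : ((P (γ (b (e (p y₀)))) : VS p v) : H) = γ (b (e (p y₀))) := hcoe.self_of_nhds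
    have h2 : P (γ (b (e (p y₀)))) = 0 := h0
    rw [← h1, h2]
    rfl
  · refine h.imm.2 η c ?_
    have h1 : fderiv ℂ γ (b (e (p y₀))) =
        (VS p v).subtypeL.comp (fderiv ℂ (fun x => P (γ x)) (b (e (p y₀)))) := by
      rw [← hcoe.fderiv_eq]
      exact ((VS p v).subtypeL.hasFDerivAt.comp (b (e (p y₀)))
        hPan.differentiableAt.hasFDerivAt).fderiv
    rw [h1, ContinuousLinearMap.comp_apply, hη, map_smul]
    have h2 : ((P (γ (b (e (p y₀)))) : VS p v) : H) = γ (b (e (p y₀))) := hcoe.self_of_nhds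
    show c • ((P (γ (b (e (p y₀)))) : VS p v) : H) = _
    rw [h2]
  · filter_upwards [h.nf] with y k1 ξ
    show P (v y e ξ) = _
    rw [k1 ξ, map_smul]

/-- normal forms of `v` from those of `vS` -/
lemma nf_of_vS (hp : IsCoveringMap p) {y₀ : E} {e : Chart n X} {b : Cm n → Cm R}
    {γ : Cm R → VS p v} (h : IsNF m p (vS p v) y₀ e b γ) :
    IsNF m p v y₀ e b (fun x => (γ x : H)) := by
  have hd : fderiv ℂ (fun x => (γ x : H)) (b (e (p y₀))) =
      (VS p v).subtypeL.comp (fderiv ℂ γ (b (e (p y₀)))) :=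
    ((VS p v).subtypeL.hasFDerivAt.comp (b (e (p y₀)))
      h.γan.differentiableAt.hasFDerivAt).fderiv
  refine ⟨h.mem, h.ban, h.bsurj, ((VS p v).subtypeL.analyticAt _).comp h.γan,
    ⟨fun h0 => h.imm.1 (Subtype.ext h0), fun η c hη => h.imm.2 η c ?_⟩, ?_⟩
  · rw [hd] at hη
    exact Subtype.ext hη
  · filter_upwards [h.nf, at_ev hp h.mem] with y k1 k2 ξ
    have k3 : (vS p v y e ξ : H) = v y e ξ := vS_coe k2 ξ
    rw [← k3, k1 ξ]
    rfl

lemma goodAt_vS (hp : IsCoveringMap p) {y₀ : E} (h : GoodAt p R m v y₀) :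
    GoodAt p R m (vS p v) y₀ := by
  obtain ⟨e, b, γ, h⟩ := h
  exact ⟨e, b, _, nf_vS hp h⟩

variable {q : ℕ} {F : E → Cm q}

lemma nff_vS (hp : IsCoveringMap p) {y₀ : E} {e : Chart n X} {b : Cm n → Cm R} {γ : Cm R → H}
    {t : Cm R → Cm q} (h : NFF m p v F y₀ e b γ t) :
    NFF m p (vS p v) F y₀ e b (fun x => (VS p v).orthogonalProjectionOnto (γ x)) t :=
  ⟨nf_vS hp h.nf, h.tan, h.eq⟩

/-- local finiteness for `vS` -/
lemma lfin_vS (hp : IsCoveringMap p) (h : LFin Γ m p v F) : LFin Γ m p (vS p v) F := by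
  obtain ⟨S, hSF, hSv, hfin⟩ := h
  refine ⟨S, hSF, fun g hg y e he ξ => by rw [vS, hSv g hg y e he ξ]; rfl, ?_⟩
  intro y₀ e b γ t hN
  obtain ⟨r, hr, U, hU, hf⟩ := hfin y₀ e b (fun x => (γ x : H)) t
    ⟨nf_of_vS hp hN.nf, hN.tan, hN.eq⟩
  refine ⟨r, hr, U, hU, hf.subset ?_⟩
  rintro a ⟨g, hg, y, hy, x, hx, e', β, h1, h2, h3, h4⟩
  refine ⟨g, hg, y, hy, x, hx, e', β, h1, h2, h3, ?_⟩
  filter_upwards [h4, at_ev hp h1] with y' k1 k2
  refine ⟨fun ξ => ?_, k1.2⟩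
  obtain ⟨a, ha⟩ := k1.1 ξ
  refine ⟨a, ?_⟩
  have k3 : (vS p v y' e' ξ : H) = v y' e' ξ := vS_coe k2 ξ
  rw [← k3, ha]
  rfl

/-- local finiteness for a finite group of values -/
lemma lfin_of_finite (S : Subgroup Γ) (hS : S.FiniteIndex)
    (hSF : ∀ g ∈ S, ∀ y, F (g • y) = F y)
    (hSv : ∀ g ∈ S, ∀ y e, At e (p y) → ∀ ξ, v (g • y) e ξ = v y e ξ) : LFin Γ m p v F := by
  have : Finite (Γ ⧸ S) := S.finite_quotient_of_finiteIndex
  exact ⟨S, hSF, hSv, fun y₀ e b γ t _ => ⟨1, one_pos, univ, univ_mem, Set.toFinite _⟩⟩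

end

/-- **SP** without the equivariance hypothesis -/
theorem sp_noeqv (h : SpStmt) :
    ∀ (n : ℕ) (X : Type) [TopologicalSpace X] [T2Space X] [CompactSpace X] [ConnectedSpace X]
    [ChartedSpace (Cm n) X] [IsManifold 𝓘(ℂ, Cm n) ω X] (ι : Type) [Fintype ι] (_ : PJ n X ι)
    (_ : Special n X)
    (E Γ : Type) [TopologicalSpace E] [ConnectedSpace E] [Group Γ] [MulAction Γ E]
    (p : E → X) (_ : IsGalois Γ p)
    (q : ℕ) (F : E → Cm q) (c : Γ → Cm q)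
    (_ : ∀ (y : E) (e : Chart n X), At e (p y) → ∃ f : Cm n → Cm q,
      (∀ᶠ y' in 𝓝 y, F y' = f (e (p y'))) ∧ AnalyticAt ℂ f (e (p y)))
    (_ : ∀ g y, F (g • y) = F y + c g)
    (H : Type) [NormedAddCommGroup H] [InnerProductSpace ℂ H] [CompleteSpace H]
    (R m : ℕ) (_ : 1 ≤ R) (_ : 1 ≤ m) (v : E → Chart n X → (Fin R → Cm n) → H)
    (_ : HForm n R m p H v)
    (_ : ∃ y₀ e b γ t, NFF m p v F y₀ e b γ t) (_ : LFin Γ m p v F),
    False := by
  intro n X _ _ _ _ _ _ ι _ D hS E Γ _ _ _ _ p hG q F c hF hc H _ _ _ R m hR hm v hv hN hL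
  obtain ⟨y₀, e, b, γ, t, hN⟩ := hN
  refine h n X ι D hS E Γ p hG q F c hF hc (VS p v) R m hR hm (vS p v) (vS_hform hG.cov hv)
    (fun g => ?_) ⟨y₀, e, b, _, t, nff_vS hG.cov hN⟩ (lfin_vS hG.cov hL)
  obtain ⟨U, hU⟩ := vS_eqv hG hv g
  exact ⟨U.toLinearIsometry, hU⟩

end Vale.Agent.P284.H174.EQ
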