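import Vale.Agent.P284.H174.NS0Fix
import Vale.Agent.P284.H174.Alb3
import Vale.Agent.P284.H174.SigW
import Vale.Agent.P284.H174.SpE

/-!
# P284 (helper174): U for manifolds without Hilbert space valued forms invariant under a subgroup of
finite index
-/

open scoped Manifold ContDiff Topology InnerProductSpace
open Filter Set Metric

noncomputable section

namespace Vale.Agent.P284.H174

open Vale.Agent.P272.K Vale.Agent.P284.H573 Vale.Agent.P284.H894.G Vale.Agent.P284.H619
  Vale.Agent.P284.H221 Vale.Agent.P284.H998 Vale.Agent.P284.H894.W Vale.Agent.P284.H837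
  Vale.Agent.P284.H248

/-- No connected Galois covering of `X` carries a Hilbert space valued form with a good point which is
invariant under a subgroup of finite index. -/
def NoFE (n : ℕ) (X : Type) [TopologicalSpace X] [ChartedSpace (Cm n) X] : Prop :=
  ∀ (E Γ : Type) [TopologicalSpace E] [ConnectedSpace E] [Group Γ] [MulAction Γ E] (p : E → X),
    IsGalois Γ p → ∀ (S : Subgroup Γ), S.FiniteIndex → ∀ (R m : ℕ), 1 ≤ R → 1 ≤ m →
    ∀ (H : Type) [NormedAddCommGroup H] [InnerProductSpace ℂ H] [CompleteSpace H]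
      (v : E → Chart n X → (Fin R → Cm n) → H), HForm n R m p H v →
    (∀ g ∈ S, ∀ y e, At e (p y) → ∀ ξ, v (g • y) e ξ = v y e ξ) →
    (∃ y₀, GoodAt p R m v y₀) → False

/-- the kernel of the induced representation has finite index -/
theorem ker_indπ {Γ : Type} [Group Γ] (G : Subgroup Γ) [Fintype (Γ ⧸ G)] (q : ℕ) :
    (indπ G q).ker.FiniteIndex := by
  have : G.FiniteIndex := Subgroup.finiteIndex_of_finite_quotient
  have h1 : G.normalCore ≤ (indπ G q).ker := by
    intro g hg
    rw [MonoidHom.mem_ker]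
    ext v ⟨a, j⟩
    rw [indπ_apply]
    have h2 : g⁻¹ • a = a := by
      induction a using QuotientGroup.induction_on with
      | H h =>
        show ((g⁻¹ * h : Γ) : Γ ⧸ G) = (h : Γ ⧸ G)
        rw [QuotientGroup.eq]
        have h3 := (G.normalCore_normal).conj_mem g hg h⁻¹
        have h4 := G.normalCore_le h3
        have h5 : (g⁻¹ * h)⁻¹ * h = h⁻¹ * g * h⁻¹⁻¹ := by group
        rw [h5]
        exact h4
    rw [h2]
    rfl
  exact Subgroup.finiteIndex_of_le h1

/-- **U** from `NoFE` -/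
theorem regOn_of_noFE {n : ℕ} {X : Type} [TopologicalSpace X] [T2Space X]
    [ChartedSpace (Cm n) X] [IsManifold 𝓘(ℂ, Cm n) ω X] (hX : NoFE n X)
    {E Γ : Type} [TopologicalSpace E] [ConnectedSpace E] [Group Γ] [MulAction Γ E]
    {p : E → X} (hG : IsGalois Γ p) : RegOn (n := n) Γ p := by
  intro G hGfi q F c hF hequiv hspan
  have : Finite (Γ ⧸ G) := G.finite_quotient_of_finiteIndex
  have : Fintype (Γ ⧸ G) := Fintype.ofFinite _
  refine reg_core hG G q F c hF hequiv hspan fun Θ hΘ hπ =>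
    u_core n X E Γ p hG (IndV G q) (indπ G q) (fun r Θ' hc' hπ' h1 h2 y₀ e₀ he₀ h3 => ?_) Θ hΘ hπ
  obtain ⟨m, hm, H, _, _, _, v, hv, hgood, hfix⟩ :=
    ns0_fix n r X E Γ p hG (IndV G q) (indπ G q) Θ' hc' hπ' h1 h2 y₀ e₀ he₀ h3
  exact hX E Γ p hG (indπ G q).ker (ker_indπ G q) (r + 1) m (by omega) hm H v hv
    (fun g hg => hfix g ((indπ G q).mem_ker.1 hg)) ⟨y₀, hgood⟩

/-- dominable manifolds -/
theorem noFE_domW {n N : ℕ} {X : Type} [TopologicalSpace X] [T2Space X] [CompactSpace X]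
    [ChartedSpace (Cm n) X] [IsManifold 𝓘(ℂ, Cm n) ω X] {ι : Type} [Fintype ι] (D : PJ n X ι)
    (hD : GD.DomW N n X) : NoFE n X := by
  intro E Γ _ _ _ _ p hG S _ R m hR hm H _ _ _ v hv _ hgood
  exact GD.sigW n N R m hR hm X ι D hD E p hG.cov hG.surj H v hv hgood

/-- special manifolds -/
theorem noFE_special (h : SpStmt) {n : ℕ} {X : Type} [TopologicalSpace X] [T2Space X]
    [CompactSpace X] [ConnectedSpace X] [ChartedSpace (Cm n) X] [IsManifold 𝓘(ℂ, Cm n) ω X]
    {ι : Type} [Fintype ι] (D : PJ n X ι) (hS : Special n X) : NoFE n X := by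
  intro E Γ _ _ _ _ p hG S hSf R m hR hm H _ _ _ v hv hfix hgood
  obtain ⟨y₀, e, b, γ, hN⟩ := hgood
  refine EQ.sp_noeqv h n X ι D hS E Γ p hG 0 (fun _ => 0) (fun _ => 0)
    (fun y e _ => ⟨fun _ => 0, Eventually.of_forall fun _ => rfl, analyticAt_const⟩)
    (fun g y => (add_zero _).symm) H R m hR hm v hv
    ⟨y₀, e, b, γ, fun _ => 0, hN, analyticAt_const, Eventually.of_forall fun _ => rfl⟩
    (EQ.lfin_of_finite S hSf (fun _ _ _ => rfl) hfix)

end Vale.Agent.P284.H174
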