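import Vale.Agent.P284.H619.NS0A
import Vale.Agent.P284.H221.Rk

/-!
# P284 (helper174), module U: the rank of a closed 1-form on a covering; identity theorem
-/

open scoped Manifold ContDiff Topology InnerProductSpace
open Filter Set Metric

noncomputable section

namespace Vale.Agent.P284.H174

open Vale.Agent.P272.K Vale.Agent.P284.H573 Vale.Agent.P284.H894.G Vale.Agent.P284.H619
  Vale.Agent.P284.H221

section
variable {n k : ℕ} {W : Type} [NormedAddCommGroup W] [InnerProductSpace ℂ W]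

/-- a continuous projection detecting the rank -/
lemma exists_rho {L : Cm n →L[ℂ] W}
    (h : k ≤ Module.finrank ℂ (LinearMap.range (L : Cm n →ₗ[ℂ] W))) :
    ∃ ρ : W →L[ℂ] Cm k, Function.Surjective (ρ.comp L) := by
  set K := LinearMap.range (L : Cm n →ₗ[ℂ] W) with hK
  obtain ⟨v, hv⟩ := exists_linearIndependent_of_le_finrank h
  have hinj : Function.Injective (Fintype.linearCombination ℂ v) :=
    linearIndependent_iff_injective_fintypeLinearCombination.1 hv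
  obtain ⟨g, hg⟩ := (Fintype.linearCombination ℂ v).exists_leftInverse_of_injective
    (LinearMap.ker_eq_bot.2 hinj)
  refine ⟨(LinearMap.toContinuousLinearMap g).comp K.orthogonalProjectionOnto, fun t => ?_⟩
  obtain ⟨x, hx⟩ : ∃ x, g x = t := ⟨_, congrArg (fun M : Cm k →ₗ[ℂ] Cm k => M t) hg⟩
  obtain ⟨ξ, hξ⟩ := x.2
  refine ⟨ξ, ?_⟩
  have h1 : K.orthogonalProjectionOnto (L ξ) = x := by
    have h2 : L ξ = (x : W) := hξ
    rw [h2]
    exact Submodule.orthogonalProjectionOnto_mem_subspace_eq_self x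
  show g (K.orthogonalProjectionOnto (L ξ)) = t
  rw [h1, hx]

lemma le_rank_of_surj {L : Cm n →L[ℂ] W} {ρ : W →L[ℂ] Cm k}
    (h : Function.Surjective (ρ.comp L)) :
    k ≤ Module.finrank ℂ (LinearMap.range (L : Cm n →ₗ[ℂ] W)) := by
  have h1 : Function.Surjective
      ((ρ : W →ₗ[ℂ] Cm k).domRestrict (LinearMap.range (L : Cm n →ₗ[ℂ] W))) := by
    intro t
    obtain ⟨ξ, hξ⟩ := h t
    exact ⟨⟨L ξ, ξ, rfl⟩, hξ⟩
  have h2 := LinearMap.finrank_le_finrank_of_surjective h1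
  simpa using h2

end

section
variable {n k : ℕ} {X : Type} [TopologicalSpace X] [ChartedSpace (Cm n) X]
  {E : Type} [TopologicalSpace E] {p : E → X} {W : Type} [NormedAddCommGroup W]
  [InnerProductSpace ℂ W] {Θ : E → Chart n X → (Cm n →L[ℂ] W)}

lemma rk_change [IsManifold 𝓘(ℂ, Cm n) ω X] (hΘ : CForm n p W Θ) {y : E} {e e' : Chart n X}
    (he : At e (p y)) (he' : At e' (p y)) : rk Θ y e = rk Θ y e' := by
  unfold rk
  have h1 : LinearMap.range (Θ y e : Cm n →ₗ[ℂ] W) = LinearMap.range (Θ y e' : Cm n →ₗ[ℂ] W) := by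
    rw [hΘ.change y e e' he he']
    apply le_antisymm
    · rintro _ ⟨ξ, rfl⟩
      exact ⟨_, rfl⟩
    · rintro _ ⟨ξ, rfl⟩
      obtain ⟨η, hη⟩ := transition_surjective he he' ξ
      refine ⟨η, ?_⟩
      show Θ y e' (fderiv ℂ (fun z => e' (e.symm z)) (e (p y)) η) = _
      rw [hη]
      rfl
  rw [h1]

/-- semicontinuity of the rank -/
lemma rk_semi (hp : IsCoveringMap p) (hΘ : CForm n p W Θ) [CompleteSpace W] {y : E}
    {e : Chart n X} (he : At e (p y)) (h : k ≤ rk Θ y e) : ∀ᶠ y' in 𝓝 y, k ≤ rk Θ y' e := by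
  obtain ⟨ρ, hρ⟩ := exists_rho h
  obtain ⟨F, hF, hev⟩ := hΘ.loc y e he
  have hd : ∀ᶠ z in 𝓝 (e (p y)), fderiv ℂ (fun z => ρ (F z)) z = ρ.comp (fderiv ℂ F z) := by
    filter_upwards [hF.eventually_analyticAt] with z hz
    exact (ρ.hasFDerivAt.comp z hz.differentiableAt.hasFDerivAt).fderiv
  have h1 : Function.Surjective (fderiv ℂ (fun z => ρ (F z)) (e (p y))) := by
    rw [hd.self_of_nhds, ← hev.self_of_nhds]
    exact hρ
  obtain ⟨ι, hι⟩ := exists_mnr h1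
  have h2 : AnalyticAt ℂ (fun z => ρ (F z)) (e (p y)) := (ρ.analyticAt _).comp hF
  have h3 := (mnr_analytic h2 ι).continuousAt.eventually_ne hι
  rw [← ev_iff hp he] at h3 hd
  filter_upwards [h3, hd, hev] with y' a b c
  have h4 := surjective_of_mnr a
  rw [b, ← c] at h4
  exact le_rank_of_surj h4

/-- **identity theorem** for the rank -/
theorem rk_all [IsManifold 𝓘(ℂ, Cm n) ω X] [PreconnectedSpace E] [CompleteSpace W]
    (hp : IsCoveringMap p) (hΘ : CForm n p W Θ) {y₀ : E}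
    (h0 : ∀ᶠ y in 𝓝 y₀, ∀ e, At e (p y) → rk Θ y e < k) : ∀ y e, At e (p y) → rk Θ y e < k := by
  set Q : Set E := {y | ∀ᶠ y' in 𝓝 y, ∀ e, At e (p y') → rk Θ y' e < k} with hQ
  have hQo : IsOpen Q := isOpen_iff_mem_nhds.2 fun y hy => hy.eventually_nhds
  have hQc : IsClosed Q := by
    rw [← closure_subset_iff_isClosed]
    intro y₁ hy₁
    set e := chartAt (Cm n) (p y₁) with he_def
    have he : At e (p y₁) := ⟨chart_mem_atlas _ _, mem_chart_source _ _⟩
    obtain ⟨F, hF, hev⟩ := hΘ.loc y₁ e he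
    obtain ⟨ε, hε, hball⟩ := Metric.eventually_nhds_iff_ball.1 hF.eventually_analyticAt
    set B := ball (e (p y₁)) ε with hB
    have hBc : IsPreconnected B := (convex_ball _ _).isPreconnected
    have hd : ∀ (ρ : W →L[ℂ] Cm k), ∀ z ∈ B, fderiv ℂ (fun z => ρ (F z)) z =
        ρ.comp (fderiv ℂ F z) := fun ρ z hz =>
      (ρ.hasFDerivAt.comp z (hball z hz).differentiableAt.hasFDerivAt).fderiv
    have hfan : ∀ (ρ : W →L[ℂ] Cm k) (ι : Cm k →ₗ[ℂ] Cm n),
        AnalyticOnNhd ℂ (mnr (fun z => ρ (F z)) ι) B := fun ρ ι z hz =>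
      mnr_analytic ((ρ.analyticAt _).comp (hball z hz)) ι
    have hU : ∀ᶠ y' in 𝓝 y₁, e (p y') ∈ B ∧ At e (p y') ∧ Θ y' e = fderiv ℂ F (e (p y')) :=
      ((tendsto_ep hp he).eventually (ball_mem_nhds _ hε)).and ((at_ev hp he).and hev)
    obtain ⟨y₂, hy₂, hy₂Q⟩ := (mem_closure_iff_frequently.1 hy₁).and_eventually
      hU.eventually_nhds |>.exists
    have hz : ∀ (ρ : W →L[ℂ] Cm k) (ι : Cm k →ₗ[ℂ] Cm n),
        mnr (fun z => ρ (F z)) ι =ᶠ[𝓝 (e (p y₂))] 0 := by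
      intro ρ ι
      rw [Filter.EventuallyEq, ← ev_iff hp hy₂Q.self_of_nhds.2.1]
      filter_upwards [hy₂, hy₂Q] with y' h1 h2
      by_contra hne
      have h3 := surjective_of_mnr hne
      rw [hd ρ _ h2.1, ← h2.2.2] at h3
      exact absurd (le_rank_of_surj h3) (not_le.2 (h1 e h2.2.1))
    have hall : ∀ (ρ : W →L[ℂ] Cm k) (ι : Cm k →ₗ[ℂ] Cm n),
        EqOn (mnr (fun z => ρ (F z)) ι) 0 B := fun ρ ι =>
      (hfan ρ ι).eqOn_zero_of_preconnected_of_eventuallyEq_zero hBc hy₂Q.self_of_nhds.1 (hz ρ ι)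
    show ∀ᶠ y' in 𝓝 y₁, ∀ e, At e (p y') → rk Θ y' e < k
    filter_upwards [hU] with y' h2 e' he'
    rw [rk_change hΘ he' h2.2.1]
    by_contra hle
    obtain ⟨ρ, hρ⟩ := exists_rho (not_lt.1 hle)
    rw [h2.2.2, ← hd ρ _ h2.1] at hρ
    obtain ⟨ι, hι⟩ := exists_mnr hρ
    exact hι (hall ρ ι h2.1)
  have hQu : Q = univ := IsClopen.eq_univ ⟨hQc, hQo⟩ ⟨y₀, h0⟩
  intro y
  have : y ∈ Q := hQu ▸ mem_univ y
  exact this.self_of_nhds

/-- the points of large rank are dense -/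
theorem rk_dense [IsManifold 𝓘(ℂ, Cm n) ω X] [PreconnectedSpace E] [CompleteSpace W]
    (hp : IsCoveringMap p) (hΘ : CForm n p W Θ) {y₀ : E} {e₀ : Chart n X} (he₀ : At e₀ (p y₀))
    (h0 : k ≤ rk Θ y₀ e₀) (y : E) :
    ∃ᶠ y' in 𝓝 y, ∀ e, At e (p y') → k ≤ rk Θ y' e := by
  intro hcon
  refine absurd h0 (not_le.2 (rk_all hp hΘ (y₀ := y) ?_ y₀ e₀ he₀))
  filter_upwards [hcon] with y' h1 e he
  push Not at h1
  obtain ⟨e', he', h2⟩ := h1
  rwa [rk_change hΘ he he']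

end

end Vale.Agent.P284.H174
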