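import Vale.Agent.P284.H174.Rank
import Vale.Agent.P284.H221.SigS

/-!
# P284 (helper174), module U: the image of an equivariant closed 1-form is constant, from NS0 and SIG
-/

open scoped Manifold ContDiff Topology InnerProductSpace
open Filter Set Metric

noncomputable section

namespace Vale.Agent.P284.H174

open Vale.Agent.P272.K Vale.Agent.P284.H573 Vale.Agent.P284.H894.G Vale.Agent.P284.H619
  Vale.Agent.P284.H221 Vale.Agent.P284.H998

section
variable {n : ℕ} {X : Type} [TopologicalSpace X] [ChartedSpace (Cm n) X]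
  {E : Type} [TopologicalSpace E] {p : E → X} {W : Type} [NormedAddCommGroup W]
  [InnerProductSpace ℂ W] {Θ : E → Chart n X → (Cm n →L[ℂ] W)}

/-- composition of a closed form with a linear map -/
lemma cform_comp [CompleteSpace W] (hp : IsCoveringMap p) (hΘ : CForm n p W Θ) {W' : Type}
    [NormedAddCommGroup W'] [InnerProductSpace ℂ W'] (P : W →L[ℂ] W') :
    CForm n p W' fun y e => P.comp (Θ y e) := by
  refine ⟨fun y e he => ?_, fun y e e' he he' => ?_⟩
  · obtain ⟨F, hF, hev⟩ := hΘ.loc y e he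
    refine ⟨fun z => P (F z), (P.analyticAt _).comp hF, ?_⟩
    have h1 : ∀ᶠ z in 𝓝 (e (p y)), fderiv ℂ (fun z => P (F z)) z = P.comp (fderiv ℂ F z) := by
      filter_upwards [hF.eventually_analyticAt] with z hz
      exact (P.hasFDerivAt.comp z hz.differentiableAt.hasFDerivAt).fderiv
    rw [← ev_iff hp he] at h1
    filter_upwards [hev, h1] with y' a b
    rw [a, b]
  · show P.comp (Θ y e) = _
    rw [hΘ.change y e e' he he']
    rfl

/-- the vectors in the image of `Θ` at all points of rank `R` -/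
def cst (p : E → X) (Θ : E → Chart n X → (Cm n →L[ℂ] W)) (R : ℕ) : Submodule ℂ W where
  carrier := {c | ∀ y e, At e (p y) → rk Θ y e = R → c ∈ LinearMap.range (Θ y e : Cm n →ₗ[ℂ] W)}
  zero_mem' := fun y e _ _ => Submodule.zero_mem _
  add_mem' := fun ha hb y e he h => Submodule.add_mem _ (ha y e he h) (hb y e he h)
  smul_mem' := fun c _ ha y e he h => Submodule.smul_mem _ c (ha y e he h)

lemma rk_smul {Γ : Type} [Group Γ] [MulAction Γ E] {π : Γ →* (W ≃ₗᵢ[ℂ] W)} (hπ : Equi p π Θ)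
    (g : Γ) {y : E} {e : Chart n X} (he : At e (p y)) : rk Θ (g • y) e = rk Θ y e := by
  unfold rk
  have h1 : LinearMap.range (Θ (g • y) e : Cm n →ₗ[ℂ] W) =
      (LinearMap.range (Θ y e : Cm n →ₗ[ℂ] W)).map ((π g).toLinearEquiv : W →ₗ[ℂ] W) := by
    rw [hπ g y e he]
    ext x
    constructor
    · rintro ⟨ξ, rfl⟩
      exact ⟨_, ⟨ξ, rfl⟩, rfl⟩
    · rintro ⟨_, ⟨ξ, rfl⟩, rfl⟩
      exact ⟨ξ, rfl⟩
  rw [h1]
  exact LinearEquiv.finrank_map_eq (π g).toLinearEquiv _

lemma cst_inv {Γ : Type} [Group Γ] [MulAction Γ E] (hG : IsGalois Γ p)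
    {π : Γ →* (W ≃ₗᵢ[ℂ] W)} (hπ : Equi p π Θ) {R : ℕ} (g : Γ) {c : W} (hc : c ∈ cst p Θ R) :
    π g c ∈ cst p Θ R := by
  intro y e he h
  have hpy : p (g⁻¹ • y) = p y := ((hG.orb y (g⁻¹ • y)).2 ⟨g⁻¹, rfl⟩).symm
  have he' : At e (p (g⁻¹ • y)) := by rw [hpy]; exact he
  have h1 : rk Θ (g⁻¹ • y) e = R := by rw [rk_smul hπ _ he, h]
  obtain ⟨ξ, hξ⟩ := hc _ e he' h1
  refine ⟨ξ, ?_⟩
  have h2 := hπ g (g⁻¹ • y) e he'
  rw [smul_inv_smul] at h2
  rw [h2]
  show π g (Θ (g⁻¹ • y) e ξ) = π g c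
  rw [show Θ (g⁻¹ • y) e ξ = c from hξ]

end

/-- **U**, general form, from the absence of forms without constant vectors -/
theorem u_core (n : ℕ) (X : Type) [TopologicalSpace X] [T2Space X]
    [ChartedSpace (Cm n) X] [IsManifold 𝓘(ℂ, Cm n) ω X]
    (E Γ : Type) [TopologicalSpace E] [ConnectedSpace E] [Group Γ] [MulAction Γ E]
    (p : E → X) (hG : IsGalois Γ p) (W : Type) [NormedAddCommGroup W] [InnerProductSpace ℂ W]
    [CompleteSpace W] (π : Γ →* (W ≃ₗᵢ[ℂ] W))
    (hno : ∀ (r : ℕ) (Θ : E → Chart n X → (Cm n →L[ℂ] W)), CForm n p W Θ → Equi p π Θ →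
      (∀ y e, At e (p y) → rk Θ y e ≤ r + 1) →
      (∀ c : W, (∀ y e, At e (p y) → rk Θ y e = r + 1 → ∃ ξ, Θ y e ξ = c) → c = 0) →
      ∀ (y₀ : E) (e₀ : Chart n X), At e₀ (p y₀) → rk Θ y₀ e₀ = r + 1 → False)
    (Θ : E → Chart n X → (Cm n →L[ℂ] W)) (hΘ : CForm n p W Θ) (hπ : Equi p π Θ) :
    ∃ M : Submodule ℂ W, (∀ y e, At e (p y) → ∀ ξ, Θ y e ξ ∈ M) ∧
      ∃ y e, At e (p y) ∧ LinearMap.range (Θ y e : Cm n →ₗ[ℂ] W) = M := by
  have hp := hG.cov
  -- a point of maximal rank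
  obtain ⟨y₀, e₀, he₀, hmax⟩ : ∃ (y₀ : E) (e₀ : Chart n X), At e₀ (p y₀) ∧
      ∀ y e, At e (p y) → rk Θ y e ≤ rk Θ y₀ e₀ := by
    set S : Set ℕ := {k | ∃ (y : E) (e : Chart n X), At e (p y) ∧ rk Θ y e = k} with hS
    have hne : S.Nonempty := by
      obtain ⟨y⟩ : Nonempty E := inferInstance
      exact ⟨_, y, chartAt (Cm n) (p y), ⟨chart_mem_atlas _ _, mem_chart_source _ _⟩, rfl⟩
    have hb : BddAbove S := by
      refine ⟨n, ?_⟩
      rintro _ ⟨y, e, -, rfl⟩
      have := LinearMap.finrank_range_le (Θ y e : Cm n →ₗ[ℂ] W)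
      simpa [rk] using this
    obtain ⟨y₀, e₀, he₀, h1⟩ := Nat.sSup_mem hne hb
    exact ⟨y₀, e₀, he₀, fun y e he => by rw [h1]; exact le_csSup hb ⟨y, e, he, rfl⟩⟩
  set R := rk Θ y₀ e₀ with hR
  set M := cst p Θ R with hM
  have hMle : ∀ y e, At e (p y) → rk Θ y e = R → M ≤ LinearMap.range (Θ y e : Cm n →ₗ[ℂ] W) :=
    fun y e he h c hc => hc y e he h
  have hMfd : FiniteDimensional ℂ M :=
    Submodule.finiteDimensional_of_le (hMle y₀ e₀ he₀ rfl)
  set P : W →L[ℂ] W := ContinuousLinearMap.id ℂ W - M.starProjection with hP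
  have hPM : ∀ c ∈ M, P c = 0 := by
    intro c hc
    have h1 : M.starProjection c = c := Submodule.starProjection_eq_self_iff.2 hc
    show c - M.starProjection c = 0
    rw [h1, sub_self]
  have hPsub : ∀ x, x - P x ∈ M := by
    intro x
    have h1 : x - P x = M.starProjection x := by
      show x - (x - M.starProjection x) = _
      abel
    rw [h1, Submodule.starProjection_apply]
    exact (M.orthogonalProjectionOnto x).2
  have hPker : ∀ x, P x = 0 → x ∈ M := by
    intro x hx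
    have := hPsub x
    rwa [hx, sub_zero] at this
  have hPP : ∀ x, P (P x) = P x := by
    intro x
    have h1 := hPM _ (hPsub x)
    rw [map_sub, sub_eq_zero] at h1
    exact h1.symm
  set Θ' : E → Chart n X → (Cm n →L[ℂ] W) := fun y e => P.comp (Θ y e) with hΘ'
  have hc' : CForm n p W Θ' := cform_comp hp hΘ P
  have hPπ : ∀ (g : Γ) (x : W), P (π g x) = π g (P x) := by
    intro g x
    have h1 : M.map ((π g).toLinearEquiv : W →ₗ[ℂ] W) = M := by
      apply le_antisymm
      · rintro _ ⟨c, hc, rfl⟩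
        exact cst_inv hG hπ g hc
      · intro c hc
        refine ⟨π g⁻¹ c, cst_inv hG hπ g⁻¹ hc, ?_⟩
        show π g (π g⁻¹ c) = c
        have h5 : (π g * π g⁻¹) c = c := by
          rw [← map_mul, mul_inv_cancel, map_one]
          rfl
        exact h5
    have h2 : M.starProjection (π g x) = π g (M.starProjection x) := by
      refine Submodule.eq_starProjection_of_mem_of_inner_eq_zero ?_ ?_
      · refine cst_inv hG hπ g ?_
        rw [Submodule.starProjection_apply]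
        exact (M.orthogonalProjectionOnto x).2
      · intro c hc
        rw [← h1] at hc
        obtain ⟨c', hc', rfl⟩ := hc
        show ⟪π g x - π g (M.starProjection x), π g c'⟫_ℂ = 0
        rw [← map_sub, LinearIsometryEquiv.inner_map_map]
        exact Submodule.starProjection_inner_eq_zero x c' hc'
    show π g x - M.starProjection (π g x) = π g (x - M.starProjection x)
    rw [h2, map_sub]
  have hπ' : Equi p π Θ' := by
    intro g y e he
    ext ξ
    show P (Θ (g • y) e ξ) = π g (P (Θ y e ξ))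
    rw [hπ g y e he, ← hPπ]
    rfl
  -- the rank of `Θ'` at the points of maximal rank
  have hrk' : ∀ y e, At e (p y) → rk Θ y e = R →
      rk Θ' y e + Module.finrank ℂ M = R := by
    intro y e he h
    set K := LinearMap.range (Θ y e : Cm n →ₗ[ℂ] W) with hK
    have h1 : LinearMap.range (Θ' y e : Cm n →ₗ[ℂ] W) =
        LinearMap.range ((P : W →ₗ[ℂ] W).domRestrict K) := by
      ext x
      constructor
      · rintro ⟨ξ, rfl⟩
        exact ⟨⟨Θ y e ξ, ξ, rfl⟩, rfl⟩
      · rintro ⟨⟨_, ξ, rfl⟩, rfl⟩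
        exact ⟨ξ, rfl⟩
    have h2 := LinearMap.finrank_range_add_finrank_ker ((P : W →ₗ[ℂ] W).domRestrict K)
    have h3 : LinearMap.ker ((P : W →ₗ[ℂ] W).domRestrict K) = M.comap K.subtype := by
      ext x
      constructor
      · intro hx
        exact hPker _ hx
      · intro hx
        exact hPM _ hx
    have h4 : Module.finrank ℂ (M.comap K.subtype) = Module.finrank ℂ M :=
      (Submodule.comapSubtypeEquivOfLe (hMle y e he h)).finrank_eq
    rw [h3, h4, ← h1] at h2
    rw [← h]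
    exact h2
  have hle' : ∀ y e, At e (p y) → rk Θ' y e + Module.finrank ℂ M ≤ R := by
    intro y e he
    by_contra hcon
    have h1 := rk_semi (k := rk Θ' y e) hp hc' he le_rfl
    obtain ⟨y', h2, h3, h4⟩ := ((rk_dense hp hΘ he₀ le_rfl y).and_eventually
      (h1.and (at_ev hp he))).exists
    have h5 := h2 e h4
    have h6 := hrk' y' e h4 (le_antisymm (hmax y' e h4) h5)
    omega
  rcases Nat.eq_zero_or_pos (R - Module.finrank ℂ M) with hz | hpos
  · -- rank zero
    refine ⟨M, fun y e he ξ => ?_, y₀, e₀, he₀, ?_⟩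
    · have h1 := hle' y e he
      have h2 : rk Θ' y e = 0 := by omega
      have h3 : LinearMap.range (Θ' y e : Cm n →ₗ[ℂ] W) = ⊥ := by
        have : FiniteDimensional ℂ (LinearMap.range (Θ' y e : Cm n →ₗ[ℂ] W)) := inferInstance
        exact Submodule.finrank_eq_zero.1 h2
      have h4 : Θ' y e ξ = 0 := by
        have h5 : (Θ' y e : Cm n →ₗ[ℂ] W) ξ ∈ LinearMap.range (Θ' y e : Cm n →ₗ[ℂ] W) := ⟨ξ, rfl⟩
        rw [h3] at h5
        exact (Submodule.mem_bot ℂ).1 h5
      exact hPker _ h4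
    · have h1 := hrk' y₀ e₀ he₀ rfl
      have h2 := hMle y₀ e₀ he₀ rfl
      refine (Submodule.eq_of_le_of_finrank_eq h2 ?_).symm
      show Module.finrank ℂ M = R
      omega
  · -- contradiction
    exfalso
    obtain ⟨r, hr⟩ : ∃ r, R - Module.finrank ℂ M = r + 1 := ⟨R - Module.finrank ℂ M - 1, by omega⟩
    exact hno r Θ' hc' hπ'
      (fun y e he => by have := hle' y e he; omega)
      (fun c hc => by
        have h1 : c ∈ M := by
          intro y e he h
          have h2 := hrk' y e he h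
          obtain ⟨ξ, hξ⟩ := hc y e he (by omega)
          have h3 : Θ y e ξ - c ∈ M := by
            rw [← hξ]
            exact hPsub (Θ y e ξ)
          have h4 := hMle y e he h h3
          have h5 : Θ y e ξ ∈ LinearMap.range (Θ y e : Cm n →ₗ[ℂ] W) := ⟨ξ, rfl⟩
          have h6 := Submodule.sub_mem _ h5 h4
          rwa [sub_sub_cancel] at h6
        have h7 := hrk' y₀ e₀ he₀ rfl
        obtain ⟨ξ, hξ⟩ := hc y₀ e₀ he₀ (by omega)
        rw [← hξ]
        show P (Θ y₀ e₀ ξ) = 0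
        rw [← hPP]
        have h8 : P (Θ y₀ e₀ ξ) = c := hξ
        rw [h8]
        exact hPM c h1) y₀ e₀ he₀ (by have := hrk' y₀ e₀ he₀ rfl; omega)

/-- **U**, general form -/
theorem u_main (h0 : NS0Stmt) (hs : SigStmt) (n N : ℕ) (X : Type) [TopologicalSpace X] [T2Space X]
    [CompactSpace X] [ChartedSpace (Cm n) X] [IsManifold 𝓘(ℂ, Cm n) ω X]
    (ι : Type) [Fintype ι] (D : PJ n X ι) (hD : Dom N n X)
    (E Γ : Type) [TopologicalSpace E] [ConnectedSpace E] [Group Γ] [MulAction Γ E]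
    (p : E → X) (hG : IsGalois Γ p) (W : Type) [NormedAddCommGroup W] [InnerProductSpace ℂ W]
    [CompleteSpace W] (π : Γ →* (W ≃ₗᵢ[ℂ] W)) (Θ : E → Chart n X → (Cm n →L[ℂ] W))
    (hΘ : CForm n p W Θ) (hπ : Equi p π Θ) :
    ∃ M : Submodule ℂ W, (∀ y e, At e (p y) → ∀ ξ, Θ y e ξ ∈ M) ∧
      ∃ y e, At e (p y) ∧ LinearMap.range (Θ y e : Cm n →ₗ[ℂ] W) = M := by
  refine u_core n X E Γ p hG W π (fun r Θ' hc' hπ' h1 h2 y₀ e₀ he₀ h3 => ?_) Θ hΘ hπ
  obtain ⟨m, hm, H, _, _, _, v, hv, hgood⟩ := h0 n r X E Γ p hG W π Θ' hc' hπ' h1 h2 y₀ e₀ he₀ h3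
  exact hs n N (r + 1) m (by omega) hm X ι D hD E p hG.cov hG.surj H v hv ⟨y₀, hgood⟩

end Vale.Agent.P284.H174
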